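import Vale.Agent.P218CO.Sys
import Vale.Agent.P218XI.Fun
import Vale.Agent.P218GA.ModelB

/-! # The configuration map and the geometric operator: definitions -/

open Set Filter Metric Topology
open scoped ContDiff Matrix

noncomputable section

set_option linter.unusedSectionVars false
set_option linter.unusedVariables false

namespace Vale.Agent.P218CO

open Vale.Agent.P218VA Vale.Agent.P218MP Vale.Agent.P272.K.LIN
open Vale.Agent.P218GA (Model E3 cx mat)
open Vale.Agent.P218XI (Frame cylF coneF kap)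

/-- the infinitesimal rotation which tilts the third axis -/
def skw (b1 b2 : ℂ) : Matrix (Fin 3) (Fin 3) ℂ := !![0, 0, b1; 0, 0, b2; -b1, -b2, 0]

/-- the Cayley transform -/
def cay (b1 b2 : ℂ) : Matrix (Fin 3) (Fin 3) ℂ :=
  1 + (1 + (b1 ^ 2 + b2 ^ 2) / 4)⁻¹ • (skw b1 b2 + (1 / 2 : ℂ) • (skw b1 b2 * skw b1 b2))

/-- the sign given by a Boolean -/
def sgn (b : Bool) : ℝ := if b then 1 else -1

/-- the operator for the orientation given by a Boolean -/
def EndOp.orient (o : EndOp) (b : Bool) : EndOp := if b then o else o.flip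

variable {S : Set E3} {w : E3 → ℝ} {δ C : ℝ} {ι κ M : Type} [TopologicalSpace M]
  [ChartedSpace E2 M] (m : Model S w δ C ι κ M)

/-- the frames of the ends -/
def fr : ι ⊕ κ → Frame := Sum.elim (fun _ => cylF) fun k => coneF (m.L k)

/-- the scale of the angular coordinate -/
def scl : ι ⊕ κ → ℝ → ℂ := Sum.elim (fun _ => kap) fun _ _ => 1

/-- the functions which describe the ends of the model -/
def ub : ι ⊕ κ → ℝ × ℝ → ℝ := Sum.elim m.U m.t

/-- the rotations of the ends -/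
def rotM (j : ι ⊕ κ) (B : ι × Fin 2 → ℂ) : Matrix (Fin 3) (Fin 3) ℂ :=
  Sum.elim (fun i => mat (m.Q i) * cay (B (i, 0)) (B (i, 1))) (fun _ => 1) j

variable (ε : ι ⊕ κ → Bool)

/-- the angular coordinate on the end `j` -/
def tE (j : ι ⊕ κ) (p : ℝ × ℝ) (U : ℂ) : ℂ := scl j p.1 * (ub m j p + sgn (ε j) * U)

/-- the position on the end `j` -/
def XE (j : ι ⊕ κ) (p : ℝ × ℝ) (U : ℂ) (B : ι × Fin 2 → ℂ) : C3 :=
  rotM m j B *ᵥ (fr m j).X p.1 p.2 (tE m ε j p U)

/-- its derivative in `U` -/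
def TE (j : ι ⊕ κ) (p : ℝ × ℝ) (U : ℂ) (B : ι × Fin 2 → ℂ) : C3 :=
  (scl j p.1 * sgn (ε j)) • rotM m j B *ᵥ (fr m j).Xt p.1 p.2 (tE m ε j p U)

variable [Fintype ι] [Fintype κ] (a : ℝ)

/-- The configuration map: normal graphs below the level `a`, angular graphs above the level
`a + 1`; the tilt is switched on between the levels `a + 1` and `a + 2`. -/
def Phi (y : M) (U : ℂ) (B : ι × Fin 2 → ℂ) : C3 :=
  (((ends m).core a y : ℝ) : ℂ) • (cx (m.F y) + U • cx (m.nu y)) +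
    ∑ j, (((ends m).cut j a y : ℝ) : ℂ) • (ends m).onEnd j
      (fun p => XE m ε j p U (((st (a + 1) p.1 : ℝ) : ℂ) • B)) y

/-- its derivative in `U` -/
def Tv (y : M) (U : ℂ) (B : ι × Fin 2 → ℂ) : C3 :=
  (((ends m).core a y : ℝ) : ℂ) • cx (m.nu y) +
    ∑ j, (((ends m).cut j a y : ℝ) : ℂ) • (ends m).onEnd j
      (fun p => TE m ε j p U (((st (a + 1) p.1 : ℝ) : ℂ) • B)) y

/-- the surface given by a function and a tilt -/
def surf (U : M → ℂ) (B : ι × Fin 2 → ℂ) (y : M) : C3 := Phi m ε a y (U y) B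

/-- the geometric operator -/
def geoN (U : M → ℂ) (B : ι × Fin 2 → ℂ) (x : M) : ℂ :=
  -ELM (fun y => cx (m.F y)) (surf m ε a U B) x (Tv m ε a x (U x) B)

/-- the orientations agree above the level `a` -/
def Orient : Prop := ∀ j (p : ℝ × ℝ), a ≤ p.1 → 0 < (cx (m.nu ((ends m).Y j p)) ⬝ᵥ TE m ε j p 0 0).re

/-- the geometric operator with given forms in charts and on the ends -/
def geoOp (op : ι ⊕ κ → EndOp) (Nj : OpenPartialHomeomorph M E2 → E2 → J2 ℂ × (ι × Fin 2 → ℂ) → ℂ)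
    (G : ι ⊕ κ → ℝ × ℝ → T3 ℂ → ℂ) : CoreOp (ι ⊕ κ) (ι × Fin 2) M :=
  ⟨ends m, geoN m ε a, Nj, fun j => (op j).orient (ε j), G⟩

/-- the boundary values at the level `s`: three modes on cylindrical ends, none on conical ends -/
def geoBd : ι ⊕ κ → ℝ → (ι × Fin 3 → ℂ) →L[ℂ] ℂ :=
  Sum.elim (fun i θ => ContinuousLinearMap.proj (i, 0) +
    ((Real.cos θ : ℝ) : ℂ) • ContinuousLinearMap.proj (i, 1) +
    ((Real.sin θ : ℝ) : ℂ) • ContinuousLinearMap.proj (i, 2)) fun _ _ => 0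

end Vale.Agent.P218CO
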