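import Mathlib

/-! # Complexification of a real normed space

`Cx V` is the space of real linear maps `ℂ → V`; the element `u + i v` is the map
`z ↦ re z • u - im z • v`, and `c • T` is `z ↦ T (z * c)`. -/

open Complex

noncomputable section

set_option linter.unusedSectionVars false

namespace Vale.Agent.P218CO

/-- The complexification of a real normed space. -/
def Cx (V : Type*) [NormedAddCommGroup V] [NormedSpace ℝ V] : Type _ := ℂ →L[ℝ] V

namespace Cx

variable {V V' W : Type*} [NormedAddCommGroup V] [NormedSpace ℝ V]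
  [NormedAddCommGroup V'] [NormedSpace ℝ V'] [NormedAddCommGroup W] [NormedSpace ℂ W]

instance : NormedAddCommGroup (Cx V) := inferInstanceAs (NormedAddCommGroup (ℂ →L[ℝ] V))

instance [CompleteSpace V] : CompleteSpace (Cx V) := inferInstanceAs (CompleteSpace (ℂ →L[ℝ] V))

/-- the underlying real linear map -/
def toL (p : Cx V) : ℂ →L[ℝ] V := p

/-- the element given by a real linear map -/
def ofL (p : ℂ →L[ℝ] V) : Cx V := p

lemma norm_toL (p : Cx V) : ‖p.toL‖ = ‖p‖ := rfl

lemma toL_add (p q : Cx V) : (p + q).toL = p.toL + q.toL := rfl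

lemma ext_toL {p q : Cx V} (h : ∀ z, p.toL z = q.toL z) : p = q := ContinuousLinearMap.ext h

instance : SMul ℂ (Cx V) := ⟨fun c p => ofL (p.toL.comp (ContinuousLinearMap.mul ℝ ℂ c))⟩

lemma smul_toL (c : ℂ) (p : Cx V) (z : ℂ) : (c • p).toL z = p.toL (c * z) := rfl

instance : Module ℂ (Cx V) where
  one_smul p := ext_toL fun z => by rw [smul_toL, one_mul]
  mul_smul a b p := ext_toL fun z => by
    rw [smul_toL, smul_toL, smul_toL]
    congr 1
    ring
  smul_zero c := ext_toL fun z => rfl
  smul_add c p q := ext_toL fun z => rfl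
  add_smul a b p := ext_toL fun z => by
    rw [smul_toL, toL_add, add_apply, smul_toL, smul_toL, add_mul, map_add]
  zero_smul p := ext_toL fun z => by
    rw [smul_toL, zero_mul, map_zero]
    rfl

instance : NormedSpace ℂ (Cx V) where
  norm_smul_le c p := by
    refine ContinuousLinearMap.opNorm_le_bound (c • p).toL (by positivity) fun z => ?_
    rw [smul_toL]
    refine (p.toL.le_opNorm _).trans (le_of_eq ?_)
    rw [norm_mul, norm_toL]
    ring

/-- real part -/
def re (p : Cx V) : V := p.toL 1

/-- imaginary part -/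
def im (p : Cx V) : V := -p.toL I

lemma toL_apply (p : Cx V) (z : ℂ) : p.toL z = z.re • p.re - z.im • p.im := by
  conv_lhs => rw [← re_add_im z]
  have h1 : ((z.re : ℂ)) = z.re • (1 : ℂ) := by simp
  have h2 : ((z.im : ℂ) * I) = z.im • I := by simp
  rw [map_add, h1, h2, map_smul, map_smul, re, im]
  simp

@[ext] lemma ext {p q : Cx V} (h1 : p.re = q.re) (h2 : p.im = q.im) : p = q :=
  ext_toL fun z => by rw [toL_apply, toL_apply, h1, h2]

/-- the element `u + i v` -/
def mk (u v : V) : Cx V := ofL (reCLM.smulRight u - imCLM.smulRight v)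

@[simp] lemma re_mk (u v : V) : (mk u v).re = u := by simp [re, mk, ofL, toL]
@[simp] lemma im_mk (u v : V) : (mk u v).im = v := by simp [im, mk, ofL, toL]
@[simp] lemma re_add (p q : Cx V) : (p + q).re = p.re + q.re := rfl
@[simp] lemma im_add (p q : Cx V) : (p + q).im = p.im + q.im := by
  simp only [im, toL_add, add_apply]
  abel
@[simp] lemma re_zero : (0 : Cx V).re = 0 := rfl
@[simp] lemma im_zero : (0 : Cx V).im = 0 := neg_zero
@[simp] lemma re_neg (p : Cx V) : (-p).re = -p.re := rfl
@[simp] lemma im_neg (p : Cx V) : (-p).im = -p.im := rfl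
@[simp] lemma re_sub (p q : Cx V) : (p - q).re = p.re - q.re := by
  rw [sub_eq_add_neg, re_add, re_neg, sub_eq_add_neg]
@[simp] lemma im_sub (p q : Cx V) : (p - q).im = p.im - q.im := by
  rw [sub_eq_add_neg, im_add, im_neg, sub_eq_add_neg]

lemma re_smul (c : ℂ) (p : Cx V) : (c • p).re = c.re • p.re - c.im • p.im := by
  rw [re, smul_toL, mul_one, toL_apply]

lemma im_smul (c : ℂ) (p : Cx V) : (c • p).im = c.im • p.re + c.re • p.im := by
  rw [im, smul_toL, toL_apply]
  simp only [mul_re, I_re, mul_zero, I_im, mul_one, zero_sub, neg_smul, mul_im, add_zero]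
  abel

lemma norm_re_le (p : Cx V) : ‖p.re‖ ≤ ‖p‖ := by
  have := p.toL.le_opNorm 1
  rwa [norm_one, mul_one] at this

lemma norm_im_le (p : Cx V) : ‖p.im‖ ≤ ‖p‖ := by
  rw [im, norm_neg]
  have := p.toL.le_opNorm I
  rwa [norm_I, mul_one] at this

lemma norm_le (p : Cx V) : ‖p‖ ≤ ‖p.re‖ + ‖p.im‖ := by
  refine ContinuousLinearMap.opNorm_le_bound p.toL (by positivity) fun z => ?_
  rw [toL_apply]
  refine (norm_sub_le _ _).trans ?_
  rw [norm_smul, norm_smul, add_mul, mul_comm ‖p.re‖, mul_comm ‖p.im‖]
  gcongr
  · exact abs_re_le_norm z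
  · exact abs_im_le_norm z

lemma real_smul (r : ℝ) (p : Cx V) : r • p = (r : ℂ) • p := rfl

/-- real part as a real linear map -/
def reL : Cx V →L[ℝ] V :=
  LinearMap.mkContinuous
    { toFun := re
      map_add' := re_add
      map_smul' := fun r p => by rw [real_smul, re_smul]; simp } 1
    fun p => by simpa using norm_re_le p

/-- imaginary part as a real linear map -/
def imL : Cx V →L[ℝ] V :=
  LinearMap.mkContinuous
    { toFun := im
      map_add' := im_add
      map_smul' := fun r p => by rw [real_smul, im_smul]; simp } 1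
    fun p => by simpa using norm_im_le p

@[simp] lemma reL_apply (p : Cx V) : reL p = p.re := rfl
@[simp] lemma imL_apply (p : Cx V) : imL p = p.im := rfl

/-- the inclusion of the real space -/
def ofR : V →L[ℝ] Cx V :=
  LinearMap.mkContinuous
    { toFun := fun u => mk u 0
      map_add' := fun u v => by ext <;> simp
      map_smul' := fun r u => by
        rw [real_smul]
        ext
        · rw [re_smul]; simp
        · rw [im_smul]; simp } 1
    fun u => by simpa using norm_le (mk u 0)

@[simp] lemma re_ofR (u : V) : (ofR u).re = u := re_mk u 0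
@[simp] lemma im_ofR (u : V) : (ofR u).im = 0 := im_mk u 0

lemma eq_ofR {p : Cx V} (h : p.im = 0) : p = ofR p.re := by ext <;> simp [h]

lemma re_add_im (p : Cx V) : ofR p.re + I • ofR p.im = p := by
  ext <;> simp [re_smul, im_smul]

lemma norm_ofR (u : V) : ‖ofR u‖ = ‖u‖ :=
  le_antisymm (by simpa using norm_le (ofR u)) (by simpa using norm_re_le (ofR u))

/-- the real elements form a closed set -/
lemma isClosed_real : IsClosed {p : Cx V | p.im = 0} :=
  isClosed_eq (imL (V := V)).continuous continuous_const

/-- Complex linear extension of a real linear map into a complex space. -/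
def lift (T : V →L[ℝ] W) : Cx V →L[ℂ] W :=
  LinearMap.mkContinuous
    { toFun := fun p => T p.re + I • T p.im
      map_add' := fun p q => by
        simp only [re_add, im_add, map_add, smul_add]
        abel
      map_smul' := fun c p => by
        simp only [re_smul, im_smul, map_sub, map_add, map_smul, RingHom.id_apply]
        conv_rhs => rw [← Complex.re_add_im c]
        simp only [← Complex.coe_smul, smul_add, smul_smul]
        have h1 : ((c.re : ℂ) + c.im * I) * I = I * c.re - c.im := by
          rw [add_mul, mul_assoc, I_mul_I]; ring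
        rw [h1, add_smul, sub_smul, mul_comm I (c.im : ℂ)]
        abel } (2 * ‖T‖) fun p => by
    show ‖T p.re + I • T p.im‖ ≤ _
    refine (norm_add_le _ _).trans ?_
    rw [norm_smul, norm_I, one_mul]
    have h1 := (T.le_opNorm p.re).trans (mul_le_mul_of_nonneg_left (norm_re_le p) (norm_nonneg T))
    have h2 := (T.le_opNorm p.im).trans (mul_le_mul_of_nonneg_left (norm_im_le p) (norm_nonneg T))
    linarith

lemma lift_apply (T : V →L[ℝ] W) (p : Cx V) : lift T p = T p.re + I • T p.im := rfl

@[simp] lemma lift_ofR (T : V →L[ℝ] W) (u : V) : lift T (ofR u) = T u := by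
  simp [lift_apply]

lemma norm_lift_le (T : V →L[ℝ] W) : ‖lift T‖ ≤ 2 * ‖T‖ :=
  LinearMap.mkContinuous_norm_le _ (by positivity) _

/-- Complex linear maps which agree on real elements are equal. -/
lemma clm_ext {A B : Cx V →L[ℂ] W} (h : ∀ u, A (ofR u) = B (ofR u)) : A = B := by
  ext p
  rw [← re_add_im p, map_add, map_add, map_smul, map_smul, h, h]

lemma eq_lift (A : Cx V →L[ℂ] W) : A = lift ((A.restrictScalars ℝ).comp ofR) :=
  clm_ext fun u => by simp

lemma isCompactOperator_lift {T : V →L[ℝ] W} (hT : IsCompactOperator T) :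
    IsCompactOperator (lift T) := by
  have h1 : IsCompactOperator (T ∘ (reL : Cx V →L[ℝ] V)) := hT.comp_clm _
  have h2 : IsCompactOperator (T ∘ (imL : Cx V →L[ℝ] V)) := hT.comp_clm _
  exact h1.add (h2.smul I)

/-- If `W` is the direct sum of the images of `V'` under `j` and `I • j`, the extension of
`j ∘ T` is bijective for bijective `T`. -/
lemma bijective_lift {j : V' →L[ℝ] W} (hj : ∀ a b, j a + I • j b = 0 → a = 0 ∧ b = 0)
    (hs : ∀ y, ∃ a b, j a + I • j b = y) {T : V →L[ℝ] V'} (hT : Function.Bijective T) :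
    Function.Bijective (lift (j.comp T)) := by
  constructor
  · rw [injective_iff_map_eq_zero]
    intro p hp
    obtain ⟨h1, h2⟩ := hj (T p.re) (T p.im) hp
    ext
    · exact hT.1 (by rw [h1, re_zero, map_zero])
    · exact hT.1 (by rw [h2, im_zero, map_zero])
  · intro y
    obtain ⟨a, b, rfl⟩ := hs y
    obtain ⟨u, rfl⟩ := hT.2 a
    obtain ⟨v, rfl⟩ := hT.2 b
    exact ⟨mk u v, by simp [lift_apply]⟩

end Cx

end Vale.Agent.P218CO
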