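import Vale.Agent.P218CO.Op
import Vale.Agent.P218CO.Cx
import Vale.Agent.P272.K.LIN.C2
import Mathlib.MeasureTheory.Integral.Bochner.Basic

/-! # The system on the closed surface: definitions -/

open Set Filter Metric Topology MeasureTheory
open scoped ContDiff

noncomputable section

set_option linter.unusedSectionVars false
set_option linter.unusedVariables false

namespace Vale.Agent.P218CO

open Vale.Agent.P218VA Vale.Agent.P218MP Vale.Agent.P272.K.LIN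

variable {σ M : Type} [TopologicalSpace M] [ChartedSpace E2 M]

/-- The operator on the punctured surface, its form in charts and on the ends. -/
structure CoreOp (σ β M : Type) [TopologicalSpace M] [ChartedSpace E2 M] where
  /-- the ends -/
  𝓔 : Ends σ M
  /-- the operator on a function and a parameter -/
  N : (M → ℂ) → (β → ℂ) → M → ℂ
  /-- the operator on jets in a chart -/
  Nj : OpenPartialHomeomorph M E2 → E2 → J2 ℂ × (β → ℂ) → ℂ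
  /-- the operators on the ends -/
  op : σ → EndOp
  /-- the factor between the two forms -/
  G : σ → ℝ × ℝ → T3 ℂ → ℂ

/-- real valued functions of class `C^{2,1/2}` -/
def VR (𝒞 : Cov E2 M) : Type := 𝒞.C2 (1 / 2)

instance (𝒞 : Cov E2 M) : NormedAddCommGroup (VR 𝒞) :=
  inferInstanceAs (NormedAddCommGroup (𝒞.C2 (1 / 2)))

instance (𝒞 : Cov E2 M) : NormedSpace ℝ (VR 𝒞) := inferInstanceAs (NormedSpace ℝ (𝒞.C2 (1 / 2)))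

instance (𝒞 : Cov E2 M) [T2Space M] [RSm E2 M] : CompleteSpace (VR 𝒞) :=
  𝒞.completeSpace_C2 (by norm_num)

/-- the underlying function -/
def fnR {𝒞 : Cov E2 M} (v : VR 𝒞) : M → ℝ := 𝒞.fn (α := 1 / 2) v

/-- complex valued functions of class `C^{2,1/2}` -/
abbrev VC (𝒞 : Cov E2 M) : Type := Cx (VR 𝒞)

/-- the underlying function -/
def fnC {𝒞 : Cov E2 M} (v : VC 𝒞) (x : M) : ℂ := fnR v.re x + Complex.I * fnR v.im x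

/-- the unknowns: function, parameter, multipliers -/
abbrev XX (𝒞 : Cov E2 M) (β Λ : Type) : Type := VC 𝒞 × (β → ℂ) × (Λ → ℂ)

/-- the moments -/
def mom [MeasurableSpace M] (μ0 : Measure M) {τ : Type} (e' : τ → M → ℝ) (U : M → ℂ) (i : τ) : ℂ :=
  ∫ x, (e' i x : ℂ) * U x ∂μ0

/-- growth at most `w ^ q` on all ends -/
def Ends.Gr (𝓔 : Ends σ M) (q : ℝ) (U : M → ℝ) : Prop :=
  ∃ C W : ℝ, ∀ j (p : ℝ × ℝ), W ≤ p.1 → |U (𝓔.Y j p)| ≤ C * p.1 ^ q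

/-- of class `C¹` and supported below the level `a` -/
def Ends.Src (𝓔 : Ends σ M) (a : ℝ) (f : M → ℝ) : Prop :=
  CkFn E2 1 f ∧ ∀ x, x ∉ 𝓔.below a → f x = 0

/-- the Laplacian in the chart at the end `j` -/
def Ends.lapE (𝓔 : Ends σ M) (j : σ) (v : M → ℂ) (x : M) : ℂ :=
  (cj u1 u2 (cX (𝓔.φ j) v) (𝓔.φ j x)).2.1 + (cj u1 u2 (cX (𝓔.φ j) v) (𝓔.φ j x)).2.2.2

/-- periodic and `C²` on the collar -/
structure Col (s : ℝ) (μ : ℝ × ℝ → ℂ) : Prop where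
  per : Per μ
  cd : ∀ p : ℝ × ℝ, p.1 ∈ Ioo s (s + 9) → ContDiffAt ℝ 2 μ p

namespace CoreOp

variable {β : Type} [Fintype β] (c : CoreOp σ β M)

/-- The hypotheses on the operator. -/
structure Good (s : ℝ) : Prop where
  lev : c.𝓔.w0 < s
  chart : ∀ e ∈ atlas E2 M, ∀ x ∈ e.source, x ∈ c.𝓔.reg → ∀ U B, CkAt 2 U x → ‖U x‖ < 1 →
    ‖B‖ < 1 → c.N U B x = c.Nj e (e x) (cj u1 u2 (cX e U) (e x), B)
  mix : ∀ e ∈ atlas E2 M, ∀ x ∈ e.source, x ∈ c.𝓔.reg →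
    Mix (fun q : E2 × (J2 ℂ × (β → ℂ)) => c.Nj e q.1 q.2) (e x, 0)
  base : ∀ e ∈ atlas E2 M, ∀ x ∈ e.source, x ∈ c.𝓔.reg → c.Nj e (e x) 0 = 0
  real : ∀ e ∈ atlas E2 M, ∀ x ∈ e.source, x ∈ c.𝓔.reg → ∀ ξ, star ξ = ξ →
    (c.Nj e (e x) ξ).im = 0
  ell : ∀ e ∈ atlas E2 M, ∀ x ∈ e.source, x ∈ c.𝓔.reg → ∀ a b : ℝ, (a, b) ≠ 0 →
    0 < (fderiv ℂ (c.Nj e (e x)) 0 ((0, ((a * a : ℝ), (a * b : ℝ), (b * b : ℝ))), 0)).re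
  ends : ∀ j (p : ℝ × ℝ), s + 2 ≤ p.1 → ∀ U B, CkAt 2 U (c.𝓔.Y j p) → ‖U (c.𝓔.Y j p)‖ < 1 →
    ‖B‖ < 1 → c.N U B (c.𝓔.Y j p) = c.G j p (pj (fun q => U (c.𝓔.Y j q)) p).1 *
      (c.op j).E p (pj (fun q => U (c.𝓔.Y j q)) p)
  contG : ∀ j (p : ℝ × ℝ), s + 2 ≤ p.1 →
    ContinuousAt (fun q : (ℝ × ℝ) × T3 ℂ => c.G j q.1 q.2) (p, 0)
  posG : ∀ j (p : ℝ × ℝ), s + 2 ≤ p.1 → 0 < (c.G j p 0).re
  ops : ∀ j, (c.op j).Good s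

/-- `(U, B)` solves the linearised equation with right hand side `f` -/
def LinSol (U : M → ℝ) (B : β → ℝ) (f : M → ℝ) : Prop :=
  ∀ x ∈ c.𝓔.reg, CkAt 2 U x ∧
    HasDerivAt (fun t : ℂ => c.N (fun y => t * U y) (fun i => t * B i) x) (f x) 0

variable {Λ τ ν : Type} [Fintype σ] [Fintype Λ] [Fintype τ] [Fintype ν]

/-- injectivity of the linearised problem -/
def LinInj [MeasurableSpace M] (μ0 : Measure M) (e : Λ → M → ℝ) (e' : τ → M → ℝ) : Prop :=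
  ∀ (U : M → ℝ) (B : β → ℝ) (l : Λ → ℝ), c.LinSol U B (fun x => ∑ k, l k * e k x) →
    c.𝓔.Gr 0 U → (∀ i, ∫ x, e' i x * U x ∂μ0 = 0) → (∀ x ∈ c.𝓔.reg, U x = 0) ∧ B = 0 ∧ l = 0

/-- the equation for `v` on the closed surface, given the functions `μ j` on the collars -/
def sysFun (s : ℝ) (e : Λ → M → ℝ) (v : M → ℂ) (B : β → ℂ) (l : Λ → ℂ) (μ : σ → ℝ × ℝ → ℂ)
    (x : M) : ℂ :=
  (c.𝓔.core (s + 2) x : ℝ) * c.N v B x +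
    ∑ j, (((c.𝓔.cut j (s + 2) x - c.𝓔.cut j (s + 6) x : ℝ) : ℂ) * c.𝓔.onEnd j
        (fun p => (c.op j).COL s p (pj (fun q => v (c.𝓔.Y j q)) p) (pj (μ j) p).1) x +
      (c.𝓔.cut j (s + 6) x : ℝ) * c.𝓔.lapE j v x) - ∑ k, l k * e k x

variable {𝒞 : Cov E2 M}

/-- the first order polar jet of `v` on the end `j` -/
def jv (v : VC 𝒞) (j : σ) (p : ℝ × ℝ) : T3 ℂ := (pj (fun q => fnC v (c.𝓔.Y j q)) p).1

/-- The family of solutions on the whole ends through the base solution. -/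
structure BaseFam (s δ r : ℝ) (bd : σ → ℝ → (ν → ℂ) →L[ℂ] ℂ) (O : VC 𝒞 → σ → ℝ × ℝ → ℂ)
    (m : VC 𝒞 → ν → ℂ) : Prop where
  pos : 0 < δ
  sol : ∀ v ∈ ball (0 : VC 𝒞) δ, ∀ j, EndSol (c.op j) s (Ioi s) (c.jv v j) (O v j)
  cont : ∀ v ∈ ball (0 : VC 𝒞) δ, ∀ j, ContinuousOn (O v j) (Ici s ×ˢ univ)
  zero : ∀ j (p : ℝ × ℝ), s ≤ p.1 → O 0 j p = 0
  mzero : m 0 = 0
  hol0 : ∀ j (p : ℝ × ℝ), s ≤ p.1 → DifferentiableOn ℂ (fun v => O v j p) (ball 0 δ)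
  hol2 : ∀ j (p : ℝ × ℝ), s < p.1 → DifferentiableOn ℂ (fun v => pj (O v j) p) (ball 0 δ)
  holm : DifferentiableOn ℂ m (ball 0 δ)
  bd0 : ∀ v ∈ ball (0 : VC 𝒞) δ, ∀ j (p : ℝ × ℝ), s ≤ p.1 → ‖O v j p‖ ≤ r
  bd2 : ∀ L, ∃ C, ∀ v ∈ ball (0 : VC 𝒞) δ, ∀ j (p : ℝ × ℝ), p.1 ∈ Ioo s L → ‖pj (O v j) p‖ ≤ C
  bdm : ∀ v ∈ ball (0 : VC 𝒞) δ, ‖m v‖ ≤ r
  bdry : ∀ v ∈ ball (0 : VC 𝒞) δ, ∀ j θ, O v j (s, θ) = bd j θ (m v)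
  real : ∀ v ∈ ball (0 : VC 𝒞) δ, v.im = 0 →
    (∀ j (p : ℝ × ℝ), s ≤ p.1 → (O v j p).im = 0) ∧ ∀ i, (m v i).im = 0

end CoreOp

variable {β Λ τ ν : Type} [Fintype β] [Fintype σ] [Fintype Λ] [Fintype τ] [Fintype ν]
  {𝒞 : Cov E2 M}

/-- A family of collar data which is `ε`-close to the family `(O, m)`. -/
structure Adm (s δ ε : ℝ) (O : VC 𝒞 → σ → ℝ × ℝ → ℂ) (m : VC 𝒞 → ν → ℂ)
    (O' : VC 𝒞 → σ → ℝ × ℝ → ℂ) (m' : VC 𝒞 → ν → ℂ) : Prop where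
  col : ∀ v ∈ ball (0 : VC 𝒞) δ, ∀ j, Col s (O' v j)
  hol : ∀ j (p : ℝ × ℝ), p.1 ∈ Ioo s (s + 9) →
    DifferentiableOn ℂ (fun v => (pj (O' v j) p).1) (ball 0 δ)
  holm : DifferentiableOn ℂ m' (ball 0 δ)
  close : ∀ v ∈ ball (0 : VC 𝒞) δ, ∀ j (p : ℝ × ℝ), p.1 ∈ Ioo s (s + 9) →
    ‖pj (O' v j) p - pj (O v j) p‖ ≤ ε
  closem : ∀ v ∈ ball (0 : VC 𝒞) δ, ‖m' v - m v‖ ≤ ε

/-- A holomorphic family of admissible data. -/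
structure AdmFam {P : Type} [NormedAddCommGroup P] [NormedSpace ℂ P] (s δ ε : ℝ)
    (O : VC 𝒞 → σ → ℝ × ℝ → ℂ) (m : VC 𝒞 → ν → ℂ) (Ω : Set P)
    (O' : P → VC 𝒞 → σ → ℝ × ℝ → ℂ) (m' : P → VC 𝒞 → ν → ℂ) (z : P → τ → ℂ) : Prop where
  opn : IsOpen Ω
  adm : ∀ a ∈ Ω, Adm s δ ε O m (O' a) (m' a)
  small : ∀ a ∈ Ω, ‖z a‖ ≤ ε
  hol : ∀ j (p : ℝ × ℝ), p.1 ∈ Ioo s (s + 9) →
    DifferentiableOn ℂ (fun q : P × VC 𝒞 => (pj (O' q.1 q.2 j) p).1) (Ω ×ˢ ball 0 δ)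
  holm : DifferentiableOn ℂ (fun q : P × VC 𝒞 => m' q.1 q.2) (Ω ×ˢ ball 0 δ)
  holz : DifferentiableOn ℂ z Ω

/-- the derivative of the base family in the direction of a real function -/
def dO (O : VC 𝒞 → σ → ℝ × ℝ → ℂ) (v : VR 𝒞) (j : σ) (p : ℝ × ℝ) : ℝ :=
  (fderiv ℂ (fun u => O u j p) 0 (Cx.ofR v)).re

variable [MeasurableSpace M]

/-- All the standing hypotheses except injectivity. -/
structure Setup (c : CoreOp σ β M) (s : ℝ) (μ0 : Measure M) (e : Λ → M → ℝ) (e' : τ → M → ℝ)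
    (δ r : ℝ) (bd : σ → ℝ → (ν → ℂ) →L[ℂ] ℂ) (O : VC 𝒞 → σ → ℝ × ℝ → ℂ) (m : VC 𝒞 → ν → ℂ) :
    Prop where
  good : c.Good s
  fin : IsFiniteMeasure μ0
  src : ∀ k, c.𝓔.Src (s + 2) (e k)
  src' : ∀ i, c.𝓔.Src (s + 2) (e' i)
  card : Fintype.card β + Fintype.card Λ = Fintype.card ν + Fintype.card τ
  fam : c.BaseFam s δ r bd O m

/-- **The output of the core theory.** -/
structure Solver (c : CoreOp σ β M) (s : ℝ) (μ0 : Measure M) (e : Λ → M → ℝ) (e' : τ → M → ℝ)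
    (δ : ℝ) (bd : σ → ℝ → (ν → ℂ) →L[ℂ] ℂ) (O : VC 𝒞 → σ → ℝ × ℝ → ℂ)
    (m : VC 𝒞 → ν → ℂ) where
  /-- the radius of uniqueness -/
  ρ : ℝ
  /-- the admissible size of perturbations -/
  ε : ℝ
  /-- the stability constant -/
  C : ℝ
  /-- the solution -/
  sol : (VC 𝒞 → σ → ℝ × ℝ → ℂ) → (VC 𝒞 → ν → ℂ) → (τ → ℂ) → XX 𝒞 β Λ
  ρ_pos : 0 < ρ
  ρ_le : ρ ≤ δ
  ρ_le_one : ρ ≤ 1 / 4
  ε_pos : 0 < ε
  C_nonneg : 0 ≤ C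
  /-- existence -/
  spec : ∀ O' m' z, Adm s δ ε O m O' m' → ‖z‖ ≤ ε → sol O' m' z ∈ ball (0 : XX 𝒞 β Λ) ρ ∧
    (∀ y, c.sysFun s e (fnC (sol O' m' z).1) (sol O' m' z).2.1 (sol O' m' z).2.2
      (O' (sol O' m' z).1) y = 0) ∧ m' (sol O' m' z).1 = 0 ∧ mom μ0 e' (fnC (sol O' m' z).1) = z
  /-- uniqueness and stability -/
  cmp : ∀ O' m' z, Adm s δ ε O m O' m' → ‖z‖ ≤ ε → ∀ x ∈ ball (0 : XX 𝒞 β Λ) ρ,
    ∀ μ : σ → ℝ × ℝ → ℂ, (∀ j, Col s (μ j)) → (∀ y, c.sysFun s e (fnC x.1) x.2.1 x.2.2 μ y = 0) →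
    ∀ η, 0 ≤ η → (∀ j (p : ℝ × ℝ), p.1 ∈ Ioo s (s + 9) → ‖pj (μ j) p - pj (O' x.1 j) p‖ ≤ η) →
    ‖sol O' m' z - x‖ ≤ C * (η + ‖m' x.1‖ + ‖mom μ0 e' (fnC x.1) - z‖)
  /-- real data give real solutions -/
  real : ∀ O' m' z, Adm s δ ε O m O' m' → ‖z‖ ≤ ε → star z = z →
    (∀ v ∈ ball (0 : VC 𝒞) δ, v.im = 0 → star (m' v) = m' v ∧
      ∀ j (p : ℝ × ℝ), p.1 ∈ Ioo s (s + 9) → (O' v j p).im = 0) →
    (sol O' m' z).1.im = 0 ∧ star (sol O' m' z).2 = (sol O' m' z).2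
  /-- holomorphic dependence -/
  hol : ∀ {P : Type} [NormedAddCommGroup P] [NormedSpace ℂ P] (Ω : Set P)
    (O' : P → VC 𝒞 → σ → ℝ × ℝ → ℂ) (m' : P → VC 𝒞 → ν → ℂ) (z : P → τ → ℂ),
    AdmFam s δ ε O m Ω O' m' z → DifferentiableOn ℂ (fun a => sol (O' a) (m' a) (z a)) Ω
  /-- solutions of the system and of the equations on the ends solve the geometric equation -/
  geo : ∀ x ∈ ball (0 : XX 𝒞 β Λ) ρ, ∀ (μ : σ → ℝ × ℝ → ℂ) (I : σ → Set ℝ),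
    (∀ y, c.sysFun s e (fnC x.1) x.2.1 x.2.2 μ y = 0) →
    (∀ j, Ioo s (s + 9) ⊆ I j ∧ EndSol (c.op j) s (I j) (c.jv x.1 j) (μ j)) →
    (∀ y ∈ c.𝓔.below (s + 3), c.N (fnC x.1) x.2.1 y = ∑ k, x.2.2 k * e k y) ∧
    ∀ j (p : ℝ × ℝ), p.1 ∈ I j → s + 2 ≤ p.1 →
      (c.op j).E p (pj (fun q => c.𝓔.glue s (fnC x.1) μ (c.𝓔.Y j q)) p) = 0
  /-- the derivative of a curve of solutions through the base solution -/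
  lin : ∀ (Ω : Set ℂ) (O' : ℂ → VC 𝒞 → σ → ℝ × ℝ → ℂ) (m' : ℂ → VC 𝒞 → ν → ℂ) (z : ℂ → τ → ℂ),
    AdmFam s δ ε O m Ω O' m' z → 0 ∈ Ω → Adm s δ 0 O m (O' 0) (m' 0) → z 0 = 0 →
    ∀ (y : σ → ℝ × ℝ → ℝ) (m₁ : ν → ℝ) (z₁ : τ → ℝ),
    (∀ j, LinEnd (c.op j) s 0 fun p => (y j p : ℂ)) →
    (∀ j θ, (y j (s, θ) : ℂ) = bd j θ fun i => (m₁ i : ℂ)) →
    (∀ j (p : ℝ × ℝ), p.1 ∈ Ioo s (s + 9) →
      HasDerivAt (fun t => (pj (O' t 0 j) p).1) (pj (fun q => (y j q : ℂ)) p).1 0) →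
    HasDerivAt (fun t => m' t 0) (fun i => (m₁ i : ℂ)) 0 →
    HasDerivAt z (fun i => (z₁ i : ℂ)) 0 →
    ∃ (v : VR 𝒞) (B : β → ℝ) (l : Λ → ℝ),
      HasDerivAt (fun t => sol (O' t) (m' t) (z t))
        (Cx.ofR v, fun i => (B i : ℂ), fun k => (l k : ℂ)) 0 ∧
      c.LinSol (c.𝓔.glue s (fnR v) fun j p => dO O v j p + y j p) B
        (fun x => ∑ k, l k * e k x) ∧
      (∀ i, ∫ x, e' i x * fnR v x ∂μ0 = z₁ i) ∧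
      ((∀ x ∈ c.𝓔.reg, c.𝓔.glue s (fnR v) (fun j p => dO O v j p + y j p) x = 0) →
        ∀ j (p : ℝ × ℝ), s ≤ p.1 → y j p = 0)
  /-- the linearised problem is solvable -/
  solv : ∀ f, c.𝓔.Src (s + 2) f → ∃ (U : M → ℝ) (B : β → ℝ) (l : Λ → ℝ),
    c.LinSol U B (fun x => f x + ∑ k, l k * e k x) ∧ c.𝓔.Gr 0 U

/-- the statement of the main theorem -/
def CoreStatement (c : CoreOp σ β M) (s : ℝ) (μ0 : Measure M) (e : Λ → M → ℝ) (e' : τ → M → ℝ)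
    (δ r : ℝ) (bd : σ → ℝ → (ν → ℂ) →L[ℂ] ℂ) (O : VC 𝒞 → σ → ℝ × ℝ → ℂ) (m : VC 𝒞 → ν → ℂ) :
    Prop :=
  Setup c s μ0 e e' δ r bd O m → c.LinInj μ0 e e' → ∀ ρ₀ > 0,
    ∃ S : Solver c s μ0 e e' δ bd O m, S.ρ ≤ ρ₀

/-- the statement that the range of the linearised problem has finite codimension -/
def CodimStatement (c : CoreOp σ β M) (s : ℝ) (μ0 : Measure M) (e : Λ → M → ℝ) (e' : τ → M → ℝ)
    (δ r : ℝ) (bd : σ → ℝ → (ν → ℂ) →L[ℂ] ℂ) (O : VC 𝒞 → σ → ℝ × ℝ → ℂ) (m : VC 𝒞 → ν → ℂ) :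
    Prop :=
  Setup c s μ0 e e' δ r bd O m → ∃ n : ℕ, ∀ f : Fin (n + 1) → M → ℝ,
    (∀ i, c.𝓔.Src (s + 2) (f i)) → ∃ (a : Fin (n + 1) → ℝ) (U : M → ℝ) (B : β → ℝ) (l : Λ → ℝ),
      a ≠ 0 ∧ c.LinSol U B (fun x => ∑ i, a i * f i x + ∑ k, l k * e k x) ∧ c.𝓔.Gr 0 U

end Vale.Agent.P218CO
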