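import Vale.Agent.P218VA.Chg

/-! # Two-jets in two directions with values in a complex normed space -/

open Set Filter Metric Topology Complex
open scoped ContDiff Matrix

noncomputable section

set_option linter.unusedSectionVars false
set_option linter.unusedVariables false

namespace Vale.Agent.P218CO

open Vale.Agent.P218VA

/-- triples: either a first order jet `(u, u₁, u₂)` or a Hessian `(u₁₁, u₁₂, u₂₂)` -/
abbrev T3 (Z : Type*) : Type _ := Z × Z × Z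

/-- two-jets: first order jet and Hessian -/
abbrev J2 (Z : Type*) : Type _ := T3 Z × T3 Z

section cj
variable {D : Type*} [NormedAddCommGroup D] [NormedSpace ℝ D] (d1 d2 : D)
  {Z W : Type*} [NormedAddCommGroup Z] [NormedSpace ℝ Z] [NormedAddCommGroup W] [NormedSpace ℝ W]

/-- the two-jet of `f` at `x` in the directions `d1`, `d2` -/
def cj (f : D → Z) (x : D) : J2 Z :=
  ((f x, pd f d1 x, pd f d2 x), (pd (pd f d1) d1 x, pd (pd f d1) d2 x, pd (pd f d2) d2 x))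

variable {d1 d2} {f g : D → Z} {x : D}

lemma cj_congr (h : f =ᶠ[𝓝 x] g) : cj d1 d2 f x = cj d1 d2 g x := by
  unfold cj
  rw [pd_congr h, pd_congr h, h.self_of_nhds, pd_congr (pd_congr' h d1) d1,
    pd_congr (pd_congr' h d1) d2, pd_congr (pd_congr' h d2) d2]

lemma ev_diff (hf : ContDiffAt ℝ 2 f x) : ∀ᶠ y in 𝓝 x, DifferentiableAt ℝ f y := by
  filter_upwards [hf.eventually (by simp)] with y hy using hy.differentiableAt (by simp)

lemma contDiffAt_cj {n : WithTop ℕ∞} (hf : ContDiffAt ℝ (n + 2) f x) :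
    ContDiffAt ℝ n (cj d1 d2 f) x := by
  have h0 : ContDiffAt ℝ n f x := hf.of_le le_self_add
  have h1 : ∀ v, ContDiffAt ℝ (n + 1) (pd f v) x := fun v =>
    contDiffAt_pd hf (by rw [add_assoc]; norm_num) v
  have h2 : ∀ v v', ContDiffAt ℝ n (pd (pd f v) v') x := fun v v' => contDiffAt_pd (h1 v) le_rfl v'
  exact (h0.prodMk (((h1 _).of_le le_self_add).prodMk ((h1 _).of_le le_self_add))).prodMk
    ((h2 _ _).prodMk ((h2 _ _).prodMk (h2 _ _)))

lemma pd_clm (L : Z →L[ℝ] W) (hf : DifferentiableAt ℝ f x) (v : D) :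
    pd (fun y => L (f y)) v x = L (pd f v x) := by
  unfold pd
  rw [show (fun y => L (f y)) = L ∘ f from rfl, fderiv_comp x L.differentiableAt hf, L.fderiv]
  rfl

lemma pd_pd_clm (L : Z →L[ℝ] W) (hf : ContDiffAt ℝ 2 f x) (v v' : D) :
    pd (pd (fun y => L (f y)) v) v' x = L (pd (pd f v) v' x) := by
  have h1 : pd (fun y => L (f y)) v =ᶠ[𝓝 x] fun y => L (pd f v y) := by
    filter_upwards [ev_diff hf] with y hy using pd_clm L hy v
  rw [pd_congr h1, pd_clm L (differentiableAt_pd hf v)]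

/-- a linear map acts on triples -/
def t3map (L : Z →L[ℝ] W) : T3 Z →L[ℝ] T3 W := L.prodMap (L.prodMap L)

/-- a linear map acts on jets -/
def jmap (L : Z →L[ℝ] W) : J2 Z →L[ℝ] J2 W := (t3map L).prodMap (t3map L)

@[simp] lemma jmap_apply (L : Z →L[ℝ] W) (j : J2 Z) :
    jmap L j = ((L j.1.1, L j.1.2.1, L j.1.2.2), (L j.2.1, L j.2.2.1, L j.2.2.2)) := rfl

lemma cj_clm (L : Z →L[ℝ] W) (hf : ContDiffAt ℝ 2 f x) :
    cj d1 d2 (fun y => L (f y)) x = jmap L (cj d1 d2 f x) := by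
  have h1 := hf.differentiableAt (by simp)
  simp only [cj, jmap_apply, pd_clm L h1, pd_pd_clm L hf]

lemma pd_prod {g : D → W} (hf : DifferentiableAt ℝ f x) (hg : DifferentiableAt ℝ g x) (v : D) :
    pd (fun y => (f y, g y)) v x = (pd f v x, pd g v x) := by
  unfold pd
  rw [hf.fderiv_prodMk hg]
  rfl

/-- the jet of a pair of functions -/
def jzip (j : J2 Z) (k : J2 W) : J2 (Z × W) :=
  (((j.1.1, k.1.1), (j.1.2.1, k.1.2.1), (j.1.2.2, k.1.2.2)),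
    ((j.2.1, k.2.1), (j.2.2.1, k.2.2.1), (j.2.2.2, k.2.2.2)))

lemma cj_prod {g : D → W} (hf : ContDiffAt ℝ 2 f x) (hg : ContDiffAt ℝ 2 g x) :
    cj d1 d2 (fun y => (f y, g y)) x = jzip (cj d1 d2 f x) (cj d1 d2 g x) := by
  have h1 : ∀ v, pd (fun y => (f y, g y)) v =ᶠ[𝓝 x] fun y => (pd f v y, pd g v y) := fun v => by
    filter_upwards [ev_diff hf, ev_diff hg] with y hy hy' using pd_prod hy hy' v
  have h2 : ∀ v v', pd (pd (fun y => (f y, g y)) v) v' x = (pd (pd f v) v' x, pd (pd g v) v' x) :=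
    fun v v' => by
      rw [pd_congr (h1 v), pd_prod (differentiableAt_pd hf v) (differentiableAt_pd hg v)]
  simp only [cj, jzip, h2, (h1 _).self_of_nhds]

/-- the jet of a constant -/
def jconst (c : Z) : J2 Z := ((c, 0, 0), (0, 0, 0))

lemma cj_const (c : Z) : cj d1 d2 (fun _ : D => c) x = jconst c := by
  have h1 : ∀ v, pd (fun _ : D => c) v = fun _ => 0 := fun v => by
    funext y; simp [pd]
  have h2 : ∀ v, pd (fun _ : D => (0 : Z)) v x = 0 := fun v => by simp [pd]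
  simp only [cj, jconst, h1, h2]

lemma cj_add (hf : ContDiffAt ℝ 2 f x) (hg : ContDiffAt ℝ 2 g x) :
    cj d1 d2 (fun y => f y + g y) x = cj d1 d2 f x + cj d1 d2 g x := by
  have := cj_clm (d1 := d1) (d2 := d2)
    (ContinuousLinearMap.fst ℝ Z Z + ContinuousLinearMap.snd ℝ Z Z) (hf.prodMk hg)
  rw [cj_prod hf hg] at this
  exact this

lemma cj_zero : cj d1 d2 (fun _ : D => (0 : Z)) x = 0 := cj_const 0

end cj

section comp
variable {D : Type*} [NormedAddCommGroup D] [NormedSpace ℝ D] {d1 d2 : D}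
  {Z W : Type*} [NormedAddCommGroup Z] [NormedSpace ℂ Z] [NormedAddCommGroup W] [NormedSpace ℂ W]

lemma cj_csmul (c : ℂ) {f : D → Z} {x : D} (hf : ContDiffAt ℝ 2 f x) :
    cj d1 d2 (fun y => c • f y) x = c • cj d1 d2 f x :=
  cj_clm ((c • ContinuousLinearMap.id ℂ Z).restrictScalars ℝ) hf

/-- the action of a holomorphic map on jets -/
def jcomp (Θ : Z → W) (j : J2 Z) : J2 W :=
  ((Θ j.1.1, fderiv ℂ Θ j.1.1 j.1.2.1, fderiv ℂ Θ j.1.1 j.1.2.2),
    (fderiv ℂ (fderiv ℂ Θ) j.1.1 j.1.2.1 j.1.2.1 + fderiv ℂ Θ j.1.1 j.2.1,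
      fderiv ℂ (fderiv ℂ Θ) j.1.1 j.1.2.2 j.1.2.1 + fderiv ℂ Θ j.1.1 j.2.2.1,
      fderiv ℂ (fderiv ℂ Θ) j.1.1 j.1.2.2 j.1.2.2 + fderiv ℂ Θ j.1.1 j.2.2.2))

lemma pd_hcomp {Θ : Z → W} {g : D → Z} {x : D} (hΘ : DifferentiableAt ℂ Θ (g x))
    (hg : DifferentiableAt ℝ g x) (v : D) :
    pd (fun y => Θ (g y)) v x = fderiv ℂ Θ (g x) (pd g v x) := by
  unfold pd
  rw [show (fun y => Θ (g y)) = Θ ∘ g from rfl,
    ((hΘ.hasFDerivAt.restrictScalars ℝ).comp x hg.hasFDerivAt).fderiv]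
  rfl

lemma cj_comp {Θ : Z → W} {g : D → Z} {x : D} (hΘ : ContDiffAt ℂ 2 Θ (g x))
    (hg : ContDiffAt ℝ 2 g x) : cj d1 d2 (fun y => Θ (g y)) x = jcomp Θ (cj d1 d2 g x) := by
  have h0 : ∀ᶠ z in 𝓝 (g x), DifferentiableAt ℂ Θ z := by
    filter_upwards [hΘ.eventually (by simp)] with z hz using hz.differentiableAt (by simp)
  have h1 : ∀ v, pd (fun y => Θ (g y)) v =ᶠ[𝓝 x] fun y => fderiv ℂ Θ (g y) (pd g v y) :=
    fun v => by
      filter_upwards [hg.continuousAt.eventually h0, ev_diff hg] with y hy hy'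
      exact pd_hcomp hy hy' v
  have h2 : DifferentiableAt ℂ (fderiv ℂ Θ) (g x) :=
    (hΘ.fderiv_right (m := 1) (by norm_num)).differentiableAt (by simp)
  have hg1 := hg.differentiableAt (by simp)
  have h3 : ∀ v v', pd (pd (fun y => Θ (g y)) v) v' x =
      fderiv ℂ (fderiv ℂ Θ) (g x) (pd g v' x) (pd g v x) +
        fderiv ℂ Θ (g x) (pd (pd g v) v' x) := by
    intro v v'
    rw [pd_congr (h1 v)]
    have h4 : DifferentiableAt ℂ (fun q : (Z →L[ℂ] W) × Z => q.1 q.2)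
        (fderiv ℂ Θ (g x), pd g v x) := by fun_prop
    have h5 : DifferentiableAt ℝ (fun y => fderiv ℂ Θ (g y)) x :=
      (h2.restrictScalars ℝ).comp x hg1
    have h6 := pd_hcomp (Θ := fun q : (Z →L[ℂ] W) × Z => q.1 q.2)
      (g := fun y => (fderiv ℂ Θ (g y), pd g v y)) h4 (h5.prodMk (differentiableAt_pd hg v)) v'
    rw [pd_prod h5 (differentiableAt_pd hg v), pd_hcomp h2 hg1] at h6
    rw [h6]
    have h7 := (isBoundedBilinearMap_apply (𝕜 := ℂ) (E := Z) (F := W)).hasFDerivAt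
      (fderiv ℂ Θ (g x), pd g v x)
    rw [h7.fderiv, IsBoundedBilinearMap.deriv_apply, add_comm]
  simp only [cj, jcomp, h3, (h1 _).self_of_nhds]

lemma contDiffAt_jcomp {Θ : Z → W} {j : J2 Z} {n : WithTop ℕ∞}
    (hΘ : ContDiffAt ℂ (n + 2) Θ j.1.1) : ContDiffAt ℂ n (jcomp Θ) j := by
  have p0 : ContDiffAt ℂ n (fun k : J2 Z => k.1.1) j := by fun_prop
  have h1 : ContDiffAt ℂ (n + 1) (fderiv ℂ Θ) j.1.1 :=
    hΘ.fderiv_right (by rw [add_assoc]; norm_num)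
  have a0 : ContDiffAt ℂ n (fun k : J2 Z => Θ k.1.1) j := (hΘ.of_le le_self_add).comp j p0
  have a1 : ContDiffAt ℂ n (fun k : J2 Z => fderiv ℂ Θ k.1.1) j := (h1.of_le le_self_add).comp j p0
  have a2 : ContDiffAt ℂ n (fun k : J2 Z => fderiv ℂ (fderiv ℂ Θ) k.1.1) j :=
    (h1.fderiv_right le_rfl).comp j p0
  unfold jcomp
  refine (a0.prodMk ((a1.clm_apply (by fun_prop)).prodMk (a1.clm_apply (by fun_prop)))).prodMk
    ((ContDiffAt.add ?_ ?_).prodMk ((ContDiffAt.add ?_ ?_).prodMk (ContDiffAt.add ?_ ?_)))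
  all_goals first
    | exact (a2.clm_apply (by fun_prop)).clm_apply (by fun_prop)
    | exact a1.clm_apply (by fun_prop)

/-- multiplication of a jet by a function of the first variable with derivatives `c, c', c''` -/
def jmul (c : T3 ℂ) (j : J2 ℂ) : J2 ℂ :=
  ((c.1 * j.1.1, c.1 * j.1.2.1 + c.2.1 * j.1.1, c.1 * j.1.2.2),
    (c.1 * j.2.1 + (2 * c.2.1 * j.1.2.1 + c.2.2 * j.1.1), c.1 * j.2.2.1 + c.2.1 * j.1.2.2,
      c.1 * j.2.2.2))

/-- the first order part of `jmul` -/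
def jm1 (c : T3 ℂ) (j : T3 ℂ) : T3 ℂ := (c.1 * j.1, c.1 * j.2.1 + c.2.1 * j.1, c.1 * j.2.2)

/-- the commutator of the Hessian with the multiplication -/
def jcm (c : T3 ℂ) (j : T3 ℂ) : T3 ℂ := (2 * c.2.1 * j.2.1 + c.2.2 * j.1, c.2.1 * j.2.2, 0)

lemma jmul_eq (c : T3 ℂ) (j : J2 ℂ) : jmul c j = (jm1 c j.1, c.1 • j.2 + jcm c j.1) := by
  simp [jmul, jm1, jcm, Prod.ext_iff]

/-- a real function of one variable with its first two derivatives -/
def d012 (χ : ℝ → ℝ) (w : ℝ) : T3 ℂ := ((χ w : ℝ), (deriv χ w : ℝ), (deriv (deriv χ) w : ℝ))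

lemma cj_fst {χ : ℝ → ℝ} (hχ : ContDiff ℝ 2 χ) (p : ℝ × ℝ) :
    cj ((1, 0) : ℝ × ℝ) (0, 1) (fun q : ℝ × ℝ => ((χ q.1 : ℝ) : ℂ)) p =
      (((d012 χ p.1).1, (d012 χ p.1).2.1, 0), ((d012 χ p.1).2.2, 0, 0)) := by
  have key : ∀ {φ : ℝ → ℝ}, Differentiable ℝ φ → ∀ v : ℝ × ℝ,
      pd (fun q : ℝ × ℝ => ((φ q.1 : ℝ) : ℂ)) v = fun q => ((deriv φ q.1 * v.1 : ℝ) : ℂ) := by
    intro φ hφ v
    funext q
    have h1 : HasFDerivAt (fun q : ℝ × ℝ => φ q.1) _ q :=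
      (hφ q.1).hasDerivAt.hasFDerivAt.comp q hasFDerivAt_fst
    have h2 := ofRealCLM.hasFDerivAt.comp q h1
    unfold pd
    rw [show (fun q : ℝ × ℝ => ((φ q.1 : ℝ) : ℂ)) = ofRealCLM ∘ fun q : ℝ × ℝ => φ q.1 from rfl,
      h2.fderiv]
    simp [mul_comm]
  have h1 : Differentiable ℝ χ := hχ.differentiable (by simp)
  have h2 : Differentiable ℝ (deriv χ) := hχ.differentiable_deriv_two
  have h3 : ∀ v, pd (fun _ : ℝ × ℝ => (0 : ℂ)) v p = 0 := fun v => by simp [pd]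
  simp only [cj, d012, key h1, mul_one, mul_zero, ofReal_zero, key h2, h3]

lemma cj_mul_fst {χ : ℝ → ℝ} (hχ : ContDiff ℝ 2 χ) {f : ℝ × ℝ → ℂ} {p : ℝ × ℝ}
    (hf : ContDiffAt ℝ 2 f p) :
    cj ((1, 0) : ℝ × ℝ) (0, 1) (fun q => (χ q.1 : ℂ) * f q) p =
      jmul (d012 χ p.1) (cj (1, 0) (0, 1) f p) := by
  have h1 : ContDiffAt ℝ 2 (fun q : ℝ × ℝ => ((χ q.1 : ℝ) : ℂ)) p :=
    (ofRealCLM.contDiff.comp (hχ.comp contDiff_fst)).contDiffAt
  have hΘ : ContDiff ℂ 2 (fun z : ℂ × ℂ => z.1 * z.2) := by fun_prop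
  have h2 := cj_comp (d1 := ((1, 0) : ℝ × ℝ)) (d2 := (0, 1)) (Θ := fun z : ℂ × ℂ => z.1 * z.2)
    (g := fun q => ((χ q.1 : ℂ), f q)) hΘ.contDiffAt (h1.prodMk hf)
  rw [h2, cj_prod h1 hf, cj_fst hχ]
  have h3 : fderiv ℂ (fun z : ℂ × ℂ => z.1 * z.2) = fun z =>
      z.1 • ContinuousLinearMap.snd ℂ ℂ ℂ + z.2 • ContinuousLinearMap.fst ℂ ℂ ℂ := by
    funext z
    exact (hasFDerivAt_fst.mul hasFDerivAt_snd).fderiv
  have h4 : ∀ z : ℂ × ℂ, fderiv ℂ (fderiv ℂ (fun z : ℂ × ℂ => z.1 * z.2)) z =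
      (ContinuousLinearMap.fst ℂ ℂ ℂ).smulRight (ContinuousLinearMap.snd ℂ ℂ ℂ) +
        (ContinuousLinearMap.snd ℂ ℂ ℂ).smulRight (ContinuousLinearMap.fst ℂ ℂ ℂ) := by
    intro z
    rw [h3]
    exact ((hasFDerivAt_fst.smul_const _).add (hasFDerivAt_snd.smul_const _)).fderiv
  simp only [jcomp, h4]
  simp only [h3, jzip, jmul]
  simp [Prod.ext_iff]
  refine ⟨?_, ?_, ?_⟩ <;> ring

end comp

/-! ### The geometric expressions on jets -/

/-- the shrinker operator on jets -/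
def PPj (j : J2 C3) : ℂ := PP j.1.1 j.1.2.1 j.1.2.2 j.2.1 j.2.2.1 j.2.2.2

/-- the Euler-Lagrange density on jets -/
def ELj (j : J2 C3) (V : C3) : ℂ := EL j.1.1 j.1.2.1 j.1.2.2 j.2.1 j.2.2.1 j.2.2.2 V

/-- the Gram determinant on jets -/
def gramj (j : J2 C3) : ℂ := gram j.1.2.1 j.1.2.2

lemma PPF_eq {D : Type*} [NormedAddCommGroup D] [NormedSpace ℝ D] (d1 d2 : D) (X : D → C3) (x : D) :
    PPF d1 d2 X x = PPj (cj d1 d2 X x) := rfl

lemma ELF_eq {D : Type*} [NormedAddCommGroup D] [NormedSpace ℝ D] (d1 d2 : D) (X : D → C3) (x : D)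
    (V : C3) : ELF d1 d2 X x V = ELj (cj d1 d2 X x) V := rfl

end Vale.Agent.P218CO
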