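import Vale.Agent.P281.MF.Hol
import Vale.Agent.P218IN.FixPt

/-! # Holomorphic maps between complex Banach spaces

Cauchy type estimates, the weak holomorphy theorem for norming families, uniform limits, and a
uniform holomorphic implicit function theorem. -/

open Set Filter Metric Topology Asymptotics

noncomputable section

set_option linter.unusedSectionVars false

namespace Vale.Agent.P218CO

open Vale.Agent.P281.MF

variable {E F G : Type*} [NormedAddCommGroup E] [NormedSpace ℂ E]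
  [NormedAddCommGroup F] [NormedSpace ℂ F] [NormedAddCommGroup G] [NormedSpace ℂ G]

lemma ball_sub_ball {c x : E} {R r : ℝ} (hx : x ∈ ball c (R - r)) : ball x r ⊆ ball c R := by
  intro z hz
  rw [mem_ball] at hx hz ⊢
  linarith [dist_triangle z x c]

/-- Bound for the derivative in a smaller ball. -/
lemma fderiv_le_inner {f : E → F} {c x : E} {R r M : ℝ} (hr : 0 < r)
    (hf : DifferentiableOn ℂ f (ball c R)) (hM : ∀ y ∈ ball c R, ‖f y‖ ≤ M)
    (hx : x ∈ ball c (R - r)) : ‖fderiv ℂ f x‖ ≤ M / r :=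
  norm_fderiv_le_of_ball hr (hf.mono (ball_sub_ball hx)) fun y hy => hM y (ball_sub_ball hx hy)

/-- Lipschitz bound in a smaller ball. -/
lemma lip_inner {f : E → F} {c x y : E} {R r M : ℝ} (hr : 0 < r)
    (hf : DifferentiableOn ℂ f (ball c R)) (hM : ∀ y ∈ ball c R, ‖f y‖ ≤ M)
    (hx : x ∈ ball c (R - r)) (hy : y ∈ ball c (R - r)) : ‖f x - f y‖ ≤ M / r * ‖x - y‖ := by
  refine (convex_ball c (R - r)).norm_image_sub_le_of_norm_fderiv_le (𝕜 := ℂ)
    (fun z hz => ?_) (fun z hz => fderiv_le_inner hr hf hM hz) hy hx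
  exact hf.differentiableAt (isOpen_ball.mem_nhds (ball_subset_ball (by linarith) hz))

/-- Second order Taylor bound. -/
lemma taylor_two {f : E → F} {x h : E} {r M : ℝ}
    (hf : DifferentiableOn ℂ f (ball x r)) (hM : ∀ y ∈ ball x r, ‖f y‖ ≤ M) (hh : ‖h‖ < r) :
    ‖f (x + h) - f x - fderiv ℂ f x h‖ ≤ 3 * M * (‖h‖ / r) ^ 2 := by
  have hr : 0 < r := (norm_nonneg _).trans_lt hh
  have hM0 : 0 ≤ M := (norm_nonneg _).trans (hM x (mem_ball_self hr))
  have hD : ‖fderiv ℂ f x‖ ≤ M / r := norm_fderiv_le_of_ball hr hf hM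
  have hfx : HasFDerivAt f (fderiv ℂ f x) x := (hf.differentiableAt (ball_mem_nhds x hr)).hasFDerivAt
  set g : E → F := fun z => f z - f x - fderiv ℂ f x (z - x) with hg
  have hgd : DifferentiableOn ℂ g (ball x r) := by
    refine (hf.sub_const _).sub ?_
    exact ((fderiv ℂ f x).differentiable.comp (differentiable_id.sub_const x)).differentiableOn
  have hgx : g x = 0 := by simp [hg]
  have hmaps : MapsTo g (ball x r) (closedBall (g x) (3 * M)) := by
    intro z hz
    rw [hgx, mem_closedBall_zero_iff]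
    have h1 : ‖fderiv ℂ f x (z - x)‖ ≤ M := by
      refine ((fderiv ℂ f x).le_opNorm _).trans ?_
      have h2 : ‖z - x‖ ≤ r := by rw [← dist_eq_norm]; exact (mem_ball.1 hz).le
      calc ‖fderiv ℂ f x‖ * ‖z - x‖ ≤ M / r * r := by gcongr
        _ = M := by field_simp
    have h3 := hM z hz
    have h4 := hM x (mem_ball_self hr)
    calc ‖g z‖ ≤ ‖f z - f x‖ + ‖fderiv ℂ f x (z - x)‖ := norm_sub_le _ _
      _ ≤ (‖f z‖ + ‖f x‖) + M := add_le_add (norm_sub_le _ _) h1
      _ ≤ 3 * M := by linarith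
  have hlo : (g · - g x) =o[𝓝 x] (fun w => ‖w - x‖ ^ 1) := by
    simp only [hgx, sub_zero, pow_one]
    exact hfx.isLittleO.norm_right
  have hz : x + h ∈ ball x r := by simpa using hh
  have := Complex.dist_le_mul_div_pow_of_mapsTo_ball_of_isLittleO hgd hmaps hlo hz
  rw [hgx, dist_zero_right, dist_eq_norm, add_sub_cancel_left] at this
  simpa [hg] using this

/-- The derivative of a bounded holomorphic map is Lipschitz at the centre. -/
lemma fderiv_sub_le {f : E → F} {c x : E} {R M : ℝ}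
    (hf : DifferentiableOn ℂ f (ball c R)) (hM : ∀ y ∈ ball c R, ‖f y‖ ≤ M)
    (hx : x ∈ ball c (R / 4)) : ‖fderiv ℂ f x - fderiv ℂ f c‖ ≤ 8 * M / R ^ 2 * ‖x - c‖ := by
  have hR : 0 < R := by have := nonempty_ball.1 ⟨x, hx⟩; linarith
  have hxc : ‖x - c‖ < R / 4 := by rw [← dist_eq_norm]; exact hx
  have hm1 : ∀ h ∈ ball (0 : E) (R / 4), x + h ∈ ball c (R - R / 2) := by
    intro h hh
    rw [mem_ball_zero_iff] at hh
    rw [mem_ball, dist_eq_norm]
    calc ‖x + h - c‖ = ‖(x - c) + h‖ := by congr 1; abel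
      _ ≤ ‖x - c‖ + ‖h‖ := norm_add_le _ _
      _ < R - R / 2 := by linarith
  have hm2 : ∀ h ∈ ball (0 : E) (R / 4), c + h ∈ ball c (R - R / 2) := by
    intro h hh
    rw [mem_ball_zero_iff] at hh
    rw [mem_ball, dist_eq_norm, add_sub_cancel_left]
    linarith
  have hs : ball c (R - R / 2) ⊆ ball c R := ball_subset_ball (by linarith)
  have hdx : HasFDerivAt f (fderiv ℂ f x) (x + 0) := by
    simpa using (hf.differentiableAt
      (isOpen_ball.mem_nhds (ball_subset_ball (by linarith) hx))).hasFDerivAt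
  have hdc : HasFDerivAt f (fderiv ℂ f c) (c + 0) := by
    simpa using (hf.differentiableAt (ball_mem_nhds c hR)).hasFDerivAt
  have h1 : HasFDerivAt (fun h : E => f (x + h) - f (c + h)) (fderiv ℂ f x - fderiv ℂ f c) 0 := by
    have h3 := hdx.comp (0 : E) ((hasFDerivAt_id (0 : E)).const_add x)
    have h4 := hdc.comp (0 : E) ((hasFDerivAt_id (0 : E)).const_add c)
    rw [ContinuousLinearMap.comp_id] at h3 h4
    exact h3.sub h4
  rw [← h1.fderiv]
  have h2 := norm_fderiv_le_of_ball (f := fun h : E => f (x + h) - f (c + h)) (x := 0)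
    (r := R / 4) (C := M / (R / 2) * ‖x - c‖) (by positivity)
    ((hf.comp (by fun_prop) fun h hh => hs (hm1 h hh)).sub
      (hf.comp (by fun_prop) fun h hh => hs (hm2 h hh))) (fun h hh => by
      have := lip_inner (by positivity : 0 < R / 2) hf hM (hm1 h hh) (hm2 h hh)
      rwa [add_sub_add_right_eq_sub] at this)
  refine h2.trans (le_of_eq ?_)
  field_simp
  ring

/-- **Weak holomorphy.** A bounded map into a Banach space whose compositions with a norming
family of bounded linear maps are holomorphic is holomorphic. -/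
theorem differentiableOn_of_weak [CompleteSpace G] {ι : Type*} (φ : ι → G →L[ℂ] F) {C : ℝ}
    (hφ : ∀ i, ‖φ i‖ ≤ 1) (hC : ∀ (g : G) (A : ℝ), 0 ≤ A → (∀ i, ‖φ i g‖ ≤ A) → ‖g‖ ≤ C * A)
    {T : E → G} {U : Set E} (hU : IsOpen U) {M : ℝ} (hM : ∀ x ∈ U, ‖T x‖ ≤ M)
    (hT : ∀ i, DifferentiableOn ℂ (fun x => φ i (T x)) U) : DifferentiableOn ℂ T U := by
  intro x hx
  apply DifferentiableAt.differentiableWithinAt
  obtain ⟨r, hr, hrU⟩ := Metric.isOpen_iff.1 hU x hx
  have hM0 : 0 ≤ M := (norm_nonneg _).trans (hM x hx)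
  have hb : ∀ i, ∀ y ∈ ball x r, ‖φ i (T y)‖ ≤ M := fun i y hy =>
    ((φ i).le_opNorm _).trans (by
      have := mul_le_mul (hφ i) (hM y (hrU hy)) (norm_nonneg _) zero_le_one
      linarith)
  set D : ι → E →L[ℂ] F := fun i => fderiv ℂ (fun x => φ i (T x)) x with hD
  have hDn : ∀ i, ‖D i‖ ≤ M / r := fun i => norm_fderiv_le_of_ball hr ((hT i).mono hrU) (hb i)
  have htay : ∀ i h, ‖h‖ < r → ‖φ i (T (x + h)) - φ i (T x) - D i h‖ ≤ 3 * M * (‖h‖ / r) ^ 2 :=
    fun i h hh => taylor_two ((hT i).mono hrU) (hb i) hh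
  have hsep : ∀ g g' : G, (∀ i, φ i g = φ i g') → g = g' := by
    intro g g' h
    have := hC (g - g') 0 le_rfl fun i => by rw [map_sub, h i, sub_self, norm_zero]
    rw [mul_zero] at this
    exact sub_eq_zero.1 (norm_le_zero_iff.1 this)
  -- existence of directional derivatives
  have hex : ∀ h : E, ∃ g : G, ∀ i, φ i g = D i h := by
    intro h
    set s : ℕ → ℝ := fun n => r / (‖h‖ + 1) * (1 / 2) ^ n with hs
    have hs0 : ∀ n, 0 < s n := fun n => by positivity
    have hsh : ∀ n, ‖((s n : ℝ) : ℂ) • h‖ ≤ r * (1 / 2) ^ n ∧ ‖((s n : ℝ) : ℂ) • h‖ < r := by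
      intro n
      have h0 : (0 : ℝ) < (1 / 2) ^ n := by positivity
      have h1 : ((1 : ℝ) / 2) ^ n ≤ 1 := pow_le_one₀ (by norm_num) (by norm_num)
      have h2 : ‖((s n : ℝ) : ℂ) • h‖ < r * (1 / 2) ^ n := by
        rw [norm_smul, Complex.norm_real, Real.norm_of_nonneg (hs0 n).le, hs]
        have h3 : ‖h‖ / (‖h‖ + 1) < 1 := by rw [div_lt_one (by positivity)]; linarith
        calc r / (‖h‖ + 1) * (1 / 2) ^ n * ‖h‖ = r * (1 / 2) ^ n * (‖h‖ / (‖h‖ + 1)) := by ring
          _ < r * (1 / 2) ^ n * 1 := by gcongr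
          _ = _ := mul_one _
      exact ⟨h2.le, h2.trans_le (by nlinarith)⟩
    set q : ℕ → G := fun n => (((s n : ℝ) : ℂ)⁻¹) • (T (x + ((s n : ℝ) : ℂ) • h) - T x) with hq
    set K : ℝ := 3 * M * ((‖h‖ + 1) / r) with hK
    have hK0 : 0 ≤ K := by positivity
    have hq1 : ∀ i n, ‖φ i (q n) - D i h‖ ≤ K * (1 / 2) ^ n := by
      intro i n
      have hne : ((s n : ℝ) : ℂ) ≠ 0 := by exact_mod_cast (hs0 n).ne'
      have h1 : φ i (q n) - D i h = (((s n : ℝ) : ℂ)⁻¹) • (φ i (T (x + ((s n : ℝ) : ℂ) • h)) -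
          φ i (T x) - D i (((s n : ℝ) : ℂ) • h)) := by
        simp only [hq, map_smul, map_sub, smul_sub, smul_smul, inv_mul_cancel₀ hne, one_smul]
      rw [h1, norm_smul, norm_inv, Complex.norm_real, Real.norm_of_nonneg (hs0 n).le]
      have h2 := htay i _ (hsh n).2
      have h3 : (‖((s n : ℝ) : ℂ) • h‖ / r) ^ 2 ≤ ((1 / 2) ^ n) ^ 2 := by
        gcongr
        rw [div_le_iff₀ hr]; linarith [(hsh n).1]
      calc (s n)⁻¹ * _ ≤ (s n)⁻¹ * (3 * M * ((1 / 2) ^ n) ^ 2) := by
            refine mul_le_mul_of_nonneg_left (h2.trans (by gcongr)) (inv_pos.2 (hs0 n)).le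
        _ = K * (1 / 2) ^ n := by rw [hs, hK]; field_simp
    have hcau : CauchySeq q := by
      refine cauchySeq_of_le_geometric (1 / 2) (|C| * (2 * K)) (by norm_num) fun n => ?_
      rw [dist_eq_norm]
      have h1 := hC (q n - q (n + 1)) (2 * K * (1 / 2) ^ n) (by positivity) fun i => by
        rw [map_sub]
        have h2 := hq1 i n
        have h3 := hq1 i (n + 1)
        have h4 : K * (1 / 2) ^ (n + 1) ≤ K * (1 / 2) ^ n := by
          rw [pow_succ]
          have : 0 ≤ K * (1 / 2) ^ n := by positivity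
          nlinarith
        calc ‖φ i (q n) - φ i (q (n + 1))‖
            = ‖(φ i (q n) - D i h) - (φ i (q (n + 1)) - D i h)‖ := by congr 1; abel
          _ ≤ _ := norm_sub_le _ _
          _ ≤ _ := by linarith
      refine h1.trans ?_
      rw [mul_assoc |C|]
      exact mul_le_mul_of_nonneg_right (le_abs_self C) (by positivity)
    obtain ⟨g, hg⟩ := cauchySeq_tendsto_of_complete hcau
    refine ⟨g, fun i => ?_⟩
    have h1 : Tendsto (fun n => φ i (q n)) atTop (𝓝 (φ i g)) := ((φ i).continuous.tendsto g).comp hg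
    have h2 : Tendsto (fun n => φ i (q n)) atTop (𝓝 (D i h)) := by
      rw [tendsto_iff_norm_sub_tendsto_zero]
      refine squeeze_zero (fun n => norm_nonneg _) (hq1 i) ?_
      simpa using (tendsto_pow_atTop_nhds_zero_of_lt_one (by norm_num : (0 : ℝ) ≤ 1 / 2)
        (by norm_num)).const_mul K
    exact tendsto_nhds_unique h1 h2
  choose L hL using hex
  let Ll : E →ₗ[ℂ] G :=
    { toFun := L
      map_add' := fun a b => hsep _ _ fun i => by rw [map_add, hL, hL, hL, map_add]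
      map_smul' := fun c a => hsep _ _ fun i => by rw [map_smul, hL, hL, map_smul]; rfl }
  let Lc : E →L[ℂ] G := Ll.mkContinuous (|C| * (M / r)) fun h => by
    have h1 := hC (L h) (M / r * ‖h‖) (by positivity) fun i => by
      rw [hL]; exact ((D i).le_opNorm h).trans (by gcongr; exact hDn i)
    refine h1.trans ?_
    rw [mul_assoc]
    exact mul_le_mul_of_nonneg_right (le_abs_self C) (by positivity)
  refine ⟨Lc, ?_⟩
  rw [hasFDerivAt_iff_isLittleO_nhds_zero]
  have h1 : (fun h : E => T (x + h) - T x - Lc h) =O[𝓝 0] fun h => ‖h‖ ^ 2 := by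
    refine IsBigO.of_bound (|C| * (3 * M / r ^ 2)) ?_
    filter_upwards [ball_mem_nhds (0 : E) hr] with h hh
    rw [mem_ball_zero_iff] at hh
    have h2 := hC (T (x + h) - T x - Lc h) (3 * M * (‖h‖ / r) ^ 2) (by positivity) fun i => by
      rw [map_sub, map_sub]
      have : φ i (Lc h) = D i h := hL h i
      rw [this]
      exact htay i h hh
    refine h2.trans ?_
    rw [Real.norm_of_nonneg (by positivity)]
    calc C * (3 * M * (‖h‖ / r) ^ 2) ≤ |C| * (3 * M * (‖h‖ / r) ^ 2) :=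
          mul_le_mul_of_nonneg_right (le_abs_self C) (by positivity)
      _ = _ := by field_simp
  exact h1.trans_isLittleO (isLittleO_norm_pow_id one_lt_two)

/-- Pointwise limits of uniformly bounded holomorphic maps are holomorphic, and the derivatives
converge pointwise. -/
theorem differentiableOn_of_tendsto [CompleteSpace F] {ι : Type*} {l : Filter ι} [l.NeBot]
    {f : ι → E → F} {g : E → F} {U : Set E} (hU : IsOpen U) {M : ℝ}
    (hf : ∀ᶠ n in l, DifferentiableOn ℂ (f n) U ∧ ∀ y ∈ U, ‖f n y‖ ≤ M)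
    (hg : ∀ y ∈ U, Tendsto (fun n => f n y) l (𝓝 (g y))) :
    DifferentiableOn ℂ g U ∧
      ∀ x ∈ U, ∀ h, Tendsto (fun n => fderiv ℂ (f n) x h) l (𝓝 (fderiv ℂ g x h)) := by
  suffices H : ∀ x ∈ U, ∃ L : E →L[ℂ] F, HasFDerivAt g L x ∧
      ∀ h, Tendsto (fun n => fderiv ℂ (f n) x h) l (𝓝 (L h)) by
    refine ⟨fun x hx => ?_, fun x hx h => ?_⟩
    · obtain ⟨L, hL, -⟩ := H x hx
      exact hL.differentiableAt.differentiableWithinAt
    · obtain ⟨L, hL, hL'⟩ := H x hx
      rw [hL.fderiv]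
      exact hL' h
  intro x hx
  obtain ⟨r, hr, hrU⟩ := Metric.isOpen_iff.1 hU x hx
  have hM0 : 0 ≤ M := by
    obtain ⟨n, hn⟩ := hf.exists
    exact (norm_nonneg _).trans (hn.2 x hx)
  have htay : ∀ᶠ n in l, ‖fderiv ℂ (f n) x‖ ≤ M / r ∧ ∀ h, ‖h‖ < r →
      ‖f n (x + h) - f n x - fderiv ℂ (f n) x h‖ ≤ 3 * M * (‖h‖ / r) ^ 2 := by
    filter_upwards [hf] with n hn
    exact ⟨norm_fderiv_le_of_ball hr (hn.1.mono hrU) fun y hy => hn.2 y (hrU hy),
      fun h hh => taylor_two (hn.1.mono hrU) (fun y hy => hn.2 y (hrU hy)) hh⟩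
  have hex : ∀ h : E, ∃ a : F, Tendsto (fun n => fderiv ℂ (f n) x h) l (𝓝 a) := by
    intro h
    refine CompleteSpace.complete (f := map (fun n => fderiv ℂ (f n) x h) l) ?_
    rw [Metric.cauchy_iff]
    refine ⟨inferInstance, fun ε hε => ?_⟩
    obtain ⟨s, hs0, hs1, hs2⟩ : ∃ s : ℝ, 0 < s ∧ s * ‖h‖ < r ∧
        s * (3 * M * (‖h‖ / r) ^ 2) ≤ ε / 4 := by
      have h1 : Tendsto (fun s : ℝ => s * ‖h‖) (𝓝[>] 0) (𝓝 (0 * ‖h‖)) :=
        (tendsto_nhdsWithin_of_tendsto_nhds tendsto_id).mul_const _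
      have h2 : Tendsto (fun s : ℝ => s * (3 * M * (‖h‖ / r) ^ 2)) (𝓝[>] 0)
          (𝓝 (0 * (3 * M * (‖h‖ / r) ^ 2))) :=
        (tendsto_nhdsWithin_of_tendsto_nhds tendsto_id).mul_const _
      rw [zero_mul] at h1 h2
      obtain ⟨s, hs⟩ := ((h1.eventually (gt_mem_nhds hr)).and
        ((h2.eventually (ge_mem_nhds (by positivity : 0 < ε / 4))).and
          self_mem_nhdsWithin)).exists
      exact ⟨s, hs.2.2, hs.1, hs.2.1⟩
    have hsn : ‖(s : ℂ) • h‖ = s * ‖h‖ := by
      rw [norm_smul, Complex.norm_real, Real.norm_of_nonneg hs0.le]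
    have hmem : x + (s : ℂ) • h ∈ U := hrU (by
      rw [mem_ball, dist_eq_norm, add_sub_cancel_left, hsn]; exact hs1)
    have hq : Tendsto (fun n => ((s : ℂ)⁻¹) • (f n (x + (s : ℂ) • h) - f n x)) l
        (𝓝 (((s : ℂ)⁻¹) • (g (x + (s : ℂ) • h) - g x))) := ((hg _ hmem).sub (hg x hx)).const_smul _
    set a := ((s : ℂ)⁻¹) • (g (x + (s : ℂ) • h) - g x)
    refine ⟨ball a (ε / 2), ?_, fun u hu v hv => ?_⟩
    · rw [mem_map]
      filter_upwards [htay, hq.eventually (ball_mem_nhds a (by positivity : 0 < ε / 4))]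
        with n hn hn2
      have hne : (s : ℂ) ≠ 0 := by exact_mod_cast hs0.ne'
      have h1 : ((s : ℂ)⁻¹) • (f n (x + (s : ℂ) • h) - f n x) - fderiv ℂ (f n) x h =
          ((s : ℂ)⁻¹) • (f n (x + (s : ℂ) • h) - f n x - fderiv ℂ (f n) x ((s : ℂ) • h)) := by
        simp only [map_smul, smul_sub, smul_smul, inv_mul_cancel₀ hne, one_smul]
      have h2 : dist (((s : ℂ)⁻¹) • (f n (x + (s : ℂ) • h) - f n x)) (fderiv ℂ (f n) x h)
          ≤ ε / 4 := by
        rw [dist_eq_norm, h1, norm_smul, norm_inv, Complex.norm_real, Real.norm_of_nonneg hs0.le]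
        have h3 := hn.2 _ (hsn ▸ hs1)
        rw [hsn] at h3
        calc s⁻¹ * _ ≤ s⁻¹ * (3 * M * (s * ‖h‖ / r) ^ 2) := by gcongr
          _ = s * (3 * M * (‖h‖ / r) ^ 2) := by field_simp
          _ ≤ _ := hs2
      rw [mem_preimage, mem_ball]
      linarith [dist_triangle_left (fderiv ℂ (f n) x h) a
        (((s : ℂ)⁻¹) • (f n (x + (s : ℂ) • h) - f n x))]
    · rw [mem_ball] at hu hv
      linarith [dist_triangle_right u v a]
  choose L hL using hex
  let Ll : E →ₗ[ℂ] F :=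
    { toFun := L
      map_add' := fun a b => tendsto_nhds_unique (hL (a + b))
        (((hL a).add (hL b)).congr fun n => by rw [map_add])
      map_smul' := fun c a => tendsto_nhds_unique (hL (c • a))
        (((hL a).const_smul c).congr fun n => by rw [map_smul]) }
  let Lc : E →L[ℂ] F := Ll.mkContinuous (M / r) fun h => by
    refine le_of_tendsto (hL h).norm ?_
    filter_upwards [htay] with n hn
    exact ((fderiv ℂ (f n) x).le_opNorm h).trans (by gcongr; exact hn.1)
  refine ⟨Lc, ?_, hL⟩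
  rw [hasFDerivAt_iff_isLittleO_nhds_zero]
  have h1 : (fun h : E => g (x + h) - g x - Lc h) =O[𝓝 0] fun h => ‖h‖ ^ 2 := by
    refine IsBigO.of_bound (3 * M / r ^ 2) ?_
    filter_upwards [ball_mem_nhds (0 : E) hr] with h hh
    rw [mem_ball_zero_iff] at hh
    have hmem : x + h ∈ U := hrU (by simpa using hh)
    have h2 : ‖g (x + h) - g x - Lc h‖ ≤ 3 * M * (‖h‖ / r) ^ 2 := by
      refine le_of_tendsto (((hg _ hmem).sub (hg x hx)).sub (hL h)).norm ?_
      filter_upwards [htay] with n hn using hn.2 h hh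
    refine h2.trans (le_of_eq ?_)
    rw [Real.norm_of_nonneg (by positivity)]
    field_simp
  exact h1.trans_isLittleO (isLittleO_norm_pow_id one_lt_two)

end Vale.Agent.P218CO
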