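import Vale.Agent.P218CO.Nem
import Vale.Agent.P272.K.LIN.Cov

/-! # Compact operators into Hölder spaces; Fredholm operators of index zero -/

open Set Filter Metric Topology
open scoped NNReal ContDiff BoundedContinuousFunction

noncomputable section

set_option linter.unusedSectionVars false
set_option linter.unusedVariables false

namespace Vale.Agent.P218CO

open Vale.Agent.P272.K.LIN

lemma cpt_congr {M N : Type*} [Zero M] [TopologicalSpace M] [TopologicalSpace N] {f g : M → N}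
    (h : IsCompactOperator f) (hfg : ∀ x, g x = f x) : IsCompactOperator g := by
  rwa [funext hfg]

section fred
variable {𝕜 : Type*} [NontriviallyNormedField 𝕜] [CompleteSpace 𝕜] {X Y A A' : Type*}
  [NormedAddCommGroup X] [NormedSpace 𝕜 X] [NormedAddCommGroup Y] [NormedSpace 𝕜 Y]
  [NormedAddCommGroup A] [NormedSpace 𝕜 A] [NormedAddCommGroup A'] [NormedSpace 𝕜 A']

/-- `L` is a compact perturbation of an isomorphism. -/
def Fred (L : X →L[𝕜] Y) : Prop := ∃ T : X ≃L[𝕜] Y, IsCompactOperator (L - (T : X →L[𝕜] Y))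

lemma Fred.of_sub {L L' : X →L[𝕜] Y} (h : Fred L) (hK : IsCompactOperator (L' - L)) : Fred L' := by
  obtain ⟨T, hT⟩ := h
  refine ⟨T, ?_⟩
  have : ((L' - (T : X →L[𝕜] Y) : X →L[𝕜] Y) : X → Y) =
      ((L' - L : X →L[𝕜] Y) : X → Y) + ((L - (T : X →L[𝕜] Y) : X →L[𝕜] Y) : X → Y) := by
    ext x
    simp
  rw [this]
  exact hK.add hT

lemma fred_of_bijective [CompleteSpace X] [CompleteSpace Y] {L : X →L[𝕜] Y}
    (h : Function.Bijective L) : Fred L := by
  refine ⟨ContinuousLinearEquiv.ofBijective L (LinearMap.ker_eq_bot.2 h.1)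
    (LinearMap.range_eq_top.2 h.2), ?_⟩
  rw [ContinuousLinearEquiv.coe_ofBijective, sub_self]
  exact isCompactOperator_zero

/-- **Fredholm alternative.** -/
theorem Fred.bijective [CompleteSpace X] {L : X →L[𝕜] Y} (h : Fred L)
    (hinj : ∀ x, L x = 0 → x = 0) : Function.Bijective L := by
  obtain ⟨T, hT⟩ := h
  set S : X →L[𝕜] X := -((T.symm : Y →L[𝕜] X).comp (L - (T : X →L[𝕜] Y))) with hS
  have hSc : IsCompactOperator S := (hT.clm_comp (T.symm : Y →L[𝕜] X)).neg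
  have hSx : ∀ x, x - S x = T.symm (L x) := fun x => by simp [hS]
  rcases hSc.hasEigenvalue_or_mem_resolventSet (μ := 1) one_ne_zero with h1 | h1
  · obtain ⟨v, hv⟩ := h1.exists_hasEigenvector
    have h2 : S v = v := by simpa using hv.apply_eq_smul
    have h3 := hSx v
    rw [h2, sub_self] at h3
    have h4 : L v = 0 := by simpa using h3.symm
    exact absurd (hinj v h4) hv.2
  · refine ⟨(injective_iff_map_eq_zero L).2 hinj, fun y => ?_⟩
    obtain ⟨u, hu⟩ := h1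
    refine ⟨((u⁻¹ : (X →L[𝕜] X)ˣ) : X →L[𝕜] X) (T.symm y), ?_⟩
    have h2 : (u : X →L[𝕜] X) (((u⁻¹ : (X →L[𝕜] X)ˣ) : X →L[𝕜] X) (T.symm y)) = T.symm y := by
      rw [← mul_apply_eq_comp, Units.mul_inv]
      rfl
    rw [hu, map_one, sub_apply, one_apply_eq_self, hSx] at h2
    exact T.symm.injective h2

theorem Fred.exists_equiv [CompleteSpace X] [CompleteSpace Y] {L : X →L[𝕜] Y} (h : Fred L)
    (hinj : ∀ x, L x = 0 → x = 0) : ∃ T : X ≃L[𝕜] Y, (T : X →L[𝕜] Y) = L :=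
  ⟨ContinuousLinearEquiv.ofBijective L (LinearMap.ker_eq_bot.2 (h.bijective hinj).1)
    (LinearMap.range_eq_top.2 (h.bijective hinj).2), ContinuousLinearEquiv.coe_ofBijective _ _ _⟩

theorem Fred.finiteDimensional_ker [LocallyCompactSpace 𝕜] {L : X →L[𝕜] Y} (h : Fred L) :
    FiniteDimensional 𝕜 (LinearMap.ker (L : X →ₗ[𝕜] Y)) := by
  obtain ⟨T, hT⟩ := h
  set S : X →L[𝕜] X := -((T.symm : Y →L[𝕜] X).comp (L - (T : X →L[𝕜] Y))) with hS
  have hSc : IsCompactOperator S := (hT.clm_comp (T.symm : Y →L[𝕜] X)).neg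
  have hSx : ∀ x ∈ LinearMap.ker (L : X →ₗ[𝕜] Y), S x = x := fun x hx => by
    have : L x = 0 := hx
    simp [hS, this]
  have h1 := IsCompactOperator.restrict (f := (S : X →ₗ[𝕜] X)) hSc
    (V := LinearMap.ker (L : X →ₗ[𝕜] Y)) (fun v hv => by
      have : (S : X →ₗ[𝕜] X) v = v := hSx v hv
      rwa [this]) L.isClosed_ker
  exact FiniteDimensional.of_isCompactOperator_id
    (cpt_congr h1 fun v => Subtype.ext (hSx v v.2).symm)

/-- Finite dimensional extensions. -/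
theorem Fred.block [LocallyCompactSpace 𝕜] [FiniteDimensional 𝕜 A] [FiniteDimensional 𝕜 A']
    (hA : Module.finrank 𝕜 A = Module.finrank 𝕜 A') {L : X × A →L[𝕜] Y × A'}
    (h : Fred ((ContinuousLinearMap.fst 𝕜 Y A').comp (L.comp (ContinuousLinearMap.inl 𝕜 X A)))) :
    Fred L := by
  obtain ⟨T, hT⟩ := h
  have : ProperSpace A := FiniteDimensional.proper 𝕜 A
  have : ProperSpace A' := FiniteDimensional.proper 𝕜 A'
  let e : A ≃L[𝕜] A' := ContinuousLinearEquiv.ofFinrankEq hA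
  refine ⟨T.prodCongr e, ?_⟩
  have h1 := (hT.comp_clm (ContinuousLinearMap.fst 𝕜 X A)).clm_comp
    (ContinuousLinearMap.inl 𝕜 Y A')
  have h2 := (isCompactOperator_of_locallyCompactSpace_dom (ContinuousLinearMap.snd 𝕜 X A)).clm_comp
    ((ContinuousLinearMap.inl 𝕜 Y A').comp ((ContinuousLinearMap.fst 𝕜 Y A').comp
      (L.comp (ContinuousLinearMap.inr 𝕜 X A))))
  have h3 := (isCompactOperator_of_locallyCompactSpace_dom
    ((ContinuousLinearMap.snd 𝕜 Y A').comp L -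
      (e : A →L[𝕜] A').comp (ContinuousLinearMap.snd 𝕜 X A))).clm_comp
        (ContinuousLinearMap.inr 𝕜 Y A')
  refine cpt_congr ((h1.add h2).add h3) fun ⟨x, a⟩ => ?_
  have h4 : L (x, a) = L (x, 0) + L (0, a) := by rw [← map_add]; simp
  refine Prod.ext ?_ ?_
  · simp [h4]
    abel
  · simp

end fred

section hol
variable {E : Type*} [NormedAddCommGroup E] [NormedSpace ℝ E] [FiniteDimensional ℝ E]
  {X : Type*} [TopologicalSpace X] [ChartedSpace E X] [T2Space X] [CompactSpace X] [RSm E X]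
  (𝒞 : Cov E X) {α : ℝ} {V : Type*} [NormedAddCommGroup V]

/-- Interpolation between the sup norm and the Lipschitz constant. -/
lemma norm_le_interp (h0 : 0 < α) (h1 : α < 1) (f : Hol (𝒞.w α) V) {A L ρ : ℝ} (hA : 0 ≤ A)
    (hL : 0 ≤ L) (hρ : 0 < ρ) (hf : ∀ x, ‖f x‖ ≤ A) (hl : ∀ x y, ‖f x - f y‖ ≤ L * 𝒞.d x y) :
    ‖f‖ ≤ A + (L * ρ ^ (1 - α) + 2 * A * ρ ^ (-α)) := by
  refine Hol.norm_le_of hA (by positivity) hf fun x y => ?_
  rw [𝒞.coe_w]
  have hd := 𝒞.d_nonneg x y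
  have h2 : 0 ≤ 𝒞.d x y ^ α := Real.rpow_nonneg hd _
  rcases le_or_gt (𝒞.d x y) ρ with h | h
  · have h3 : 𝒞.d x y = 𝒞.d x y ^ (1 - α) * 𝒞.d x y ^ α := by
      rw [← Real.rpow_add' hd (by simp)]; simp
    have h4 : 𝒞.d x y ^ (1 - α) ≤ ρ ^ (1 - α) := Real.rpow_le_rpow hd h (by linarith)
    calc ‖f x - f y‖ ≤ L * (𝒞.d x y ^ (1 - α) * 𝒞.d x y ^ α) := by rw [← h3]; exact hl x y
      _ ≤ L * (ρ ^ (1 - α) * 𝒞.d x y ^ α) := by gcongr
      _ ≤ _ := by
        have : 0 ≤ 2 * A * ρ ^ (-α) * 𝒞.d x y ^ α := by positivity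
        nlinarith
  · have h3 : 1 ≤ ρ ^ (-α) * 𝒞.d x y ^ α := by
      rw [Real.rpow_neg hρ.le, inv_mul_eq_div, one_le_div (Real.rpow_pos_of_pos hρ _)]
      exact Real.rpow_le_rpow hρ.le h.le h0.le
    calc ‖f x - f y‖ ≤ ‖f x‖ + ‖f y‖ := norm_sub_le _ _
      _ ≤ 2 * A * 1 := by linarith [hf x, hf y]
      _ ≤ 2 * A * (ρ ^ (-α) * 𝒞.d x y ^ α) := by gcongr
      _ ≤ _ := by
        have : 0 ≤ L * ρ ^ (1 - α) * 𝒞.d x y ^ α := by positivity
        nlinarith

/-- **Operators with Lipschitz values are compact.** -/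
theorem isCompactOperator_of_lip {𝕜 : Type*} [NontriviallyNormedField 𝕜] [NormedSpace 𝕜 V]
    [NormedSpace ℝ V] [ProperSpace V] {P : Type*} [NormedAddCommGroup P] [NormedSpace 𝕜 P]
    (h0 : 0 < α) (h1 : α < 1) (K : P →L[𝕜] Hol (𝒞.w α) V) {C : ℝ} (hC : 0 ≤ C)
    (hK : ∀ p x y, ‖K p x - K p y‖ ≤ C * ‖p‖ * 𝒞.d x y) : IsCompactOperator K := by
  refine (isCompactOperator_iff_isCompact_closure_image_ball (K : P →ₗ[𝕜] Hol (𝒞.w α) V)
    one_pos).2 ?_
  refine isCompact_iff_totallyBounded_isComplete.2 ⟨TotallyBounded.closure ?_,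
    isClosed_closure.isComplete⟩
  let β : Hol (𝒞.w α) V → (X →ᵇ V) := fun f =>
    BoundedContinuousFunction.mkOfCompact ⟨f, 𝒞.hol_continuous h0 f⟩
  have hβ : ∀ f x, β f x = f x := fun f x => rfl
  have hlip : ∀ p ∈ ball (0 : P) 1, ∀ x y, ‖K p x - K p y‖ ≤ C * 𝒞.d x y := by
    intro p hp x y
    refine (hK p x y).trans ?_
    have := (mem_ball_zero_iff.1 hp).le
    have hd := 𝒞.d_nonneg x y
    calc C * ‖p‖ * 𝒞.d x y ≤ C * 1 * 𝒞.d x y := by gcongr
      _ = _ := by ring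
  have hA := BoundedContinuousFunction.arzela_ascoli (closedBall (0 : V) ‖K‖)
    (isCompact_closedBall _ _) ((fun p => β (K p)) '' ball 0 1) (by
      rintro f x ⟨p, hp, rfl⟩
      rw [mem_closedBall_zero_iff, hβ]
      refine ((K p).norm_apply_le x).trans ((K.le_opNorm p).trans ?_)
      exact mul_le_of_le_one_right (norm_nonneg _) (mem_ball_zero_iff.1 hp).le) (by
      intro x
      rw [Metric.equicontinuousAt_iff_right]
      intro ε hε
      have h2 : Tendsto (fun y => C * 𝒞.d x y) (𝓝 x) (𝓝 (C * 𝒞.d x x)) :=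
        (continuous_const.mul (𝒞.continuous_d.comp (Continuous.prodMk_right x))).tendsto x
      rw [𝒞.d_self, mul_zero] at h2
      filter_upwards [h2.eventually (gt_mem_nhds hε)] with y hy
      rintro ⟨f, p, hp, rfl⟩
      rw [dist_eq_norm]
      exact (hlip p hp x y).trans_lt hy)
  have hB := hA.totallyBounded.subset subset_closure
  rw [Metric.totallyBounded_iff]
  intro ε hε
  obtain ⟨ρ, hρ, hρε⟩ : ∃ ρ : ℝ, 0 < ρ ∧ 2 * C * ρ ^ (1 - α) < ε / 2 := by
    have h2 : Tendsto (fun ρ : ℝ => 2 * C * ρ ^ (1 - α)) (𝓝[>] 0) (𝓝 (2 * C * 0 ^ (1 - α))) :=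
      ((Real.continuousAt_rpow_const 0 (1 - α) (Or.inr (by linarith))).tendsto.mono_left
        nhdsWithin_le_nhds).const_mul _
    rw [Real.zero_rpow (by linarith), mul_zero] at h2
    obtain ⟨ρ, h3⟩ := ((h2.eventually (gt_mem_nhds (half_pos hε))).and self_mem_nhdsWithin).exists
    exact ⟨ρ, h3.2, h3.1⟩
  have hρα : 0 < ρ ^ (-α) := Real.rpow_pos_of_pos hρ _
  set δ := ε / 2 / (1 + 2 * ρ ^ (-α)) with hδ
  have hδ0 : 0 < δ := by positivity
  obtain ⟨t, ht, htf, hcov⟩ := Metric.finite_approx_of_totallyBounded hB δ hδ0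
  have ht' : ∀ f ∈ t, ∃ p ∈ ball (0 : P) 1, β (K p) = f := fun f hf => ht hf
  choose! q hq using ht'
  refine ⟨(fun f => K (q f)) '' t, htf.image _, ?_⟩
  rintro _ ⟨p, hp, rfl⟩
  obtain ⟨f, hf, hpf⟩ := mem_iUnion₂.1 (hcov ⟨p, hp, rfl⟩)
  refine mem_iUnion₂.2 ⟨K (q f), ⟨f, hf, rfl⟩, ?_⟩
  obtain ⟨hq1, hq2⟩ := hq f hf
  rw [mem_ball, dist_eq_norm]
  have h2 := norm_le_interp 𝒞 h0 h1 (K p - K (q f)) (A := δ) (L := 2 * C) hδ0.le (by positivity)
    hρ (fun x => by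
      have h3 := BoundedContinuousFunction.dist_coe_le_dist (f := β (K p)) (g := β (K (q f))) x
      rw [dist_eq_norm] at h3
      have h4 : dist (β (K p)) f < δ := hpf
      exact h3.trans (by rw [hq2]; exact h4.le)) (fun x y => by
      have h3 : (K p - K (q f)) x - (K p - K (q f)) y =
          (K p x - K p y) - (K (q f) x - K (q f) y) := by
        simp only [Hol.sub_apply]; abel
      rw [h3]
      have h4 := hlip p hp x y
      have h5 := hlip _ hq1 x y
      refine (norm_sub_le _ _).trans ?_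
      linarith)
  have h3 : δ + 2 * δ * ρ ^ (-α) = ε / 2 := by rw [hδ]; field_simp
  show ‖K p - K (q f)‖ < ε
  linarith

end hol

end Vale.Agent.P218CO
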