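import Vale.Agent.P218CO.Sys
import Vale.Agent.P218MP.Collar

/-! # The jets of complex functions of class `C^{2,1/2}` -/

open Set Filter Metric Topology Complex
open scoped ContDiff

noncomputable section

set_option linter.unusedSectionVars false
set_option linter.unusedVariables false
set_option maxSynthPendingDepth 3

namespace Vale.Agent.P218CO

open Vale.Agent.P218VA Vale.Agent.P218MP Vale.Agent.P272.K.LIN
open Vale.Agent.P218GA (pol dw dth)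

variable {σ M : Type} [TopologicalSpace M] [ChartedSpace E2 M] {𝒞 : Cov E2 M}

/-- Hölder functions -/
abbrev Hw (𝒞 : Cov E2 M) (V : Type) [NormedAddCommGroup V] : Type := Hol (𝒞.w (1 / 2)) V

/-- the jets in all cover charts -/
def JV (𝒞 : Cov E2 M) : Type := Fin 𝒞.N → Jet E2

instance : NormedAddCommGroup (JV 𝒞) := inferInstanceAs (NormedAddCommGroup (Fin 𝒞.N → Jet E2))

instance : NormedSpace ℝ (JV 𝒞) := inferInstanceAs (NormedSpace ℝ (Fin 𝒞.N → Jet E2))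

instance : FiniteDimensional ℝ (JV 𝒞) :=
  inferInstanceAs (FiniteDimensional ℝ (Fin 𝒞.N → Jet E2))

/-! ### the underlying function -/

lemma fnR_ck (v : VR 𝒞) : CkFn E2 2 (fnR v) := 𝒞.fn_ck (α := 1 / 2) v

lemma fnR_add (u v : VR 𝒞) (x : M) : fnR (u + v) x = fnR u x + fnR v x := rfl

lemma fnR_smul (c : ℝ) (v : VR 𝒞) (x : M) : fnR (c • v) x = c * fnR v x := rfl

lemma fnR_sub (u v : VR 𝒞) (x : M) : fnR (u - v) x = fnR u x - fnR v x := rfl

@[simp] lemma fnR_zero (x : M) : fnR (0 : VR 𝒞) x = 0 := rfl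

lemma fnR_ext {u v : VR 𝒞} (h : ∀ x, fnR u x = fnR v x) : u = v := 𝒞.C2_ext (α := 1 / 2) h

lemma abs_fnR_le (v : VR 𝒞) (x : M) : |fnR v x| ≤ ‖v‖ :=
  ((𝒞.incl (1 / 2) v).norm_apply_le x).trans (𝒞.norm_incl_le (α := 1 / 2) v)

lemma fnC_add (u v : VC 𝒞) (x : M) : fnC (u + v) x = fnC u x + fnC v x := by
  simp only [fnC, Cx.re_add, Cx.im_add, fnR_add]
  push_cast
  ring

lemma fnC_smul (c : ℂ) (v : VC 𝒞) (x : M) : fnC (c • v) x = c * fnC v x := by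
  simp only [fnC, Cx.re_smul, Cx.im_smul, fnR_add, fnR_sub, fnR_smul]
  conv_rhs => rw [← re_add_im c]
  push_cast
  linear_combination (-(c.im : ℂ) * (fnR v.im x : ℂ)) * I_mul_I

@[simp] lemma fnC_ofR (v : VR 𝒞) : fnC (Cx.ofR v) = fun x => (fnR v x : ℂ) := by
  funext x
  simp [fnC]

@[simp] lemma fnC_zero : fnC (0 : VC 𝒞) = fun _ => 0 := by
  funext x
  simp [fnC]

lemma norm_fnC_le (v : VC 𝒞) (x : M) : ‖fnC v x‖ ≤ 2 * ‖v‖ := by
  have h1 := (abs_fnR_le v.re x).trans v.norm_re_le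
  have h2 := (abs_fnR_le v.im x).trans v.norm_im_le
  refine (norm_add_le _ _).trans ?_
  rw [norm_mul, norm_I, one_mul, norm_real, norm_real, Real.norm_eq_abs, Real.norm_eq_abs]
  linarith

lemma contDiffAt_ri {D : Type*} [NormedAddCommGroup D] [NormedSpace ℝ D] {f g : D → ℝ} {x : D}
    {k : WithTop ℕ∞} (hf : ContDiffAt ℝ k f x) (hg : ContDiffAt ℝ k g x) :
    ContDiffAt ℝ k (fun y => (f y : ℂ) + I * g y) x :=
  (ofRealCLM.contDiff.contDiffAt.comp x hf).add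
    (contDiffAt_const.mul (ofRealCLM.contDiff.contDiffAt.comp x hg))

lemma fnC_ck (v : VC 𝒞) : CkFn E2 2 (fnC v) := fun e he x hx =>
  contDiffAt_ri (fnR_ck v.re e he x hx) (fnR_ck v.im e he x hx)

lemma ckAt_fnC (v : VC 𝒞) (x : M) : CkAt 2 (fnC v) x := CkFn.ckAt (fnC_ck v) x

/-- evaluation at a point -/
def evC (x : M) : VC 𝒞 →L[ℂ] ℂ :=
  LinearMap.mkContinuous
    { toFun := fun v => fnC v x
      map_add' := fun u v => fnC_add u v x
      map_smul' := fun c v => fnC_smul c v x } 2 fun v => norm_fnC_le v x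

lemma cj_ofReal {D : Type*} [NormedAddCommGroup D] [NormedSpace ℝ D] {d1 d2 : D} {f : D → ℝ}
    {x : D} (hf : ContDiffAt ℝ 2 f x) :
    cj d1 d2 (fun y => (f y : ℂ)) x = jmap ofRealCLM (cj d1 d2 f x) := cj_clm ofRealCLM hf

lemma cj_ri {D : Type*} [NormedAddCommGroup D] [NormedSpace ℝ D] {d1 d2 : D} {f g : D → ℝ} {x : D}
    (hf : ContDiffAt ℝ 2 f x) (hg : ContDiffAt ℝ 2 g x) :
    cj d1 d2 (fun y => (f y : ℂ) + I * g y) x =
      jmap ofRealCLM (cj d1 d2 f x) + I • jmap ofRealCLM (cj d1 d2 g x) := by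
  have h1 : ContDiffAt ℝ 2 (fun y => (f y : ℂ)) x := ofRealCLM.contDiff.contDiffAt.comp x hf
  have h2 : ContDiffAt ℝ 2 (fun y => (g y : ℂ)) x := ofRealCLM.contDiff.contDiffAt.comp x hg
  rw [cj_add h1 (contDiffAt_const.mul h2), cj_ofReal hf, ← cj_ofReal hg, ← cj_csmul I h2]
  rfl

lemma star_jmap (j : J2 ℝ) : star (jmap ofRealCLM j) = jmap ofRealCLM j := by
  simp [Prod.ext_iff]

/-! ### the jets -/

/-- one cut off jet -/
def Ji (i : Fin 𝒞.N) : VR 𝒞 →L[ℝ] Hw 𝒞 (Jet E2) := 𝒞.J (1 / 2) i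

/-- inclusion of one component -/
def sing (i : Fin 𝒞.N) : Jet E2 →L[ℝ] JV 𝒞 :=
  ContinuousLinearMap.single ℝ (fun _ : Fin 𝒞.N => Jet E2) i

/-- projection to one component -/
def prj (i : Fin 𝒞.N) : JV 𝒞 →L[ℝ] Jet E2 :=
  ContinuousLinearMap.proj (R := ℝ) (φ := fun _ : Fin 𝒞.N => Jet E2) i

/-- the cut off jets of a real function -/
def JR : VR 𝒞 →L[ℝ] Hw 𝒞 (JV 𝒞) := ∑ i, (Hol.map (sing i)).comp (Ji i)

lemma JR_apply (v : VR 𝒞) (x : M) (i : Fin 𝒞.N) : prj i (JR v x) = 𝒞.Jf i (fnR v) x := by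
  have h : JR v x = ∑ k, sing k (𝒞.Jf k (fnR v) x) := by
    unfold JR
    rw [sum_apply, Hol.sum_apply]
    refine Finset.sum_congr rfl fun k _ => ?_
    exact congrArg (sing k) (𝒞.J_apply (α := 1 / 2) k v x)
  rw [h]
  exact congrFun (Finset.univ_sum_single fun k => 𝒞.Jf k (fnR v) x) i

lemma JR_eq (v : VR 𝒞) (x : M) : JR v x = fun i => 𝒞.Jf i (fnR v) x := funext (JR_apply v x)

/-- the cut off jets of a complex function -/
def JH : VC 𝒞 →L[ℂ] Hw 𝒞 (Cx (JV 𝒞)) := Cx.lift ((Hol.map Cx.ofR).comp JR)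

lemma JH_apply (v : VC 𝒞) (x : M) : JH v x = Cx.ofR (JR v.re x) + I • Cx.ofR (JR v.im x) := rfl

lemma JH_ofR (v : VR 𝒞) (x : M) : JH (Cx.ofR v) x = Cx.ofR (JR v x) := by
  rw [JH, Cx.lift_ofR]; rfl

lemma lift_JH {W : Type*} [NormedAddCommGroup W] [NormedSpace ℂ W] (T : JV 𝒞 →L[ℝ] W) (v : VC 𝒞)
    (x : M) : Cx.lift T (JH v x) = T (JR v.re x) + I • T (JR v.im x) := by
  rw [JH_apply, map_add, map_smul, Cx.lift_ofR, Cx.lift_ofR]

lemma Mix.lift {E V W : Type*} [NormedAddCommGroup E] [NormedSpace ℝ E] [NormedAddCommGroup V]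
    [NormedSpace ℝ V] [NormedAddCommGroup W] [NormedSpace ℂ W] {T : E → V →L[ℝ] W} {y : E}
    {ξ : Cx V} (hT : ContDiffAt ℝ 1 T y) : Mix (fun q : E × Cx V => Cx.lift (T q.1) q.2) (y, ξ) := by
  refine ⟨?_, Eventually.of_forall fun q => (Cx.lift (T q.1)).differentiableAt⟩
  have h1 : ContDiffAt ℝ 1 (fun q : E × Cx V => T q.1) (y, ξ) := hT.comp (y, ξ) contDiffAt_fst
  have h2 : ContDiffAt ℝ 1 (fun q : E × Cx V => T q.1 (Cx.reL q.2)) (y, ξ) :=
    h1.clm_apply ((Cx.reL (V := V)).contDiff.contDiffAt.comp _ contDiffAt_snd)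
  have h3 : ContDiffAt ℝ 1 (fun q : E × Cx V => T q.1 (Cx.imL q.2)) (y, ξ) :=
    h1.clm_apply ((Cx.imL (V := V)).contDiff.contDiffAt.comp _ contDiffAt_snd)
  exact h2.add (h3.const_smul I)

/-- the components of a jet in the directions `u1`, `u2` -/
def toJ2 : Jet E2 →L[ℝ] J2 ℝ :=
  let e1 : E2 → Jet E2 →L[ℝ] ℝ := fun v => j1 (ContinuousLinearMap.id ℝ E2) v
  let e2 : E2 → E2 → Jet E2 →L[ℝ] ℝ := fun v v' => (ContinuousLinearMap.apply ℝ ℝ v').comp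
    ((ContinuousLinearMap.apply ℝ (E2 →L[ℝ] ℝ) v).comp
      ((ContinuousLinearMap.snd ℝ _ _).comp (ContinuousLinearMap.snd ℝ ℝ _)))
  ((ContinuousLinearMap.fst ℝ _ _).prod ((e1 u1).prod (e1 u2))).prod
    ((e2 u1 u1).prod ((e2 u2 u1).prod (e2 u2 u2)))

lemma toJ2_apply (j : Jet E2) : toJ2 j =
    ((j.1, j.2.1 u1, j.2.1 u2), (j.2.2 u1 u1, j.2.2 u2 u1, j.2.2 u2 u2)) := rfl

lemma toJ2_jet {g : E2 → ℝ} {y : E2} (hg : ContDiffAt ℝ 2 g y) : toJ2 (jet g y) = cj u1 u2 g y := by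
  simp only [cj, pd_pd_eq hg]
  rfl

/-- the polar components of a jet -/
def PJ (y : E2) : Jet E2 →L[ℝ] J2 ℝ :=
  let i := ContinuousLinearMap.id ℝ E2
  ((ContinuousLinearMap.fst ℝ _ _).prod ((-j1 i y).prod (j1 Jr y))).prod
    ((j1 i y + j2 i i y).prod ((-(j1 Jr y + j2 Jr i y)).prod (-j1 i y + j2 Jr Jr y)))

lemma PJ_apply (y : E2) (j : Jet E2) : PJ y j = ((j.1, -j.2.1 y, j.2.1 (Jr y)),
    (j.2.1 y + j.2.2 y y, -(j.2.1 (Jr y) + j.2.2 (Jr y) y), -j.2.1 y + j.2.2 (Jr y) (Jr y))) := rfl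

lemma contDiff_PJ : ContDiff ℝ 1 PJ := by
  have h : ∀ {A B : Type} [NormedAddCommGroup A] [NormedSpace ℝ A] [NormedAddCommGroup B]
      [NormedSpace ℝ B] {f : E2 → Jet E2 →L[ℝ] A} {g : E2 → Jet E2 →L[ℝ] B},
      ContDiff ℝ 1 f → ContDiff ℝ 1 g → ContDiff ℝ 1 fun y => (f y).prod (g y) := by
    intro A B _ _ _ _ f g hf hg
    have e : (fun y => (f y).prod (g y)) = fun y => (ContinuousLinearMap.inl ℝ A B).comp (f y) +
        (ContinuousLinearMap.inr ℝ A B).comp (g y) := by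
      funext y
      refine ContinuousLinearMap.ext fun j => ?_
      simp
    rw [e]
    exact (contDiff_const.clm_comp hf).add (contDiff_const.clm_comp hg)
  exact h (h contDiff_const (h (contDiff_j1 _).neg (contDiff_j1 _)))
    (h ((contDiff_j1 _).add (contDiff_j2 _ _)) (h ((contDiff_j1 _).add (contDiff_j2 _ _)).neg
      ((contDiff_j1 _).neg.add (contDiff_j2 _ _))))

lemma PJ_jet {g : E2 → ℝ} {p : ℝ × ℝ} (hg : ContDiffAt ℝ 2 g (pol p)) :
    PJ (pol p) (jet g (pol p)) = pj (fun q => g (pol q)) p := by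
  have h1 := hg.differentiableAt (by simp)
  have a1 := dw_comp_pol h1
  have a2 := dth_comp_pol h1
  have a3 := dw_dw_comp_pol hg
  have a4 := dth_dw_comp_pol hg
  have a5 := dth_dth_comp_pol hg
  simp only [dw, dth] at a1 a2 a3 a4 a5
  simp only [pj, cj, a1, a2, a3, a4, a5]
  rfl

variable [T2Space M] [RSm E2 M]

variable (𝒞) in
/-- the jet in the chart `e`, recovered from the cut off jets -/
def recL (e : OpenPartialHomeomorph M E2) (y : E2) : JV 𝒞 →L[ℝ] Jet E2 :=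
  ∑ i, (rec 𝒞 e i y).comp (prj i)

lemma contDiffAt_recL {e : OpenPartialHomeomorph M E2} (he : e ∈ atlas E2 M) {y : E2}
    (hy : y ∈ e.target) : ContDiffAt ℝ 1 (recL 𝒞 e) y :=
  ContDiffAt.sum fun i _ => ((contDiffAt_rec 𝒞 he i hy).of_le (by simp)).clm_comp contDiffAt_const

lemma recL_JR {e : OpenPartialHomeomorph M E2} (he : e ∈ atlas E2 M) {y : E2} (hy : y ∈ e.target)
    (v : VR 𝒞) : recL 𝒞 e y (JR v (e.symm y)) = jet (cX e (fnR v)) y := by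
  have h := jet_eq_sum 𝒞 he (fnR_ck v) hy
  unfold recL
  rw [sum_apply]
  refine Eq.trans (Finset.sum_congr rfl fun i _ => ?_) h.symm
  exact congrArg (rec 𝒞 e i y) (JR_apply v _ i)

variable (𝒞) in
/-- the jet in a chart -/
def RC (e : OpenPartialHomeomorph M E2) (y : E2) : Cx (JV 𝒞) →L[ℂ] J2 ℂ :=
  Cx.lift ((jmap ofRealCLM).comp (toJ2.comp (recL 𝒞 e y)))

variable (𝒞) in
/-- the jet in the polar coordinates of a chart -/
def RP (e : OpenPartialHomeomorph M E2) (y : E2) : Cx (JV 𝒞) →L[ℂ] J2 ℂ :=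
  Cx.lift ((jmap ofRealCLM).comp ((PJ y).comp (recL 𝒞 e y)))

variable {e : OpenPartialHomeomorph M E2} {y : E2}

lemma mix_RC (he : e ∈ atlas E2 M) (hy : y ∈ e.target) (ξ : Cx (JV 𝒞)) :
    Mix (fun q : E2 × Cx (JV 𝒞) => RC 𝒞 e q.1 q.2) (y, ξ) :=
  Mix.lift (T := fun y => (jmap ofRealCLM).comp (toJ2.comp (recL 𝒞 e y)))
    (contDiffAt_const.clm_comp (contDiffAt_const.clm_comp (contDiffAt_recL he hy)))

lemma mix_RP (he : e ∈ atlas E2 M) (hy : y ∈ e.target) (ξ : Cx (JV 𝒞)) :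
    Mix (fun q : E2 × Cx (JV 𝒞) => RP 𝒞 e q.1 q.2) (y, ξ) :=
  Mix.lift (T := fun y => (jmap ofRealCLM).comp ((PJ y).comp (recL 𝒞 e y)))
    (contDiffAt_const.clm_comp (contDiff_PJ.contDiffAt.clm_comp (contDiffAt_recL he hy)))

lemma RC_JH (he : e ∈ atlas E2 M) (hy : y ∈ e.target) (v : VC 𝒞) :
    RC 𝒞 e y (JH v (e.symm y)) = cj u1 u2 (cX e (fnC v)) y := by
  have h1 : ∀ u : VR 𝒞, ContDiffAt ℝ 2 (cX e (fnR u)) y := fun u => (fnR_ck u).at_target he hy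
  rw [RC, lift_JH]
  simp only [ContinuousLinearMap.comp_apply, recL_JR he hy]
  rw [toJ2_jet (h1 _), toJ2_jet (h1 _), ← cj_ri (h1 _) (h1 _)]
  rfl

lemma RP_JH (he : e ∈ atlas E2 M) {p : ℝ × ℝ} (hp : pol p ∈ e.target) (v : VC 𝒞) :
    RP 𝒞 e (pol p) (JH v (e.symm (pol p))) = pj (fun q => fnC v (e.symm (pol q))) p := by
  have h1 : ∀ u : VR 𝒞, ContDiffAt ℝ 2 (cX e (fnR u)) (pol p) := fun u =>
    (fnR_ck u).at_target he hp
  have h2 : ∀ u : VR 𝒞, ContDiffAt ℝ 2 (fun q => fnR u (e.symm (pol q))) p := fun u =>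
    ContDiffAt.comp (g := fun y => fnR u (e.symm y)) p (h1 u) contDiff_pol.contDiffAt
  rw [RP, lift_JH]
  simp only [ContinuousLinearMap.comp_apply, recL_JR he hp]
  rw [PJ_jet (h1 _), PJ_jet (h1 _)]
  exact (cj_ri (h2 _) (h2 _)).symm

lemma star_RC (J : JV 𝒞) : star (RC 𝒞 e y (Cx.ofR J)) = RC 𝒞 e y (Cx.ofR J) := by
  rw [RC, Cx.lift_ofR]; exact star_jmap _

lemma star_RP (J : JV 𝒞) : star (RP 𝒞 e y (Cx.ofR J)) = RP 𝒞 e y (Cx.ofR J) := by
  rw [RP, Cx.lift_ofR]; exact star_jmap _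

end Vale.Agent.P218CO
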