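import Vale.Agent.P218CO.IFT
import Vale.Agent.P218CO.Cpt

/-! # The abstract form of the system -/

open Set Filter Metric Topology Complex

noncomputable section

set_option linter.unusedSectionVars false
set_option linter.unusedVariables false

namespace Vale.Agent.P218CO

section real
variable {X Y : Type*} [NormedAddCommGroup X] [NormedSpace ℂ X] [NormedAddCommGroup Y]
  [NormedSpace ℂ Y]

/-- a closed real subspace -/
structure RealSet (S : Set X) : Prop where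
  closed : IsClosed S
  zero : (0 : X) ∈ S
  sub : ∀ a ∈ S, ∀ b ∈ S, a - b ∈ S
  smul : ∀ t : ℝ, ∀ a ∈ S, (t : ℂ) • a ∈ S

lemma hasDerivAt_ray {F : X → Y} {T : X →L[ℂ] Y} (h : HasFDerivAt F T 0) (x : X) :
    HasDerivAt (fun t : ℂ => F (t • x)) (T x) 0 := by
  simpa [HasLineDerivAt] using h.hasLineDerivAt x

lemma RealSet.fderiv_mem {S : Set X} {S' : Set Y} (h : RealSet S) (h' : RealSet S') {F : X → Y}
    {T : X →L[ℂ] Y} (hF : HasFDerivAt F T 0) (hm : ∀ᶠ x in 𝓝 0, x ∈ S → F x ∈ S') :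
    ∀ x ∈ S, T x ∈ S' := by
  intro x hx
  have h1 := hasDerivAt_iff_tendsto_slope_zero.1 (hasDerivAt_ray hF x)
  have h2 : Tendsto (fun t : ℝ => (t : ℂ)) (𝓝[≠] 0) (𝓝[≠] 0) :=
    tendsto_nhdsWithin_iff.2 ⟨(continuous_ofReal.tendsto' 0 0 ofReal_zero).mono_left
      nhdsWithin_le_nhds, eventually_mem_nhdsWithin.mono fun t ht => ofReal_ne_zero.2 ht⟩
  have h3 : Tendsto (fun t : ℝ => (t : ℂ) • x) (𝓝[≠] 0) (𝓝 0) :=
    ((continuous_ofReal.smul continuous_const).tendsto' 0 0 (by simp)).mono_left nhdsWithin_le_nhds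
  refine h'.closed.mem_of_tendsto (h1.comp h2) ?_
  filter_upwards [h3.eventually hm] with t ht
  have := h'.smul t⁻¹ _ (h'.sub _ (ht (h.smul t x hx)) _ (hm.self_of_nhds h.zero))
  simpa using this

lemma RealSet.symm_mem {S : Set X} {S' : Set Y} (h : RealSet S) (h' : RealSet S')
    {T : X ≃L[ℂ] Y} (hT : ∀ x ∈ S, T x ∈ S') (hd : ∀ x, ∃ a ∈ S, ∃ b ∈ S, x = a + I • b)
    (hI : ∀ b ∈ S', I • b ∈ S' → b = 0) : ∀ y ∈ S', T.symm y ∈ S := by
  intro y hy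
  obtain ⟨a, ha, b, hb, hab⟩ := hd (T.symm y)
  have h1 : y = T a + I • T b := by
    rw [← map_smul, ← map_add, ← hab, T.apply_symm_apply]
  have h2 : T b = 0 := hI _ (hT b hb) (by
    have := h'.sub _ hy _ (hT a ha)
    rwa [h1, add_sub_cancel_left] at this)
  rw [hab, T.map_eq_zero_iff.1 h2, smul_zero, add_zero]
  exact ha

end real

variable {V A H Z N Q : Type*} [NormedAddCommGroup V] [NormedSpace ℂ V] [NormedAddCommGroup A]
  [NormedSpace ℂ A] [NormedAddCommGroup H] [NormedSpace ℂ H] [NormedAddCommGroup Z]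
  [NormedSpace ℂ Z] [NormedAddCommGroup N] [NormedSpace ℂ N] [NormedAddCommGroup Q]
  [NormedSpace ℂ Q]

/-- the system -/
def absMap (S : (V × A) × H → Z) (L : V →L[ℂ] Q) (κ : V → H) (m : V → N) (z : Q) (x : V × A) :
    Z × N × Q := (S (x, κ x.1), m x.1, L x.1 - z)

/-- the hypotheses on the base system -/
structure AbsOK (S : (V × A) × H → Z) (κ : V → H) (m : V → N) (R δ B : ℝ) : Prop where
  R_pos : 0 < R
  δ_pos : 0 < δ
  dS : DifferentiableOn ℂ S (ball 0 R)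
  bS : ∀ q ∈ ball (0 : (V × A) × H) R, ‖S q‖ ≤ B
  S0 : S 0 = 0
  dκ : DifferentiableOn ℂ κ (ball 0 δ)
  bκ : ∀ v ∈ ball (0 : V) δ, ‖κ v‖ ≤ B
  κ0 : κ 0 = 0
  dm : DifferentiableOn ℂ m (ball 0 δ)
  bm : ∀ v ∈ ball (0 : V) δ, ‖m v‖ ≤ B
  m0 : m 0 = 0

variable {S : (V × A) × H → Z} {κ : V → H} {m : V → N} {R δ B : ℝ} (L : V →L[ℂ] Q)

lemma AbsOK.hasFDerivAt (h : AbsOK S κ m R δ B) :
    HasFDerivAt (absMap S L κ m 0) (((fderiv ℂ S 0).comp ((ContinuousLinearMap.id ℂ (V × A)).prod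
      ((fderiv ℂ κ 0).comp (ContinuousLinearMap.fst ℂ V A)))).prod
      (((fderiv ℂ m 0).comp (ContinuousLinearMap.fst ℂ V A)).prod
        (L.comp (ContinuousLinearMap.fst ℂ V A)))) 0 := by
  have h1 : HasFDerivAt κ (fderiv ℂ κ 0) (0 : V × A).1 :=
    (h.dκ.differentiableAt (ball_mem_nhds 0 h.δ_pos)).hasFDerivAt
  have h2 : HasFDerivAt m (fderiv ℂ m 0) (0 : V × A).1 :=
    (h.dm.differentiableAt (ball_mem_nhds 0 h.δ_pos)).hasFDerivAt
  have h3 : HasFDerivAt S (fderiv ℂ S 0) ((0 : V × A), κ (0 : V × A).1) := by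
    rw [Prod.fst_zero, h.κ0]
    exact (h.dS.differentiableAt (ball_mem_nhds 0 h.R_pos)).hasFDerivAt
  exact (h3.comp (0 : V × A) ((hasFDerivAt_id _).prodMk (h1.comp _ hasFDerivAt_fst))).prodMk
    ((h2.comp _ hasFDerivAt_fst).prodMk ((L.hasFDerivAt.comp _ hasFDerivAt_fst).sub_const 0))

lemma AbsOK.fderiv_apply (h : AbsOK S κ m R δ B) (x : V × A) : fderiv ℂ (absMap S L κ m 0) 0 x =
    (fderiv ℂ S 0 (x, fderiv ℂ κ 0 x.1), fderiv ℂ m 0 x.1, L x.1) := by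
  rw [(h.hasFDerivAt L).fderiv]; rfl

lemma AbsOK.ev (h : AbsOK S κ m R δ B) :
    ∀ᶠ x : V × A in 𝓝 0, x.1 ∈ ball (0 : V) δ ∧ (x, κ x.1) ∈ ball (0 : (V × A) × H) R := by
  have h1 : ContinuousAt κ (0 : V × A).1 :=
    (h.dκ.differentiableAt (ball_mem_nhds 0 h.δ_pos)).continuousAt
  have h2 : ContinuousAt (fun x : V × A => (x, κ x.1)) 0 :=
    continuousAt_id.prodMk (h1.comp continuousAt_fst)
  have h3 : Tendsto (fun x : V × A => x.1) (𝓝 0) (𝓝 0) := continuous_fst.tendsto _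
  rw [ContinuousAt, Prod.fst_zero, h.κ0] at h2
  exact (h3.eventually (ball_mem_nhds (0 : V) h.δ_pos)).and
    (h2.eventually (ball_mem_nhds 0 h.R_pos))

lemma AbsOK.fred [FiniteDimensional ℂ A] [FiniteDimensional ℂ N] [FiniteDimensional ℂ Q]
    (h : AbsOK S κ m R δ B) {L₀ : V →L[ℂ] Z} (h0 : Fred L₀)
    (hL : ∀ v, L₀ v = fderiv ℂ S 0 ((v, 0), 0)) (hκ : IsCompactOperator (fderiv ℂ κ 0))
    (hA : Module.finrank ℂ A = Module.finrank ℂ (N × Q)) : Fred (fderiv ℂ (absMap S L κ m 0) 0) := by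
  refine Fred.block hA (h0.of_sub (cpt_congr (hκ.clm_comp ((fderiv ℂ S 0).comp
    (ContinuousLinearMap.inr ℂ (V × A) H))) fun v => ?_))
  show (fderiv ℂ (absMap S L κ m 0) 0 (v, 0)).1 - L₀ v = fderiv ℂ S 0 (0, fderiv ℂ κ 0 v)
  rw [h.fderiv_apply, hL, ← map_sub]
  simp

/-- **The abstract solver.** -/
theorem AbsOK.exists_solver [CompleteSpace V] [CompleteSpace A] (h : AbsOK S κ m R δ B)
    {T : (V × A) ≃L[ℂ] Z × N × Q} (hT : fderiv ℂ (absMap S L κ m 0) 0 = T) {ρ₀ : ℝ}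
    (hρ₀ : 0 < ρ₀) : ∃ ρ ε C : ℝ, 0 < ρ ∧ ρ ≤ ρ₀ ∧ ρ ≤ δ ∧ 0 < ε ∧ 0 ≤ C ∧
      ∀ (κ' : V → H) (m' : V → N) (z : Q), DifferentiableOn ℂ κ' (ball 0 δ) →
      DifferentiableOn ℂ m' (ball 0 δ) → (∀ v ∈ ball (0 : V) δ, ‖κ' v - κ v‖ ≤ ε) →
      (∀ v ∈ ball (0 : V) δ, ‖m' v - m v‖ ≤ ε) → ‖z‖ ≤ ε →
      Near (absMap S L κ' m' z) T ρ ∧ 2 * ‖T.symm (absMap S L κ' m' z 0)‖ < ρ ∧
      (∀ x ∈ ball (0 : V × A) ρ, (x, κ' x.1) ∈ ball (0 : (V × A) × H) R) ∧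
      ∀ x ∈ ball (0 : V × A) ρ, ∀ k : H, ((x, k) ∈ ball (0 : (V × A) × H) R → S (x, k) = 0) →
        ‖zeroOf (absMap S L κ' m' z) ρ - x‖ ≤ C * (‖k - κ' x.1‖ + ‖m' x.1‖ + ‖L x.1 - z‖) := by
  have hR := h.R_pos
  have hδ := h.δ_pos
  have hB : 0 ≤ B := (norm_nonneg _).trans (h.bm 0 (mem_ball_self hδ))
  have h4 : ∀ᶠ v in 𝓝 (0 : V), ‖κ v‖ < R / 8 := by
    have h1 := (h.dκ.differentiableAt (ball_mem_nhds 0 hδ)).continuousAt.norm
    rw [ContinuousAt, h.κ0, norm_zero] at h1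
    exact h1.eventually (gt_mem_nhds (by positivity))
  obtain ⟨r₁, hr₁, h5⟩ := Metric.eventually_nhds_iff_ball.1 h4
  obtain ⟨r, hr, hr1, hr2, hr3, hr4⟩ : ∃ r > 0, r ≤ r₁ ∧ r ≤ δ ∧ r ≤ R / 2 ∧ r ≤ ρ₀ :=
    ⟨min (min r₁ δ) (min (R / 2) ρ₀), by positivity, by simp, by simp, by simp, by simp⟩
  have hv : ∀ x ∈ ball (0 : V × A) r, x.1 ∈ ball (0 : V) r := fun x hx =>
    mem_ball_zero_iff.2 ((norm_fst_le x).trans_lt (mem_ball_zero_iff.1 hx))
  have hvδ : ∀ x ∈ ball (0 : V × A) r, x.1 ∈ ball (0 : V) δ := fun x hx =>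
    ball_subset_ball hr2 (hv x hx)
  have hin : ∀ x ∈ ball (0 : V × A) r, ∀ k : H, ‖k - κ x.1‖ ≤ R / 4 →
      (x, k) ∈ ball (0 : (V × A) × H) (R - R / 2) := fun x hx k hk => by
    have h6 := h5 _ (ball_subset_ball hr1 (hv x hx))
    have h7 := norm_sub_norm_le k (κ x.1)
    rw [mem_ball_zero_iff] at hx ⊢
    exact max_lt (by linarith) (by linarith)
  have hsub : ball (0 : (V × A) × H) (R - R / 2) ⊆ ball 0 R := ball_subset_ball (by linarith)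
  have hdiff : ∀ (κ' : V → H) (m' : V → N) (z : Q), DifferentiableOn ℂ κ' (ball 0 δ) →
      DifferentiableOn ℂ m' (ball 0 δ) → (∀ v ∈ ball (0 : V) δ, ‖κ' v - κ v‖ ≤ R / 4) →
      DifferentiableOn ℂ (absMap S L κ' m' z) (ball 0 r) := fun κ' m' z h1 h2 h3 =>
    (h.dS.comp (differentiableOn_id.prodMk (h1.comp differentiableOn_fst hvδ))
      fun x hx => hsub (hin x hx _ (h3 _ (hvδ x hx)))).prodMk
      ((h2.comp differentiableOn_fst hvδ).prodMk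
        ((L.differentiable.comp differentiable_fst).differentiableOn.sub_const z))
  have h00 : ∀ v : V, ‖κ v - κ v‖ ≤ R / 4 := fun v => by rw [sub_self, norm_zero]; positivity
  obtain ⟨ρ, hρ, hρr, ε, hε, hG⟩ := uniform_ift (M := B + ‖L‖ * r) hr
    (hdiff κ m 0 h.dκ h.dm fun v _ => h00 v) (fun x hx => by
      have h1 := h.bS _ (hsub (hin x hx _ (h00 _)))
      have h2 := h.bm _ (hvδ x hx)
      have h3 : ‖L x.1 - 0‖ ≤ ‖L‖ * r := by
        rw [sub_zero]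
        exact (L.le_opNorm _).trans (mul_le_mul_of_nonneg_left
          (mem_ball_zero_iff.1 (hv x hx)).le (norm_nonneg _))
      have h4 : 0 ≤ ‖L‖ * r := by positivity
      exact max_le (h1.trans (by linarith)) (max_le (h2.trans (by linarith))
        (h3.trans (by linarith)))) hT (by
      rw [absMap, Prod.fst_zero, h.κ0, h.m0, map_zero, sub_zero]
      exact Prod.ext h.S0 rfl)
  set K := B / (R / 2) + 1 with hK
  have hK1 : 1 ≤ K := le_add_of_nonneg_left (by positivity)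
  have hlip : ∀ x ∈ ball (0 : V × A) r, ∀ k k' : H, ‖k - κ x.1‖ ≤ R / 4 → ‖k' - κ x.1‖ ≤ R / 4 →
      ‖S (x, k) - S (x, k')‖ ≤ K * ‖k - k'‖ := fun x hx k k' hk hk' => by
    refine (lip_inner (half_pos hR) h.dS h.bS (hin x hx k hk) (hin x hx k' hk')).trans ?_
    rw [Prod.mk_sub_mk, sub_self, Prod.norm_mk, norm_zero, max_eq_right (norm_nonneg _)]
    exact mul_le_mul_of_nonneg_right (by linarith) (norm_nonneg _)
  have hρb : ball (0 : V × A) ρ ⊆ ball 0 r := ball_subset_ball (by linarith)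
  set τ := ‖(T.symm : Z × N × Q →L[ℂ] V × A)‖ with hτ
  have hτ0 : 0 ≤ τ := norm_nonneg _
  refine ⟨ρ, min (ε / K) (R / 8), 2 * τ * K + 2 * ρ / (R / 8), hρ, by linarith, by linarith,
    by positivity, by positivity, fun κ' m' z h1 h2 h3 h6 h7 => ?_⟩
  have h8 : ∀ v ∈ ball (0 : V) δ, ‖κ' v - κ v‖ ≤ R / 8 := fun v hv =>
    (h3 v hv).trans (min_le_right _ _)
  have h9 : min (ε / K) (R / 8) ≤ ε := (min_le_left _ _).trans (div_le_self hε.le hK1)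
  obtain ⟨hn, h0⟩ := hG _ (hdiff κ' m' z h1 h2 fun v hv => by linarith [h8 v hv]) fun x hx => by
    refine max_le ((hlip x hx _ _ (by linarith [h8 _ (hvδ x hx)]) (h00 _)).trans ?_)
      (max_le ((h6 _ (hvδ x hx)).trans h9) ?_)
    · rw [mul_comm]
      exact (le_div_iff₀ (by linarith)).1 ((h3 _ (hvδ x hx)).trans (min_le_left _ _))
    · show ‖L x.1 - z - (L x.1 - 0)‖ ≤ ε
      rw [sub_sub_sub_cancel_left, zero_sub, norm_neg]
      exact h7.trans h9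
  refine ⟨hn, h0, fun x hx => hsub (hin x (hρb hx) _ (by linarith [h8 _ (hvδ x (hρb hx))])),
    fun x hx k hk => ?_⟩
  obtain ⟨s1, s2⟩ := hn.zeroOf_spec h0
  have a1 := norm_nonneg (k - κ' x.1)
  have a2 := norm_nonneg (m' x.1)
  have a3 := norm_nonneg (L x.1 - z)
  have a4 : 0 ≤ 2 * ρ / (R / 8) := by positivity
  have a5 := h8 _ (hvδ x (hρb hx))
  rw [add_mul]
  rcases le_or_gt ‖k - κ' x.1‖ (R / 8) with hc | hc
  · have b1 : ‖k - κ x.1‖ ≤ R / 4 := by linarith [norm_sub_le_norm_sub_add_norm_sub k (κ' x.1) (κ x.1)]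
    have b2 := hlip x (hρb hx) _ _ b1 (show ‖κ' x.1 - κ x.1‖ ≤ R / 4 by linarith)
    rw [hk (hsub (hin x (hρb hx) k b1)), zero_sub, norm_neg] at b2
    have b3 := hn.sub_le s1 hx
    rw [s2, zero_sub, map_neg, norm_neg] at b3
    have b4 : ‖absMap S L κ' m' z x‖ ≤ K * (‖k - κ' x.1‖ + ‖m' x.1‖ + ‖L x.1 - z‖) :=
      have g : ∀ {t : ℝ}, t ≤ ‖k - κ' x.1‖ + ‖m' x.1‖ + ‖L x.1 - z‖ →
          t ≤ K * (‖k - κ' x.1‖ + ‖m' x.1‖ + ‖L x.1 - z‖) := fun ht =>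
        ht.trans (le_mul_of_one_le_left (by positivity) hK1)
      max_le (b2.trans (mul_le_mul_of_nonneg_left (by linarith) (by linarith)))
        (max_le (g (t := ‖m' x.1‖) (by linarith)) (g (t := ‖L x.1 - z‖) (by linarith)))
    have b5 := ((T.symm : Z × N × Q →L[ℂ] V × A).le_opNorm (absMap S L κ' m' z x)).trans
      (mul_le_mul_of_nonneg_left b4 hτ0)
    have b6 : 0 ≤ 2 * ρ / (R / 8) * (‖k - κ' x.1‖ + ‖m' x.1‖ + ‖L x.1 - z‖) := by positivity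
    refine b3.trans ?_
    rw [ContinuousLinearEquiv.coe_coe] at b5
    linarith
  · have b1 := norm_sub_le (zeroOf (absMap S L κ' m' z) ρ) x
    have b2 := mem_ball_zero_iff.1 s1
    have b3 := mem_ball_zero_iff.1 hx
    have b4 : 2 * ρ / (R / 8) * (R / 8) ≤
        2 * ρ / (R / 8) * (‖k - κ' x.1‖ + ‖m' x.1‖ + ‖L x.1 - z‖) :=
      mul_le_mul_of_nonneg_left (by linarith) a4
    rw [div_mul_cancel₀ _ (by positivity)] at b4
    have b6 : 0 ≤ 2 * τ * K * (‖k - κ' x.1‖ + ‖m' x.1‖ + ‖L x.1 - z‖) := by positivity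
    linarith

lemma differentiableOn_absMap {P : Type*} [NormedAddCommGroup P] [NormedSpace ℂ P]
    (hS : DifferentiableOn ℂ S (ball 0 R)) {Ω : Set P} {κ' : P → V → H} {m' : P → V → N}
    {z : P → Q} {ρ : ℝ} (hρ : ρ ≤ δ)
    (h1 : DifferentiableOn ℂ (fun q : P × V => κ' q.1 q.2) (Ω ×ˢ ball 0 δ))
    (h2 : DifferentiableOn ℂ (fun q : P × V => m' q.1 q.2) (Ω ×ˢ ball 0 δ))
    (h3 : DifferentiableOn ℂ z Ω)
    (h4 : ∀ a ∈ Ω, ∀ x ∈ ball (0 : V × A) ρ, (x, κ' a x.1) ∈ ball (0 : (V × A) × H) R) :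
    DifferentiableOn ℂ (fun q : P × (V × A) => absMap S L (κ' q.1) (m' q.1) (z q.1) q.2)
      (Ω ×ˢ ball 0 ρ) := by
  have h5 : DifferentiableOn ℂ (fun q : P × (V × A) => (q.1, q.2.1)) (Ω ×ˢ ball 0 ρ) := by
    fun_prop
  have h6 : MapsTo (fun q : P × (V × A) => (q.1, q.2.1)) (Ω ×ˢ ball 0 ρ) (Ω ×ˢ ball 0 δ) :=
    fun q hq => ⟨hq.1, mem_ball_zero_iff.2 (((norm_fst_le q.2).trans_lt
      (mem_ball_zero_iff.1 hq.2)).trans_le hρ)⟩
  exact (hS.comp (differentiableOn_snd.prodMk (h1.comp h5 h6)) fun q hq => h4 _ hq.1 _ hq.2).prodMk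
    ((h2.comp h5 h6).prodMk ((L.differentiable.comp
      (differentiable_fst.comp differentiable_snd)).differentiableOn.sub
        (h3.comp differentiableOn_fst fun q hq => hq.1)))

end Vale.Agent.P218CO
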