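import Vale.Agent.P218CO.Jet2
import Vale.Agent.P218MP.Polar
import Vale.Agent.P218VA.Man
import Mathlib.Analysis.SpecialFunctions.SmoothTransition

/-! # Punctured surfaces: end charts, levels, cutoff functions -/

open Set Filter Metric Topology
open scoped ContDiff

noncomputable section

set_option linter.unusedSectionVars false
set_option linter.unusedVariables false

namespace Vale.Agent.P218CO

open Vale.Agent.P218VA Vale.Agent.P218MP Vale.Agent.P272.K.LIN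
open Vale.Agent.P218GA (pol Model E3)

/-- the smooth step from `0` on `w ≤ a` to `1` on `w ≥ a + 1` -/
def st (a w : ℝ) : ℝ := Real.smoothTransition (w - a)

lemma st_zero {a w : ℝ} (h : w ≤ a) : st a w = 0 :=
  Real.smoothTransition.zero_of_nonpos (by linarith)

lemma st_one {a w : ℝ} (h : a + 1 ≤ w) : st a w = 1 :=
  Real.smoothTransition.one_of_one_le (by linarith)

lemma st_nonneg (a w : ℝ) : 0 ≤ st a w := Real.smoothTransition.nonneg _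

lemma st_le_one (a w : ℝ) : st a w ≤ 1 := Real.smoothTransition.le_one _

lemma contDiff_st (a : ℝ) {n : ℕ∞} : ContDiff ℝ n (st a) :=
  Real.smoothTransition.contDiff.comp (contDiff_id.sub contDiff_const)

lemma contDiff_st' (a : ℝ) {n : WithTop ℕ∞} (hn : n ≤ ∞) : ContDiff ℝ n (st a) :=
  (contDiff_st a (n := ⊤)).of_le hn

/-- the two-jet in polar coordinates -/
abbrev pj {Z : Type*} [NormedAddCommGroup Z] [NormedSpace ℝ Z] (f : ℝ × ℝ → Z) (p : ℝ × ℝ) :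
    J2 Z := cj ((1, 0) : ℝ × ℝ) (0, 1) f p

/-- Disjoint charts around finitely many points. -/
structure Ends (σ M : Type) [TopologicalSpace M] [ChartedSpace E2 M] where
  /-- the charts -/
  φ : σ → OpenPartialHomeomorph M E2
  /-- the level where the ends begin -/
  w0 : ℝ
  mem : ∀ j, φ j ∈ atlas E2 M
  target : ∀ j, (φ j).target = ball 0 (Real.exp (-w0))
  disj : ∀ j j' x, x ∈ (φ j).source → x ∈ (φ j').source → j = j'

/-- the ends of the model -/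
def ends {S : Set E3} {w : E3 → ℝ} {δ C : ℝ} {ι κ M : Type} [TopologicalSpace M]
    [ChartedSpace E2 M] (m : Model S w δ C ι κ M) : Ends (ι ⊕ κ) M :=
  ⟨m.φ, m.w0, m.mem, m.target, m.disj⟩

namespace Ends

variable {σ M : Type} [TopologicalSpace M] [ChartedSpace E2 M] (𝓔 : Ends σ M)

/-- polar coordinates on the end `j` -/
def Y (j : σ) (p : ℝ × ℝ) : M := (𝓔.φ j).symm (pol p)

/-- the complement of the punctures -/
def reg : Set M := {x | ∀ j, x ≠ (𝓔.φ j).symm 0}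

/-- the points of level less than `a` -/
def below (a : ℝ) : Set M := {x | ∀ j, x ∈ (𝓔.φ j).source → Real.exp (-a) < ‖𝓔.φ j x‖}

/-- a periodic function of the polar coordinates as a function on the end -/
def onEnd {V : Type*} [NormedAddCommGroup V] (j : σ) (f : ℝ × ℝ → V) : M → V :=
  ext0 (𝓔.φ j) fun y => f (lp y)

/-- the step in the plane -/
def stp (a : ℝ) (y : E2) : ℝ := by
  classical
  exact if y = 0 then 1 else st a (-Real.log ‖y‖)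

/-- the cutoff which is `1` on the part `w ≥ a + 1` of the end `j` and supported in `w ≥ a` -/
def cut (j : σ) (a : ℝ) : M → ℝ := ext0 (𝓔.φ j) (stp a)

variable {𝓔} {j j' : σ} {p : ℝ × ℝ} {x : M} {a : ℝ}

lemma zero_mem (j : σ) : (0 : E2) ∈ (𝓔.φ j).target := by
  rw [𝓔.target]; exact mem_ball_self (Real.exp_pos _)

lemma pol_mem (j : σ) (hp : 𝓔.w0 < p.1) : pol p ∈ (𝓔.φ j).target := by
  rw [𝓔.target]; exact pol_mem_ball.2 hp

lemma Y_mem (j : σ) (hp : 𝓔.w0 < p.1) : 𝓔.Y j p ∈ (𝓔.φ j).source :=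
  (𝓔.φ j).map_target (pol_mem j hp)

lemma φ_Y (j : σ) (hp : 𝓔.w0 < p.1) : 𝓔.φ j (𝓔.Y j p) = pol p := (𝓔.φ j).right_inv (pol_mem j hp)

lemma Y_notMem (h : j ≠ j') (hp : 𝓔.w0 < p.1) : 𝓔.Y j p ∉ (𝓔.φ j').source :=
  fun h' => h (𝓔.disj _ _ _ (Y_mem j hp) h')

lemma per_Y (j : σ) : Per (𝓔.Y j) := per_comp_pol _

lemma mem_reg_of (hx : x ∈ (𝓔.φ j).source) (h0 : 𝓔.φ j x ≠ 0) : x ∈ 𝓔.reg := by
  intro j' h
  have h1 : x ∈ (𝓔.φ j').source := h ▸ (𝓔.φ j').map_target (zero_mem j')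
  obtain rfl := 𝓔.disj _ _ _ hx h1
  exact h0 (by rw [h, (𝓔.φ j).right_inv (zero_mem j)])

lemma Y_reg (j : σ) (hp : 𝓔.w0 < p.1) : 𝓔.Y j p ∈ 𝓔.reg :=
  mem_reg_of (Y_mem j hp) (by rw [φ_Y j hp]; exact pol_ne_zero p)

lemma exists_Y (hx : x ∈ (𝓔.φ j).source) (h0 : 𝓔.φ j x ≠ 0) :
    ∃ p : ℝ × ℝ, 𝓔.w0 < p.1 ∧ p.2 ∈ Ico 0 (2 * Real.pi) ∧ x = 𝓔.Y j p := by
  obtain ⟨θ, hθ, h⟩ := exists_pol_eq 0 h0
  refine ⟨(_, θ), ?_, by simpa using hθ, by rw [Y, h, (𝓔.φ j).left_inv hx]⟩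
  rw [← pol_mem_ball, h, ← 𝓔.target j]
  exact (𝓔.φ j).map_source hx

lemma ne_zero_of_reg (hx : x ∈ (𝓔.φ j).source) (hr : x ∈ 𝓔.reg) : 𝓔.φ j x ≠ 0 :=
  fun h => hr j (by rw [← h, (𝓔.φ j).left_inv hx])

/-- a point is in the core, a puncture, or on an end -/
lemma cases (x : M) : (∀ j, x ∉ (𝓔.φ j).source) ∨ (∃ j, x = (𝓔.φ j).symm 0) ∨
    ∃ j, ∃ p : ℝ × ℝ, 𝓔.w0 < p.1 ∧ p.2 ∈ Ico 0 (2 * Real.pi) ∧ x = 𝓔.Y j p := by
  by_cases h : ∀ j, x ∉ (𝓔.φ j).source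
  · exact Or.inl h
  push Not at h
  obtain ⟨j, hj⟩ := h
  by_cases h0 : 𝓔.φ j x = 0
  · exact Or.inr (Or.inl ⟨j, by rw [← h0, (𝓔.φ j).left_inv hj]⟩)
  · exact Or.inr (Or.inr ⟨j, exists_Y hj h0⟩)

lemma below_reg (hx : x ∈ 𝓔.below a) : x ∈ 𝓔.reg := by
  intro j h
  have := hx j (h ▸ (𝓔.φ j).map_target (zero_mem j))
  rw [h, (𝓔.φ j).right_inv (zero_mem j), norm_zero] at this
  exact absurd this (not_lt.2 (Real.exp_pos _).le)

lemma below_mono {b : ℝ} (h : a ≤ b) : 𝓔.below a ⊆ 𝓔.below b := fun x hx j hj =>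
  (Real.exp_le_exp.2 (by linarith)).trans_lt (hx j hj)

lemma below_of_core (h : ∀ j, x ∉ (𝓔.φ j).source) (a : ℝ) : x ∈ 𝓔.below a :=
  fun j hj => absurd hj (h j)

lemma Y_below (hp : 𝓔.w0 < p.1) : 𝓔.Y j p ∈ 𝓔.below a ↔ p.1 < a := by
  constructor
  · intro h
    have := h j (Y_mem j hp)
    rwa [φ_Y j hp, norm_pol, Real.exp_lt_exp, neg_lt_neg_iff] at this
  · intro h j' hj'
    obtain rfl := 𝓔.disj _ _ _ (Y_mem j hp) hj'
    rwa [φ_Y j hp, norm_pol, Real.exp_lt_exp, neg_lt_neg_iff]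

lemma continuousAt_Y (j : σ) (hp : 𝓔.w0 < p.1) : ContinuousAt (𝓔.Y j) p :=
  ContinuousAt.comp (g := (𝓔.φ j).symm) ((𝓔.φ j).symm.continuousAt (pol_mem j hp))
    continuous_pol.continuousAt

lemma ev_w0 (hp : 𝓔.w0 < p.1) : ∀ᶠ q : ℝ × ℝ in 𝓝 p, 𝓔.w0 < q.1 :=
  continuous_fst.continuousAt.eventually (eventually_gt_nhds hp)

lemma map_Y (j : σ) (hp : 𝓔.w0 < p.1) : map (𝓔.Y j) (𝓝 p) = 𝓝 (𝓔.Y j p) := by
  have h := (𝓔.φ j).symm.map_nhds_eq (x := pol p) (pol_mem j hp)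
  rw [← map_pol_nhds, map_map] at h
  exact h

lemma ev_Y {P : M → Prop} (j : σ) (hp : 𝓔.w0 < p.1) :
    (∀ᶠ x in 𝓝 (𝓔.Y j p), P x) ↔ ∀ᶠ q in 𝓝 p, P (𝓔.Y j q) := by
  rw [← map_Y j hp, eventually_map]

section
variable {V : Type*} [NormedAddCommGroup V] [NormedSpace ℝ V] {f : ℝ × ℝ → V}

lemma onEnd_Y (hf : Per f) (hp : 𝓔.w0 < p.1) : 𝓔.onEnd j f (𝓔.Y j p) = f p := by
  rw [onEnd, ext0_of_mem (Y_mem j hp), φ_Y j hp, hf.lp_pol]

lemma onEnd_of_notMem (hx : x ∉ (𝓔.φ j).source) : 𝓔.onEnd j f x = 0 := ext0_of_notMem hx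

lemma contDiffAt_Y {X : M → V} {k : WithTop ℕ∞} (hp : 𝓔.w0 < p.1) (h : CkAt k X (𝓔.Y j p)) :
    ContDiffAt ℝ k (fun q => X (𝓔.Y j q)) p :=
  ContDiffAt.comp (g := cX (𝓔.φ j) X) p (h.at_target (𝓔.mem j) (pol_mem j hp))
    contDiff_pol.contDiffAt

lemma ckAt_Y [RSm E2 M] {X : M → V} {k : WithTop ℕ∞} (hk : k ≤ ∞) (hp : 𝓔.w0 < p.1)
    (h : ContDiffAt ℝ k (fun q => X (𝓔.Y j q)) p) : CkAt k X (𝓔.Y j p) := by
  refine ckAt_of_chart hk (𝓔.mem j) (Y_mem j hp) ?_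
  rw [φ_Y j hp]
  have h1 : Per fun q => X (𝓔.Y j q) := fun w θ => by simp only [per_Y j w θ]
  refine (h1.contDiffAt_lp hk h).congr_of_eventuallyEq ?_
  filter_upwards [isOpen_ne.mem_nhds (pol_ne_zero p)] with y hy
  simp only [cX, Y, pol_lp hy]

end

/-! ### the cutoff functions -/

lemma stp_pol (a : ℝ) (p : ℝ × ℝ) : stp a (pol p) = st a p.1 := by
  rw [stp, if_neg (pol_ne_zero p), norm_pol, Real.log_exp, neg_neg]

lemma stp_zero (a : ℝ) : stp a 0 = 1 := by simp [stp]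

lemma stp_eq_one {y : E2} (h : ‖y‖ ≤ Real.exp (-(a + 1))) : stp a y = 1 := by
  rcases eq_or_ne y 0 with rfl | hy
  · exact stp_zero a
  obtain ⟨p, rfl⟩ : ∃ p, pol p = y := ⟨_, pol_lp hy⟩
  rw [norm_pol, Real.exp_le_exp, neg_le_neg_iff] at h
  rw [stp_pol, st_one h]

lemma stp_eq_zero {y : E2} (h : Real.exp (-a) ≤ ‖y‖) : stp a y = 0 := by
  have hy : y ≠ 0 := norm_pos_iff.1 ((Real.exp_pos _).trans_le h)
  obtain ⟨p, rfl⟩ : ∃ p, pol p = y := ⟨_, pol_lp hy⟩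
  rw [norm_pol, Real.exp_le_exp, neg_le_neg_iff] at h
  rw [stp_pol, st_zero h]

lemma contDiff_stp (a : ℝ) : ContDiff ℝ ∞ (stp a) := by
  refine contDiff_iff_contDiffAt.2 fun y => ?_
  rcases eq_or_ne y 0 with rfl | hy
  · refine (contDiffAt_const (c := (1 : ℝ))).congr_of_eventuallyEq ?_
    filter_upwards [closedBall_mem_nhds (0 : E2) (Real.exp_pos (-(a + 1)))] with z hz
    exact stp_eq_one (mem_closedBall_zero_iff.1 hz)
  · have h1 : ContDiffAt ℝ ∞ (fun z : E2 => st a (-Real.log ‖z‖)) y :=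
      (contDiff_st a).contDiffAt.comp y
        (((contDiffAt_norm ℝ hy).log (norm_ne_zero_iff.2 hy)).neg)
    refine h1.congr_of_eventuallyEq ?_
    filter_upwards [isOpen_ne.mem_nhds hy] with z hz
    exact if_neg hz

lemma stp_mem (a : ℝ) (y : E2) : stp a y ∈ Icc (0 : ℝ) 1 := by
  unfold stp
  split_ifs
  · exact ⟨zero_le_one, le_rfl⟩
  · exact ⟨st_nonneg _ _, st_le_one _ _⟩

lemma cut_of_mem (hx : x ∈ (𝓔.φ j).source) : 𝓔.cut j a x = stp a (𝓔.φ j x) := ext0_of_mem hx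

lemma cut_of_notMem (hx : x ∉ (𝓔.φ j).source) : 𝓔.cut j a x = 0 := ext0_of_notMem hx

lemma cut_Y (hp : 𝓔.w0 < p.1) : 𝓔.cut j a (𝓔.Y j p) = st a p.1 := by
  rw [cut_of_mem (Y_mem j hp), φ_Y j hp, stp_pol]

lemma cut_below (hx : x ∈ 𝓔.below a) (j : σ) : 𝓔.cut j a x = 0 := by
  by_cases h : x ∈ (𝓔.φ j).source
  · rw [cut_of_mem h, stp_eq_zero (hx j h).le]
  · exact cut_of_notMem h

lemma closedBall_sub (j : σ) (ha : 𝓔.w0 < a) :
    closedBall (0 : E2) (Real.exp (-a)) ⊆ (𝓔.φ j).target := by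
  rw [𝓔.target]
  exact closedBall_subset_ball (Real.exp_lt_exp.2 (by linarith))

lemma cut_ck [T2Space M] [RSm E2 M] (j : σ) (ha : 𝓔.w0 < a) : CkFn E2 ∞ (𝓔.cut j a) :=
  ext0_ck le_rfl (𝓔.mem j) (isCompact_closedBall _ _) (closedBall_sub j ha)
    (fun y hy => stp_eq_zero (not_le.1 fun h => hy (mem_closedBall_zero_iff.2 h)).le)
    fun y _ => (contDiff_stp a).contDiffAt

lemma isOpen_below [T2Space M] [Finite σ] (ha : 𝓔.w0 < a) : IsOpen (𝓔.below a) := by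
  have h : 𝓔.below a = ⋂ j, ((𝓔.φ j).symm '' closedBall 0 (Real.exp (-a)))ᶜ := by
    ext x
    simp only [mem_iInter, mem_compl_iff]
    refine forall_congr' fun j => ⟨?_, fun h hx => ?_⟩
    · rintro h ⟨y, hy, rfl⟩
      have h1 := closedBall_sub j ha hy
      have h2 := h ((𝓔.φ j).map_target h1)
      rw [(𝓔.φ j).right_inv h1] at h2
      exact absurd (mem_closedBall_zero_iff.1 hy) (not_le.2 h2)
    · by_contra h1
      exact h ⟨_, mem_closedBall_zero_iff.2 (not_lt.1 h1), (𝓔.φ j).left_inv hx⟩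
  rw [h]
  exact isOpen_iInter_of_finite fun j => ((isCompact_closedBall _ _).image_of_continuousOn
    ((𝓔.φ j).continuousOn_symm.mono (closedBall_sub j ha))).isClosed.isOpen_compl

lemma isOpen_reg [T2Space M] [Finite σ] : IsOpen 𝓔.reg := by
  have : 𝓔.reg = ⋂ j, {(𝓔.φ j).symm 0}ᶜ := by
    ext x; simp [reg]
  rw [this]
  exact isOpen_iInter_of_finite fun j => isOpen_compl_singleton

variable [Fintype σ]

/-- sums over the ends have one term -/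
lemma sum_of_mem {A : Type*} [AddCommMonoid A] (hx : x ∈ (𝓔.φ j).source) {g : σ → A}
    (hg : ∀ j', x ∉ (𝓔.φ j').source → g j' = 0) : ∑ j', g j' = g j :=
  Finset.sum_eq_single j (fun j' _ h => hg j' fun h' => h (𝓔.disj _ _ _ h' hx)) (by simp)

variable (𝓔) in
/-- `1` below the level `a`, `0` above the level `a + 1` -/
def core (a : ℝ) (x : M) : ℝ := 1 - ∑ j, 𝓔.cut j a x

lemma core_of_mem (hx : x ∈ (𝓔.φ j).source) : 𝓔.core a x = 1 - stp a (𝓔.φ j x) := by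
  rw [core, sum_of_mem hx fun j' h => cut_of_notMem h, cut_of_mem hx]

lemma core_Y (hp : 𝓔.w0 < p.1) : 𝓔.core a (𝓔.Y j p) = 1 - st a p.1 := by
  rw [core_of_mem (Y_mem j hp), φ_Y j hp, stp_pol]

lemma core_below (hx : x ∈ 𝓔.below a) : 𝓔.core a x = 1 := by
  simp [core, cut_below hx]

lemma core_ck [T2Space M] [RSm E2 M] (ha : 𝓔.w0 < a) : CkFn E2 ∞ (𝓔.core a) :=
  (ckFn_const (1 : ℝ)).sub (CkFn.sum fun j _ => cut_ck j ha)

lemma core_mem (a : ℝ) (x : M) : 𝓔.core a x ∈ Icc (0 : ℝ) 1 := by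
  by_cases h : ∀ j, x ∉ (𝓔.φ j).source
  · rw [core_below (below_of_core h a)]; exact ⟨zero_le_one, le_rfl⟩
  · push Not at h
    obtain ⟨j, hj⟩ := h
    have := stp_mem a (𝓔.φ j x)
    rw [core_of_mem hj]
    exact ⟨by linarith [this.2], by linarith [this.1]⟩

lemma below_of_core_ne (h : 𝓔.core a x ≠ 0) : x ∈ 𝓔.below (a + 1) := fun j hj => by
  by_contra h1
  exact h (by rw [core_of_mem hj, stp_eq_one (not_lt.1 h1), sub_self])

variable (𝓔) in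
/-- the function which is `v` below the level `s + 3` and `μ j` above the level `s + 6` -/
def glue {A : Type*} [RCLike A] (s : ℝ) (v : M → A) (μ : σ → ℝ × ℝ → A) (x : M) : A :=
  (𝓔.core (s + 5) x : ℝ) * v x + ∑ j, (𝓔.cut j (s + 3) x : ℝ) * 𝓔.onEnd j (μ j) x

section
variable {A : Type*} [RCLike A] {s : ℝ} {v : M → A} {μ : σ → ℝ × ℝ → A}

lemma glue_Y (hμ : Per (μ j)) (hp : 𝓔.w0 < p.1) : 𝓔.glue s v μ (𝓔.Y j p) =
    ((1 - st (s + 5) p.1 : ℝ) : A) * v (𝓔.Y j p) + (st (s + 3) p.1 : ℝ) * μ j p := by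
  rw [glue, core_Y hp, sum_of_mem (Y_mem j hp) fun j' h => by rw [onEnd_of_notMem h, mul_zero],
    cut_Y hp, onEnd_Y hμ hp]

lemma glue_below (hx : x ∈ 𝓔.below (s + 3)) : 𝓔.glue s v μ x = v x := by
  simp [glue, core_below (below_mono (by linarith : s + 3 ≤ s + 5) hx), cut_below hx]

end

end Ends

end Vale.Agent.P218CO
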