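import Vale.Agent.P218CO.Holo

/-! # A uniform holomorphic implicit function theorem

`Near G T ρ` says that `x ↦ x - T⁻¹ (G x)` is a contraction with constant `1 / 2` on the ball of
radius `ρ`. All holomorphic maps uniformly close to a fixed map `F` with `F 0 = 0` and invertible
derivative `T` at `0` have this property, for one radius `ρ`. -/

open Set Filter Metric Topology Asymptotics

noncomputable section

set_option linter.unusedSectionVars false

namespace Vale.Agent.P218CO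

variable {P X Y : Type*} [NormedAddCommGroup P] [NormedSpace ℂ P]
  [NormedAddCommGroup X] [NormedSpace ℂ X] [NormedAddCommGroup Y] [NormedSpace ℂ Y]

/-- `G` is close to the invertible linear map `T` on the ball of radius `ρ`. -/
def Near (G : X → Y) (T : X ≃L[ℂ] Y) (ρ : ℝ) : Prop :=
  ∀ x ∈ ball (0 : X) ρ, ∀ y ∈ ball (0 : X) ρ,
    ‖T.symm (G x - G y) - (x - y)‖ ≤ 1 / 2 * ‖x - y‖

lemma Near.mono {G : X → Y} {T : X ≃L[ℂ] Y} {ρ ρ' : ℝ} (h : Near G T ρ) (hρ : ρ' ≤ ρ) :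
    Near G T ρ' := fun x hx y hy => h x (ball_subset_ball hρ hx) y (ball_subset_ball hρ hy)

lemma Near.sub_le {G : X → Y} {T : X ≃L[ℂ] Y} {ρ : ℝ} (h : Near G T ρ) {x y : X}
    (hx : x ∈ ball (0 : X) ρ) (hy : y ∈ ball (0 : X) ρ) :
    ‖x - y‖ ≤ 2 * ‖T.symm (G x - G y)‖ := by
  have h1 := h x hx y hy
  have h2 : ‖x - y‖ ≤ ‖T.symm (G x - G y)‖ + ‖T.symm (G x - G y) - (x - y)‖ := by
    calc ‖x - y‖ = ‖T.symm (G x - G y) - (T.symm (G x - G y) - (x - y))‖ := by congr 1; abel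
      _ ≤ _ := norm_sub_le _ _
  linarith

lemma Near.injOn {G : X → Y} {T : X ≃L[ℂ] Y} {ρ : ℝ} (h : Near G T ρ) :
    InjOn G (ball 0 ρ) := by
  intro x hx y hy hxy
  have := h.sub_le hx hy
  rw [hxy, sub_self, map_zero, norm_zero, mul_zero] at this
  exact sub_eq_zero.1 (norm_le_zero_iff.1 this)

/-- Comparison of zeros of two maps. -/
lemma Near.zero_sub_le {G G' : X → Y} {T : X ≃L[ℂ] Y} {ρ : ℝ} (h : Near G T ρ) {x y : X}
    (hx : x ∈ ball (0 : X) ρ) (hy : y ∈ ball (0 : X) ρ) (hGx : G x = 0) (hGy : G' y = 0) :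
    ‖x - y‖ ≤ 2 * ‖(T.symm : Y →L[ℂ] X)‖ * ‖G y - G' y‖ := by
  have h1 := h.sub_le hx hy
  rw [hGx, zero_sub, map_neg, norm_neg] at h1
  rw [hGy, sub_zero, mul_assoc]
  refine h1.trans ?_
  gcongr
  exact (T.symm : Y →L[ℂ] X).le_opNorm _

lemma Near.norm_zero_le {G : X → Y} {T : X ≃L[ℂ] Y} {ρ : ℝ} (h : Near G T ρ) {x : X}
    (hx : x ∈ ball (0 : X) ρ) (hGx : G x = 0) : ‖x‖ ≤ 2 * ‖T.symm (G 0)‖ := by
  have hρ : 0 < ρ := nonempty_ball.1 ⟨x, hx⟩
  have h1 := h.sub_le hx (mem_ball_self hρ)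
  rwa [hGx, zero_sub, map_neg, norm_neg, sub_zero] at h1

/-- Existence of a zero, in any closed set containing `0` which is invariant under the
iteration. -/
lemma Near.exists_zero [CompleteSpace X] {G : X → Y} {T : X ≃L[ℂ] Y} {ρ : ℝ} (h : Near G T ρ)
    (h0 : 2 * ‖T.symm (G 0)‖ < ρ) {S : Set X} (hS : IsClosed S) (hS0 : (0 : X) ∈ S)
    (hinv : ∀ x ∈ S, x ∈ ball (0 : X) ρ → x - T.symm (G x) ∈ S) :
    ∃ x ∈ S, x ∈ ball (0 : X) ρ ∧ G x = 0 := by
  set r := 2 * ‖T.symm (G 0)‖ with hr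
  have hr0 : 0 ≤ r := by positivity
  have hρ : 0 < ρ := hr0.trans_lt h0
  have hsub : closedBall (0 : X) r ⊆ ball 0 ρ := closedBall_subset_ball h0
  set Φ : X → X := fun x => x - T.symm (G x) with hΦ
  have hlip : ∀ x ∈ ball (0 : X) ρ, ∀ y ∈ ball (0 : X) ρ, ‖Φ x - Φ y‖ ≤ 1 / 2 * ‖x - y‖ := by
    intro x hx y hy
    have := h x hx y hy
    rw [← norm_neg] at this
    refine le_of_eq_of_le ?_ this
    congr 1
    simp only [hΦ, map_sub]
    abel
  have hc : IsComplete (S ∩ closedBall (0 : X) r) := (hS.inter isClosed_closedBall).isComplete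
  have hmt : MapsTo Φ (S ∩ closedBall (0 : X) r) (S ∩ closedBall (0 : X) r) := by
    intro x hx
    refine ⟨hinv x hx.1 (hsub hx.2), ?_⟩
    have h1 := hlip x (hsub hx.2) 0 (mem_ball_self hρ)
    have h2 : ‖x‖ ≤ r := mem_closedBall_zero_iff.1 hx.2
    have h3 : ‖Φ 0‖ = r / 2 := by simp [hΦ, hr]
    rw [sub_zero] at h1
    rw [mem_closedBall_zero_iff]
    calc ‖Φ x‖ = ‖(Φ x - Φ 0) + Φ 0‖ := by rw [sub_add_cancel]
      _ ≤ ‖Φ x - Φ 0‖ + ‖Φ 0‖ := norm_add_le _ _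
      _ ≤ r := by linarith
  have hcon : ContractingWith (1 / 2) (hmt.restrict Φ _ _) := by
    refine ⟨by norm_num, LipschitzWith.of_dist_le_mul fun x y => ?_⟩
    have := hlip x (hsub x.2.2) y (hsub y.2.2)
    rw [← dist_eq_norm, ← dist_eq_norm] at this
    have h2 : ((1 / 2 : NNReal) : ℝ) = 1 / 2 := by simp
    rw [h2]
    exact this
  obtain ⟨y, hy, hfix, -⟩ := ContractingWith.exists_fixedPoint' hc hmt hcon
    (x := 0) ⟨hS0, mem_closedBall_self hr0⟩ (edist_ne_top _ _)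
  refine ⟨y, hy.1, hsub hy.2, ?_⟩
  have h1 : y - T.symm (G y) = y := hfix
  have h2 : T.symm (G y) = 0 := by simpa using h1
  simpa using h2

/-- A family of zeros is holomorphic. -/
theorem differentiableAt_zero [CompleteSpace X] {G : P × X → Y} {T : X ≃L[ℂ] Y} {ρ : ℝ}
    {z : P → X} {p₀ : P} (hG : DifferentiableAt ℂ G (p₀, z p₀))
    (hz : ∀ᶠ p in 𝓝 p₀, z p ∈ ball (0 : X) ρ ∧ G (p, z p) = 0 ∧ Near (fun x => G (p, x)) T ρ) :
    DifferentiableAt ℂ z p₀ := by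
  refine P218IN.differentiableAt_fixed (T := fun q : P × X => q.2 - T.symm (G q)) (q := 1 / 2)
    (by norm_num) (by norm_num) (s := ball 0 ρ) (isOpen_ball.mem_nhds hz.self_of_nhds.1) ?_ ?_ ?_
  · exact differentiableAt_snd.sub ((T.symm : Y →L[ℂ] X).differentiableAt.comp _ hG)
  · filter_upwards [hz] with p hp
    exact ⟨hp.1, by simp [hp.2.1]⟩
  · filter_upwards [hz] with p hp x hx y hy
    have := hp.2.2 x hx y hy
    rw [← norm_neg] at this
    refine le_of_eq_of_le ?_ this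
    congr 1
    simp only [map_sub]
    abel

/-- Maps close to `F` are close to its derivative at `0`. -/
theorem exists_near {F : X → Y} {T : X ≃L[ℂ] Y} {R M : ℝ} (hR : 0 < R)
    (hF : DifferentiableOn ℂ F (ball 0 R)) (hM : ∀ x ∈ ball (0 : X) R, ‖F x‖ ≤ M)
    (hT : fderiv ℂ F 0 = T) :
    ∃ ρ > 0, ρ ≤ R / 4 ∧ ∃ ε > 0, ∀ G : X → Y, DifferentiableOn ℂ G (ball 0 R) →
      (∀ x ∈ ball (0 : X) R, ‖G x - F x‖ ≤ ε) → Near G T ρ := by
  have hM0 : 0 ≤ M := (norm_nonneg _).trans (hM 0 (mem_ball_self hR))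
  set A := ‖(T.symm : Y →L[ℂ] X)‖ + 1 with hA
  have hA0 : 0 < A := by positivity
  set K := 8 * M / R ^ 2 + 1 with hK
  have hK0 : 0 < K := by positivity
  refine ⟨min (R / 4) (1 / (4 * A * K)), by positivity, min_le_left _ _, R / (8 * A),
    by positivity, fun G hG hGF x hx y hy => ?_⟩
  set ρ := min (R / 4) (1 / (4 * A * K))
  have hρR : ball (0 : X) ρ ⊆ ball 0 R := ball_subset_ball ((min_le_left _ _).trans (by linarith))
  have hder : ∀ u ∈ ball (0 : X) ρ, ‖fderiv ℂ G u - (T : X →L[ℂ] Y)‖ ≤ 1 / (2 * A) := by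
    intro u hu
    have hu4 : u ∈ ball (0 : X) (R / 4) := ball_subset_ball (min_le_left _ _) hu
    have h1 := fderiv_sub_le hF hM hu4
    rw [hT, sub_zero] at h1
    have h2 : ‖fderiv ℂ (fun x => G x - F x) u‖ ≤ R / (8 * A) / (R / 2) :=
      fderiv_le_inner (by positivity) (hG.sub hF) hGF (ball_subset_ball (by linarith) hu4)
    have hGu := hG.differentiableAt (isOpen_ball.mem_nhds (hρR hu))
    have hFu := hF.differentiableAt (isOpen_ball.mem_nhds (hρR hu))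
    rw [fderiv_fun_sub hGu hFu] at h2
    have h3 : R / (8 * A) / (R / 2) = 1 / (4 * A) := by field_simp; norm_num
    have h4 : ‖u‖ ≤ 1 / (4 * A * K) := (mem_ball_zero_iff.1 hu).le.trans (min_le_right _ _)
    have h5 : 8 * M / R ^ 2 * ‖u‖ ≤ 1 / (4 * A) := by
      calc 8 * M / R ^ 2 * ‖u‖ ≤ K * (1 / (4 * A * K)) := by gcongr; linarith
        _ = 1 / (4 * A) := by field_simp
    calc ‖fderiv ℂ G u - (T : X →L[ℂ] Y)‖
        = ‖(fderiv ℂ G u - fderiv ℂ F u) + (fderiv ℂ F u - (T : X →L[ℂ] Y))‖ := by congr 1; abel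
      _ ≤ _ := norm_add_le _ _
      _ ≤ 1 / (4 * A) + 1 / (4 * A) := by linarith
      _ = 1 / (2 * A) := by field_simp; norm_num
  have hmv := (convex_ball (0 : X) ρ).norm_image_sub_le_of_norm_fderiv_le (𝕜 := ℂ)
    (f := fun u => G u - T u) (C := 1 / (2 * A))
    (fun u hu => (hG.differentiableAt (isOpen_ball.mem_nhds (hρR hu))).sub
      (T : X →L[ℂ] Y).differentiableAt)
    (fun u hu => by
      have hGu := hG.differentiableAt (isOpen_ball.mem_nhds (hρR hu))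
      have : fderiv ℂ (fun u => G u - T u) u = fderiv ℂ G u - (T : X →L[ℂ] Y) :=
        (hGu.hasFDerivAt.sub (T : X →L[ℂ] Y).hasFDerivAt).fderiv
      rw [this]
      exact hder u hu) hy hx
  have h6 : T.symm (G x - G y) - (x - y) = T.symm (G x - T x - (G y - T y)) := by
    simp only [map_sub, ContinuousLinearEquiv.symm_apply_apply]
    abel
  rw [h6]
  refine ((T.symm : Y →L[ℂ] X).le_opNorm _).trans ?_
  calc ‖(T.symm : Y →L[ℂ] X)‖ * ‖G x - T x - (G y - T y)‖ ≤ A * (1 / (2 * A) * ‖x - y‖) := by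
        gcongr
        linarith
    _ = 1 / 2 * ‖x - y‖ := by field_simp

/-- **Uniform holomorphic implicit function theorem.** There are `ρ, ε > 0` such that every
holomorphic family of maps which are `ε`-close to `F` has a holomorphic family of zeros, unique in
the ball of radius `ρ`, lying in every closed invariant set. -/
theorem uniform_ift [CompleteSpace X] {F : X → Y} {T : X ≃L[ℂ] Y} {R M : ℝ} (hR : 0 < R)
    (hF : DifferentiableOn ℂ F (ball 0 R)) (hM : ∀ x ∈ ball (0 : X) R, ‖F x‖ ≤ M)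
    (hT : fderiv ℂ F 0 = T) (hF0 : F 0 = 0) :
    ∃ ρ > 0, ρ ≤ R / 4 ∧ ∃ ε > 0, ∀ G : X → Y, DifferentiableOn ℂ G (ball 0 R) →
      (∀ x ∈ ball (0 : X) R, ‖G x - F x‖ ≤ ε) → Near G T ρ ∧ 2 * ‖T.symm (G 0)‖ < ρ := by
  obtain ⟨ρ, hρ, hρR, ε, hε, h⟩ := exists_near hR hF hM hT
  set A := ‖(T.symm : Y →L[ℂ] X)‖ + 1 with hA
  have hA0 : 0 < A := by positivity
  refine ⟨ρ, hρ, hρR, min ε (ρ / (4 * A)), by positivity, fun G hG hGF =>
    ⟨h G hG fun x hx => (hGF x hx).trans (min_le_left _ _), ?_⟩⟩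
  have h1 := (hGF 0 (mem_ball_self hR)).trans (min_le_right _ _)
  rw [hF0, sub_zero] at h1
  have h2 : ‖T.symm (G 0)‖ ≤ A * (ρ / (4 * A)) :=
    ((T.symm : Y →L[ℂ] X).le_opNorm _).trans (by gcongr; linarith)
  have h3 : A * (ρ / (4 * A)) = ρ / 4 := by field_simp
  linarith

/-- The zero selected in the ball. -/
def zeroOf (G : X → Y) (ρ : ℝ) : X := by
  classical
  exact if h : ∃ x ∈ ball (0 : X) ρ, G x = 0 then h.choose else 0

lemma Near.zeroOf_spec [CompleteSpace X] {G : X → Y} {T : X ≃L[ℂ] Y} {ρ : ℝ} (h : Near G T ρ)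
    (h0 : 2 * ‖T.symm (G 0)‖ < ρ) : zeroOf G ρ ∈ ball (0 : X) ρ ∧ G (zeroOf G ρ) = 0 := by
  obtain ⟨x, -, hx⟩ := h.exists_zero h0 isClosed_univ (mem_univ _) fun _ _ _ => mem_univ _
  have hex : ∃ x ∈ ball (0 : X) ρ, G x = 0 := ⟨x, hx⟩
  unfold zeroOf
  rw [dif_pos hex]
  exact hex.choose_spec

lemma Near.eq_zeroOf [CompleteSpace X] {G : X → Y} {T : X ≃L[ℂ] Y} {ρ : ℝ} (h : Near G T ρ)
    (h0 : 2 * ‖T.symm (G 0)‖ < ρ) {x : X} (hx : x ∈ ball (0 : X) ρ) (hG : G x = 0) :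
    x = zeroOf G ρ :=
  h.injOn hx (h.zeroOf_spec h0).1 (hG.trans (h.zeroOf_spec h0).2.symm)

lemma Near.zeroOf_mem [CompleteSpace X] {G : X → Y} {T : X ≃L[ℂ] Y} {ρ : ℝ} (h : Near G T ρ)
    (h0 : 2 * ‖T.symm (G 0)‖ < ρ) {S : Set X} (hS : IsClosed S) (hS0 : (0 : X) ∈ S)
    (hinv : ∀ x ∈ S, x ∈ ball (0 : X) ρ → x - T.symm (G x) ∈ S) : zeroOf G ρ ∈ S := by
  obtain ⟨x, hxS, hx, hG⟩ := h.exists_zero h0 hS hS0 hinv
  rwa [← h.eq_zeroOf h0 hx hG]

/-- The selected zeros of a holomorphic family are holomorphic in the parameter. -/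
theorem differentiableOn_zeroOf [CompleteSpace X] {G : P × X → Y} {T : X ≃L[ℂ] Y} {ρ : ℝ}
    {Ω : Set P} (hΩ : IsOpen Ω) (hG : DifferentiableOn ℂ G (Ω ×ˢ ball 0 ρ))
    (h : ∀ p ∈ Ω, Near (fun x => G (p, x)) T ρ ∧ 2 * ‖T.symm (G (p, 0))‖ < ρ) :
    DifferentiableOn ℂ (fun p => zeroOf (fun x => G (p, x)) ρ) Ω := by
  intro p hp
  apply DifferentiableAt.differentiableWithinAt
  refine differentiableAt_zero (G := G) (T := T) (ρ := ρ) ?_ ?_
  · exact hG.differentiableAt ((hΩ.prod isOpen_ball).mem_nhds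
      ⟨hp, ((h p hp).1.zeroOf_spec (h p hp).2).1⟩)
  · filter_upwards [hΩ.mem_nhds hp] with q hq
    have := (h q hq).1.zeroOf_spec (h q hq).2
    exact ⟨this.1, this.2, (h q hq).1⟩

end Vale.Agent.P218CO
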