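import Vale.Agent.P218CO.Nem
import Vale.Agent.P272.K.LIN.Cov

/-! # Composition operators on a closed manifold

A function of a point of the manifold and a small complex variable which is jointly `C^1` and
holomorphic in the complex variable defines a holomorphic composition operator. -/

open Set Filter Metric Topology
open scoped NNReal ContDiff

noncomputable section

set_option linter.unusedSectionVars false
set_option linter.unusedVariables false

namespace Vale.Agent.P218CO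

open Vale.Agent.P272.K.LIN

variable {E : Type*} [NormedAddCommGroup E] [NormedSpace ℝ E]
  {V W W' : Type*} [NormedAddCommGroup V] [NormedSpace ℂ V] [NormedAddCommGroup W] [NormedSpace ℂ W]
  [NormedAddCommGroup W'] [NormedSpace ℂ W']

/-- Jointly `C^1` near `p`, holomorphic in the second variable near `p`. -/
structure Mix (g : E × V → W) (p : E × V) : Prop where
  cd : ContDiffAt ℝ 1 g p
  hol : ∀ᶠ q in 𝓝 p, DifferentiableAt ℂ (fun ξ => g (q.1, ξ)) q.2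

namespace Mix

variable {g : E × V → W} {g' : E × V → W'} {p : E × V}

lemma comp (hg : Mix g p) {Θ : W → W'} (hΘ : ContDiffAt ℂ 1 Θ (g p)) : Mix (fun q => Θ (g q)) p := by
  refine ⟨(hΘ.restrict_scalars ℝ).comp p hg.cd, ?_⟩
  have h1 : ∀ᶠ z in 𝓝 (g p), DifferentiableAt ℂ Θ z := by
    filter_upwards [hΘ.eventually (by simp)] with z hz using hz.differentiableAt (by simp)
  filter_upwards [hg.hol, hg.cd.continuousAt.eventually h1] with q hq hq2
  exact DifferentiableAt.comp (g := Θ) q.2 hq2 hq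

lemma prodMk (hg : Mix g p) (hg' : Mix g' p) : Mix (fun q => (g q, g' q)) p :=
  ⟨hg.cd.prodMk hg'.cd, by
    filter_upwards [hg.hol, hg'.hol] with q h1 h2 using h1.prodMk h2⟩

lemma snd : Mix (fun q : E × V => q.2) p :=
  ⟨contDiffAt_snd, Eventually.of_forall fun q => differentiableAt_id⟩

lemma fst {c : E → W} (hc : ContDiffAt ℝ 1 c p.1) : Mix (fun q : E × V => c q.1) p :=
  ⟨hc.comp p contDiffAt_fst, Eventually.of_forall fun q => differentiableAt_const (c q.1)⟩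

lemma const (c : W) : Mix (fun _ : E × V => c) p := fst (c := fun _ => c) contDiffAt_const

lemma clm (L : V →L[ℂ] W) : Mix (fun q : E × V => L q.2) p := snd.comp L.contDiff.contDiffAt

lemma add {g₁ g₂ : E × V → W} (h1 : Mix g₁ p) (h2 : Mix g₂ p) : Mix (fun q => g₁ q + g₂ q) p :=
  (h1.prodMk h2).comp (Θ := fun z : W × W => z.1 + z.2) (by fun_prop)

lemma sub {g₁ g₂ : E × V → W} (h1 : Mix g₁ p) (h2 : Mix g₂ p) : Mix (fun q => g₁ q - g₂ q) p :=
  (h1.prodMk h2).comp (Θ := fun z : W × W => z.1 - z.2) (by fun_prop)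

lemma smul {f : E × V → ℂ} (hf : Mix f p) (hg : Mix g p) : Mix (fun q => f q • g q) p :=
  (hf.prodMk hg).comp (Θ := fun z : ℂ × W => z.1 • z.2) (by fun_prop)

lemma mul {f₁ f₂ : E × V → ℂ} (h1 : Mix f₁ p) (h2 : Mix f₂ p) : Mix (fun q => f₁ q * f₂ q) p :=
  h1.smul h2

lemma sum {ι : Type*} {s : Finset ι} {f : ι → E × V → W} (h : ∀ i ∈ s, Mix (f i) p) :
    Mix (fun q => ∑ i ∈ s, f i q) p := by
  classical
  induction s using Finset.induction_on with
  | empty => simpa using const (0 : W)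
  | insert a s ha ih =>
    simp only [Finset.sum_insert ha]
    exact (h a (Finset.mem_insert_self a s)).add
      (ih fun i hi => h i (Finset.mem_insert_of_mem hi))

lemma pi {ι : Type*} [Fintype ι] {f : ι → E × V → W} (h : ∀ i, Mix (f i) p) :
    Mix (fun q i => f i q) p :=
  ⟨contDiffAt_pi.2 fun i => (h i).cd, by
    filter_upwards [eventually_all.2 fun i => (h i).hol] with q hq
    exact differentiableAt_pi.2 hq⟩

lemma app {c : E × V → W →L[ℂ] W'} (hc : Mix c p) (hg : Mix g p) : Mix (fun q => c q (g q)) p :=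
  (hc.prodMk hg).comp (Θ := fun z : (W →L[ℂ] W') × W => z.1 z.2) (by fun_prop)

lemma congr {g₁ : E × V → W} (hg : Mix g p) (h : g₁ =ᶠ[𝓝 p] g) : Mix g₁ p := by
  refine ⟨hg.cd.congr_of_eventuallyEq h, ?_⟩
  filter_upwards [hg.hol, h.eventuallyEq_nhds] with q hq hq2
  refine hq.congr_of_eventuallyEq ?_
  have : Tendsto (fun ξ : V => (q.1, ξ)) (𝓝 q.2) (𝓝 q) :=
    (by fun_prop : Continuous fun ξ : V => (q.1, ξ)).tendsto q.2
  exact this.eventually hq2

/-- change of the real variable -/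
lemma comp_fst {E' : Type*} [NormedAddCommGroup E'] [NormedSpace ℝ E'] {φ : E' → E} {y : E'}
    {ξ : V} (hφ : ContDiffAt ℝ 1 φ y) (hg : Mix g (φ y, ξ)) :
    Mix (fun q : E' × V => g (φ q.1, q.2)) (y, ξ) := by
  have h1 : ContDiffAt ℝ 1 (fun q : E' × V => (φ q.1, q.2)) (y, ξ) :=
    (hφ.comp (y, ξ) contDiffAt_fst).prodMk contDiffAt_snd
  refine ⟨ContDiffAt.comp (y, ξ) (g := g) hg.cd h1, ?_⟩
  exact h1.continuousAt.eventually hg.hol

/-- change of the complex variable -/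
lemma comp_snd {V' : Type*} [NormedAddCommGroup V'] [NormedSpace ℂ V'] {c : E × V' → V}
    {p' : E × V'} (hc : Mix c p') (hg : Mix g (p'.1, c p')) :
    Mix (fun q : E × V' => g (q.1, c q)) p' := by
  have h1 : ContDiffAt ℝ 1 (fun q : E × V' => (q.1, c q)) p' := contDiffAt_fst.prodMk hc.cd
  refine ⟨ContDiffAt.comp p' (g := g) hg.cd h1, ?_⟩
  filter_upwards [hc.hol, h1.continuousAt.eventually hg.hol] with q hq hq2
  exact DifferentiableAt.comp (g := fun ξ => g (q.1, ξ)) q.2 hq2 hq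

/-- Uniform bounds over a compact set. -/
lemma unif {K : Set E} (hK : IsCompact K) (hg : ∀ y ∈ K, Mix g (y, 0)) :
    ∃ C R, 0 ≤ C ∧ 0 < R ∧ ∀ y ∈ K, ∀ ξ ∈ ball (0 : V) R, DifferentiableAt ℝ g (y, ξ) ∧
      ‖g (y, ξ)‖ ≤ C ∧ ‖fderiv ℝ g (y, ξ)‖ ≤ C ∧ DifferentiableAt ℂ (fun ξ => g (y, ξ)) ξ := by
  refine hK.induction_on (p := fun S => ∃ C R, 0 ≤ C ∧ 0 < R ∧ ∀ y ∈ S, ∀ ξ ∈ ball (0 : V) R,
    DifferentiableAt ℝ g (y, ξ) ∧ ‖g (y, ξ)‖ ≤ C ∧ ‖fderiv ℝ g (y, ξ)‖ ≤ C ∧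
      DifferentiableAt ℂ (fun ξ => g (y, ξ)) ξ) ⟨0, 1, le_rfl, one_pos, by simp⟩ ?_ ?_ ?_
  · rintro s t hst ⟨C, R, hC, hR, h⟩
    exact ⟨C, R, hC, hR, fun y hy => h y (hst hy)⟩
  · rintro s t ⟨C, R, hC, hR, h⟩ ⟨C', R', hC', hR', h'⟩
    refine ⟨max C C', min R R', by positivity, by positivity, ?_⟩
    rintro y (hy | hy) ξ hξ
    · obtain ⟨a, b, c, d⟩ := h y hy ξ (ball_subset_ball (min_le_left _ _) hξ)
      exact ⟨a, b.trans (le_max_left _ _), c.trans (le_max_left _ _), d⟩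
    · obtain ⟨a, b, c, d⟩ := h' y hy ξ (ball_subset_ball (min_le_right _ _) hξ)
      exact ⟨a, b.trans (le_max_right _ _), c.trans (le_max_right _ _), d⟩
  · intro y hy
    have h := hg y hy
    set C := ‖g (y, 0)‖ + ‖fderiv ℝ g (y, 0)‖ + 1
    have h1 : ∀ᶠ q in 𝓝 ((y, 0) : E × V), DifferentiableAt ℝ g q := by
      filter_upwards [h.cd.eventually (by simp)] with q hq using hq.differentiableAt (by simp)
    have h2 : ∀ᶠ q in 𝓝 ((y, 0) : E × V), ‖g q‖ ≤ C :=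
      h.cd.continuousAt.norm.eventually (ge_mem_nhds (by
        have := norm_nonneg (fderiv ℝ g (y, 0))
        show ‖g (y, 0)‖ < _
        linarith))
    have h3 : ∀ᶠ q in 𝓝 ((y, 0) : E × V), ‖fderiv ℝ g q‖ ≤ C :=
      (h.cd.fderiv_right (m := 0) (by simp)).continuousAt.norm.eventually (ge_mem_nhds (by
        have := norm_nonneg (g (y, 0))
        show ‖fderiv ℝ g (y, 0)‖ < _
        linarith))
    have h4 := h1.and (h2.and (h3.and h.hol))
    rw [nhds_prod_eq] at h4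
    obtain ⟨s, hs, t, ht, hst⟩ := mem_prod_iff.1 h4
    obtain ⟨R, hR, hRt⟩ := Metric.mem_nhds_iff.1 ht
    refine ⟨s, mem_nhdsWithin_of_mem_nhds hs, C, R, by positivity, hR, fun z hz ξ hξ => ?_⟩
    exact hst (mk_mem_prod hz (hRt hξ))

end Mix

variable {X : Type*} [TopologicalSpace X] [ChartedSpace E X]

variable (E) in
/-- `Ψ` is jointly `C^1` and holomorphic in the fibre variable near `(x, 0)`. -/
def LocHolAt (Ψ : X → V → W) (x : X) : Prop :=
  ∀ e ∈ atlas E X, x ∈ e.source → Mix (fun q : E × V => Ψ (e.symm q.1) q.2) (e x, 0)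

lemma tendsto_symm {e : OpenPartialHomeomorph X E} {x : X} (hx : x ∈ e.source) :
    Tendsto e.symm (𝓝 (e x)) (𝓝 x) := by
  have := e.symm.continuousAt (x := e x) (e.map_source hx)
  unfold ContinuousAt at this
  rwa [e.left_inv hx] at this

lemma locHolAt_of_chart [RSm E X] {Ψ : X → V → W} {x : X} {e : OpenPartialHomeomorph X E}
    (he : e ∈ atlas E X) (hx : x ∈ e.source)
    (h : Mix (fun q : E × V => Ψ (e.symm q.1) q.2) (e x, 0)) : LocHolAt E Ψ x := by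
  intro e' he' hx'
  have h1 : ContDiffAt ℝ 1 (fun y => e (e'.symm y)) (e' x) :=
    (RSm.trans e' he' e he x hx' hx).of_le (by exact_mod_cast le_top)
  have h2 := Mix.comp_fst (ξ := (0 : V)) (g := fun q : E × V => Ψ (e.symm q.1) q.2) h1
    (by rwa [e'.left_inv hx'])
  refine h2.congr ?_
  have h3 : Tendsto (fun q : E × V => q.1) (𝓝 (e' x, 0)) (𝓝 (e' x)) := continuous_fst.tendsto _
  filter_upwards [h3.eventually (symm_trans_eq hx hx')] with q hq
  rw [e.left_inv hq.1]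

lemma LocHolAt.congr {Ψ Ψ' : X → V → W} {x : X} (h : LocHolAt E Ψ x)
    (h' : ∀ᶠ y in 𝓝 x, ∀ ξ, Ψ' y ξ = Ψ y ξ) : LocHolAt E Ψ' x := by
  intro e he hx
  refine (h e he hx).congr ?_
  have h3 : Tendsto (fun q : E × V => e.symm q.1) (𝓝 (e x, 0)) (𝓝 x) :=
    (tendsto_symm hx).comp (continuous_fst.tendsto _)
  filter_upwards [h3.eventually h'] with q hq using hq q.2

lemma locHolAt_ck {c : X → W} (hc : CkFn E 1 c) (x : X) : LocHolAt E (fun y (_ : V) => c y) x :=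
  fun e he hx => Mix.fst (c := fun y => c (e.symm y)) (hc e he x hx)

lemma locHolAt_zero {Ψ : X → V → W} {x : X} (h : ∀ᶠ y in 𝓝 x, ∀ ξ, Ψ y ξ = 0) :
    LocHolAt E Ψ x := (locHolAt_ck (ckFn_const (0 : W)) x).congr h

lemma locHolAt_clm (L : V →L[ℂ] W) (x : X) : LocHolAt E (fun (_ : X) ξ => L ξ) x :=
  fun e he hx => Mix.clm L

lemma LocHolAt.add {Ψ Ψ' : X → V → W} {x : X} (h : LocHolAt E Ψ x) (h' : LocHolAt E Ψ' x) :
    LocHolAt E (fun y ξ => Ψ y ξ + Ψ' y ξ) x := fun e he hx => (h e he hx).add (h' e he hx)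

lemma LocHolAt.sub {Ψ Ψ' : X → V → W} {x : X} (h : LocHolAt E Ψ x) (h' : LocHolAt E Ψ' x) :
    LocHolAt E (fun y ξ => Ψ y ξ - Ψ' y ξ) x := fun e he hx => (h e he hx).sub (h' e he hx)

lemma LocHolAt.smul {f : X → V → ℂ} {Ψ : X → V → W} {x : X} (h : LocHolAt E f x)
    (h' : LocHolAt E Ψ x) : LocHolAt E (fun y ξ => f y ξ • Ψ y ξ) x :=
  fun e he hx => (h e he hx).smul (h' e he hx)

lemma LocHolAt.mul {f g : X → V → ℂ} {x : X} (h : LocHolAt E f x) (h' : LocHolAt E g x) :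
    LocHolAt E (fun y ξ => f y ξ * g y ξ) x := h.smul h'

lemma LocHolAt.sum {ι : Type*} {s : Finset ι} {Ψ : ι → X → V → W} {x : X}
    (h : ∀ i ∈ s, LocHolAt E (Ψ i) x) : LocHolAt E (fun y ξ => ∑ i ∈ s, Ψ i y ξ) x :=
  fun e he hx => Mix.sum (f := fun i (q : E × V) => Ψ i (e.symm q.1) q.2)
    fun i hi => h i hi e he hx

lemma LocHolAt.app {c : X → V → W →L[ℂ] W'} {Ψ : X → V → W} {x : X} (h : LocHolAt E c x)
    (h' : LocHolAt E Ψ x) : LocHolAt E (fun y ξ => c y ξ (Ψ y ξ)) x :=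
  fun e he hx => (h e he hx).app (h' e he hx)

lemma LocHolAt.prodMk {Ψ : X → V → W} {Ψ' : X → V → W'} {x : X} (h : LocHolAt E Ψ x)
    (h' : LocHolAt E Ψ' x) : LocHolAt E (fun y ξ => (Ψ y ξ, Ψ' y ξ)) x :=
  fun e he hx => (h e he hx).prodMk (h' e he hx)

lemma LocHolAt.comp {Ψ : X → V → W} {x : X} (h : LocHolAt E Ψ x) {Θ : W → W'}
    (hΘ : ContDiffAt ℂ 1 Θ (Ψ x 0)) : LocHolAt E (fun y ξ => Θ (Ψ y ξ)) x :=
  fun e he hx => (h e he hx).comp (by simpa [e.left_inv hx] using hΘ)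

/-- **From local to uniform hypotheses.** -/
theorem exists_nemOK [FiniteDimensional ℝ E] (𝒞 : Cov E X) {α : ℝ} (h0 : 0 < α) (h1 : α ≤ 1)
    {Ψ : X → V → W} (h : ∀ x, LocHolAt E Ψ x) : ∃ R M, NemOK (𝒞.w α) Ψ R M := by
  have hsub : ∀ i, closedBall (𝒞.c i) (2 * 𝒞.r i) ⊆ (𝒞.e i).target := fun i =>
    (closedBall_subset_closedBall (by have := 𝒞.r_pos i; linarith)).trans (𝒞.sub i)
  have hi : ∀ i, ∀ y ∈ closedBall (𝒞.c i) (2 * 𝒞.r i),
      Mix (fun q : E × V => Ψ ((𝒞.e i).symm q.1) q.2) (y, 0) := by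
    intro i y hy
    have := h _ _ (𝒞.mem i) ((𝒞.e i).map_target (hsub i hy))
    rwa [(𝒞.e i).right_inv (hsub i hy)] at this
  choose C R hC hR hCR using fun i => Mix.unif (isCompact_closedBall _ _) (hi i)
  obtain ⟨C₀, hC₀, hCC⟩ := Cov.exists_le_all C
  obtain ⟨R₀, hR₀, hRR⟩ := Cov.exists_pos_le R hR
  obtain ⟨L, hL0, hL⟩ := 𝒞.exists_lip_const (V := W)
  have hD : 0 ≤ 𝒞.D ^ (1 - α) := Real.rpow_nonneg 𝒞.D_nonneg _
  have key : ∀ x, ∀ ξ ∈ ball (0 : V) R₀, ‖Ψ x ξ‖ ≤ C₀ ∧ DifferentiableAt ℂ (Ψ x) ξ := by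
    intro x ξ hξ
    obtain ⟨i, hx, hxi⟩ := 𝒞.cover x
    have hr := 𝒞.r_pos i
    obtain ⟨-, a, -, b⟩ := hCR i _ (ball_subset_closedBall (ball_subset_ball (by linarith) hxi)) ξ
      (ball_subset_ball (hRR i) hξ)
    simp only [(𝒞.e i).left_inv hx] at a b
    exact ⟨a.trans (hCC i), b⟩
  refine ⟨R₀, C₀ + (C₀ + L * C₀) * 𝒞.D ^ (1 - α), hR₀, by positivity,
    fun x ξ hξ => (key x ξ hξ).2.differentiableWithinAt,
    fun x ξ hξ => (key x ξ hξ).1.trans (le_add_of_nonneg_right (by positivity)),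
    fun x y ξ hξ => ?_⟩
  have h2 := hL (fun x => Ψ x ξ) C₀ C₀ hC₀ hC₀ (fun x => (key x ξ hξ).1) (fun i y hy => by
    obtain ⟨a, -, b, -⟩ := hCR i _ (ball_subset_closedBall hy) ξ (ball_subset_ball (hRR i) hξ)
    have h3 := a.hasFDerivAt.comp y (hasFDerivAt_prodMk_left (𝕜 := ℝ) y ξ)
    refine ⟨h3.differentiableAt, ?_⟩
    have h4 : fderiv ℝ (fun y => Ψ ((𝒞.e i).symm y) ξ) y = _ := h3.fderiv
    rw [h4]
    refine (ContinuousLinearMap.opNorm_comp_le _ _).trans ?_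
    have h5 : ‖ContinuousLinearMap.inl ℝ E V‖ ≤ 1 := ContinuousLinearMap.norm_inl_le_one ℝ E V
    have h6 := b.trans (hCC i)
    exact (mul_le_mul h6 h5 (norm_nonneg _) hC₀).trans_eq (mul_one _)) x y
  have h7 := 𝒞.lip_le_w h0 h1 x y
  have h8 : (0 : ℝ) ≤ 𝒞.w α x y := NNReal.coe_nonneg _
  calc ‖Ψ x ξ - Ψ y ξ‖ ≤ (C₀ + L * C₀) * (𝒞.D ^ (1 - α) * 𝒞.w α x y) := h2.trans (by gcongr)
    _ ≤ _ := by nlinarith [mul_nonneg hC₀ h8]

end Vale.Agent.P218CO
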