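import Vale.Agent.P218CO.Holo
import Vale.Agent.P272.K.LIN.Hol

/-! # Holomorphic maps into Hölder spaces; composition operators -/

open Set Filter Metric Topology
open scoped NNReal

noncomputable section

set_option linter.unusedSectionVars false
set_option linter.unusedVariables false

namespace Vale.Agent.P218CO

open Vale.Agent.P272.K.LIN

variable {Y : Type*} {w : Y → Y → ℝ≥0}

section total
variable {V : Type*} [NormedAddCommGroup V]

variable (w) in
/-- The element of the Hölder space given by a function (zero if it is not Hölder). -/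
def toHol (f : Y → V) : Hol w V := by
  classical
  exact if h : (∃ A, ∀ x, ‖f x‖ ≤ A) ∧ ∃ B, ∀ x y, ‖f x - f y‖ ≤ B * w x y then ⟨f, h.1, h.2⟩
    else 0

lemma toHol_apply {f : Y → V} {A B : ℝ} (h0 : ∀ x, ‖f x‖ ≤ A)
    (h1 : ∀ x y, ‖f x - f y‖ ≤ B * w x y) (x : Y) : toHol w f x = f x := by
  unfold toHol
  rw [dif_pos ⟨⟨A, h0⟩, ⟨B, h1⟩⟩]

lemma norm_toHol_le {f : Y → V} {A B : ℝ} (hA : 0 ≤ A) (hB : 0 ≤ B) (h0 : ∀ x, ‖f x‖ ≤ A)
    (h1 : ∀ x y, ‖f x - f y‖ ≤ B * w x y) : ‖toHol w f‖ ≤ A + B :=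
  Hol.norm_le_of hA hB (fun x => by rw [toHol_apply h0 h1]; exact h0 x) fun x y => by
    rw [toHol_apply h0 h1, toHol_apply h0 h1]; exact h1 x y

@[simp] lemma toHol_coe (f : Hol w V) : toHol w f = f :=
  Hol.ext fun x => toHol_apply f.le_N0 f.le_N1 x

end total

section linear
variable {𝕜 : Type*} [NontriviallyNormedField 𝕜] {P V W : Type*}
  [NormedAddCommGroup P] [NormedSpace 𝕜 P] [NormedAddCommGroup V] [NormedSpace 𝕜 V]
  [NormedAddCommGroup W] [NormedSpace 𝕜 W]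

variable (w) in
/-- A bounded linear map into a Hölder space, from pointwise data. -/
def mkL (l : Y → P →L[𝕜] V) (A B : ℝ) (hA : 0 ≤ A) (hB : 0 ≤ B) (h0 : ∀ p x, ‖l x p‖ ≤ A * ‖p‖)
    (h1 : ∀ p x y, ‖l x p - l y p‖ ≤ B * ‖p‖ * w x y) : P →L[𝕜] Hol w V :=
  LinearMap.mkContinuous
    { toFun := fun p => ⟨fun x => l x p, ⟨_, h0 p⟩, ⟨_, h1 p⟩⟩
      map_add' := fun p q => by ext x; simp
      map_smul' := fun c p => by ext x; simp } (A + B) fun p => by
    rw [add_mul]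
    exact Hol.norm_le_of (by positivity) (by positivity) (h0 p) (h1 p)

@[simp] lemma mkL_apply (l : Y → P →L[𝕜] V) (A B : ℝ) (hA hB h0 h1) (p : P) (x : Y) :
    mkL w l A B hA hB h0 h1 p x = l x p := rfl

variable (𝕜) in
/-- Evaluation at a point. -/
def evalK (x : Y) : Hol w V →L[𝕜] V :=
  LinearMap.mkContinuous
    { toFun := fun f => f x
      map_add' := fun _ _ => rfl
      map_smul' := fun _ _ => rfl } 1 fun f => by
    show ‖f x‖ ≤ 1 * ‖f‖
    simpa using f.norm_apply_le x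

@[simp] lemma evalK_apply (x : Y) (f : Hol w V) : evalK 𝕜 x f = f x := rfl

lemma norm_evalK_le (x : Y) : ‖(evalK 𝕜 x : Hol w V →L[𝕜] V)‖ ≤ 1 :=
  LinearMap.mkContinuous_norm_le _ zero_le_one _

/-- Pointwise application of a Hölder family of linear maps. -/
def appK (c : Hol w (V →L[𝕜] W)) : Hol w V →L[𝕜] Hol w W :=
  mkL w (fun x => (c x).comp (evalK 𝕜 x)) ‖c‖ (2 * ‖c‖) (norm_nonneg _) (by positivity)
    (fun f x => ((c x).le_opNorm _).trans
      (mul_le_mul (c.norm_apply_le x) (f.norm_apply_le x) (norm_nonneg _) (norm_nonneg _)))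
    (fun f x y => by
      have h1 : c x (f x) - c y (f y) = c x (f x - f y) + (c x - c y) (f y) := by
        simp only [map_sub, sub_apply]; abel
      show ‖c x (f x) - c y (f y)‖ ≤ _
      rw [h1]
      have h2 : ‖c x (f x - f y)‖ ≤ ‖c‖ * (‖f‖ * w x y) := ((c x).le_opNorm _).trans
        (mul_le_mul (c.norm_apply_le x) (f.norm_sub_le' x y) (norm_nonneg _) (norm_nonneg _))
      have h3 : ‖(c x - c y) (f y)‖ ≤ (‖c‖ * w x y) * ‖f‖ := ((c x - c y).le_opNorm _).trans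
        (mul_le_mul (c.norm_sub_le' x y) (f.norm_apply_le y) (norm_nonneg _) (by positivity))
      refine (norm_add_le _ _).trans ?_
      nlinarith)

@[simp] lemma appK_apply (c : Hol w (V →L[𝕜] W)) (f : Hol w V) (x : Y) :
    appK c f x = c x (f x) := rfl

/-- Composition with a fixed linear map. -/
def mapK (T : V →L[𝕜] W) : Hol w V →L[𝕜] Hol w W := appK (Hol.const T)

@[simp] lemma mapK_apply (T : V →L[𝕜] W) (f : Hol w V) (x : Y) : mapK T f x = T (f x) := rfl

variable (𝕜 w) in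
/-- Constant functions. -/
def constK : V →L[𝕜] Hol w V :=
  mkL w (fun _ => ContinuousLinearMap.id 𝕜 V) 1 0 zero_le_one le_rfl (fun p x => by simp)
    fun p x y => by simp

@[simp] lemma constK_apply (c : V) (x : Y) : constK w 𝕜 c x = c := rfl

/-- The derivative of a map into a Hölder space is computed pointwise. -/
lemma hasFDerivAt_eval {T : P → Hol w V} {T' : P →L[𝕜] Hol w V} {p : P}
    (hT : HasFDerivAt T T' p) (x : Y) :
    HasFDerivAt (fun q => T q x) ((evalK 𝕜 x).comp T') p :=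
  (evalK 𝕜 x : Hol w V →L[𝕜] V).hasFDerivAt.comp p hT

lemma fderiv_eval {T : P → Hol w V} {p : P} (hT : DifferentiableAt 𝕜 T p) (h : P) (x : Y) :
    fderiv 𝕜 T p h x = fderiv 𝕜 (fun q => T q x) p h := by
  rw [(hasFDerivAt_eval hT.hasFDerivAt x).fderiv]
  rfl

end linear

section holo
variable {P V W : Type*} [NormedAddCommGroup P] [NormedSpace ℂ P]
  [NormedAddCommGroup V] [NormedSpace ℂ V] [NormedAddCommGroup W] [NormedSpace ℂ W]

/-- A bounded map into a Hölder space which is pointwise holomorphic is holomorphic. -/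
theorem differentiableOn_hol [CompleteSpace V] {T : P → Hol w V} {U : Set P} (hU : IsOpen U)
    {M : ℝ} (hM : ∀ p ∈ U, ‖T p‖ ≤ M) (hT : ∀ x, DifferentiableOn ℂ (fun p => T p x) U) :
    DifferentiableOn ℂ T U := by
  let φ : Y ⊕ Y × Y → Hol w V →L[ℂ] V := fun i => match i with
    | Sum.inl x => evalK ℂ x
    | Sum.inr q => (((w q.1 q.2 : ℝ) : ℂ)⁻¹) • (evalK ℂ q.1 - evalK ℂ q.2)
  have hφ2 : ∀ x y (g : Hol w V), ‖φ (Sum.inr (x, y)) g‖ = ((w x y : ℝ))⁻¹ * ‖g x - g y‖ := by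
    intro x y g
    show ‖(((w x y : ℝ) : ℂ)⁻¹) • (g x - g y)‖ = _
    rw [norm_smul, norm_inv, Complex.norm_real, Real.norm_of_nonneg (NNReal.coe_nonneg _)]
  refine differentiableOn_of_weak φ (C := 2) ?_ ?_ hU hM ?_
  · rintro (x | ⟨x, y⟩)
    · exact norm_evalK_le x
    · refine ContinuousLinearMap.opNorm_le_bound _ zero_le_one fun g => ?_
      rw [hφ2, one_mul]
      rcases (NNReal.coe_nonneg (w x y)).eq_or_lt with h | h
      · rw [← h]; simp
      · rw [inv_mul_le_iff₀ h, mul_comm]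
        exact g.norm_sub_le' x y
  · intro g A hA h
    rw [two_mul]
    refine Hol.norm_le_of hA hA (fun x => h (Sum.inl x)) fun x y => ?_
    rcases (NNReal.coe_nonneg (w x y)).eq_or_lt with h0 | h0
    · have := g.norm_sub_le' x y
      rw [← h0] at this ⊢
      simpa using this
    · have := h (Sum.inr (x, y))
      rw [hφ2, inv_mul_le_iff₀ h0, mul_comm] at this
      exact this
  · rintro (x | ⟨x, y⟩)
    · exact hT x
    · exact ((hT x).sub (hT y)).const_smul (((w x y : ℝ) : ℂ)⁻¹)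

theorem differentiableOn_toHol [CompleteSpace V] {f : P → Y → V} {U : Set P} (hU : IsOpen U)
    {A B : ℝ} (hA : 0 ≤ A) (hB : 0 ≤ B) (h0 : ∀ p ∈ U, ∀ x, ‖f p x‖ ≤ A)
    (h1 : ∀ p ∈ U, ∀ x y, ‖f p x - f p y‖ ≤ B * w x y)
    (hf : ∀ x, DifferentiableOn ℂ (fun p => f p x) U) :
    DifferentiableOn ℂ (fun p => toHol w (f p)) U :=
  differentiableOn_hol hU (fun p hp => norm_toHol_le hA hB (h0 p hp) (h1 p hp)) fun x =>
    (hf x).congr fun p hp => toHol_apply (h0 p hp) (h1 p hp) x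

variable (w) in
/-- The hypotheses on the function defining a composition operator. -/
structure NemOK (Ψ : Y → V → W) (R M : ℝ) : Prop where
  pos : 0 < R
  nonneg : 0 ≤ M
  diff : ∀ x, DifferentiableOn ℂ (Ψ x) (ball 0 R)
  bdd : ∀ x, ∀ ξ ∈ ball (0 : V) R, ‖Ψ x ξ‖ ≤ M
  hol : ∀ x y, ∀ ξ ∈ ball (0 : V) R, ‖Ψ x ξ - Ψ y ξ‖ ≤ M * w x y

variable (w) in
/-- The composition operator. -/
def Nem (Ψ : Y → V → W) (f : Hol w V) : Hol w W := toHol w fun x => Ψ x (f x)

namespace NemOK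

variable {Ψ : Y → V → W} {R M : ℝ}

lemma mem (h : NemOK w Ψ R M) {f : Hol w V} (hf : f ∈ ball (0 : Hol w V) (R / 2)) (x : Y) :
    f x ∈ ball (0 : V) (R - R / 2) := by
  rw [mem_ball_zero_iff] at hf ⊢
  have := f.norm_apply_le x
  linarith

lemma mem' (h : NemOK w Ψ R M) {f : Hol w V} (hf : f ∈ ball (0 : Hol w V) (R / 2)) (x : Y) :
    f x ∈ ball (0 : V) R := ball_subset_ball (by linarith [h.pos]) (h.mem hf x)

lemma sub_le (h : NemOK w Ψ R M) {f : Hol w V} (hf : f ∈ ball (0 : Hol w V) (R / 2)) (x y : Y) :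
    ‖Ψ x (f x) - Ψ y (f y)‖ ≤ 2 * M * w x y := by
  have hR := h.pos
  have hM := h.nonneg
  have h1 := lip_inner (half_pos hR) (h.diff x) (h.bdd x) (h.mem hf x) (h.mem hf y)
  have h2 := h.hol x y _ (h.mem' hf y)
  have h3 : ‖f x - f y‖ ≤ R / 2 * w x y := (f.norm_sub_le' x y).trans
    (mul_le_mul_of_nonneg_right (mem_ball_zero_iff.1 hf).le (NNReal.coe_nonneg _))
  have h4 : M / (R / 2) * ‖f x - f y‖ ≤ M * w x y := by
    calc M / (R / 2) * ‖f x - f y‖ ≤ M / (R / 2) * (R / 2 * w x y) := by gcongr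
      _ = M * w x y := by field_simp
  calc ‖Ψ x (f x) - Ψ y (f y)‖ = ‖(Ψ x (f x) - Ψ x (f y)) + (Ψ x (f y) - Ψ y (f y))‖ := by
        congr 1; abel
    _ ≤ _ := norm_add_le _ _
    _ ≤ _ := by linarith

lemma apply (h : NemOK w Ψ R M) {f : Hol w V} (hf : f ∈ ball (0 : Hol w V) (R / 2)) (x : Y) :
    Nem w Ψ f x = Ψ x (f x) :=
  toHol_apply (fun x => h.bdd x _ (h.mem' hf x)) (h.sub_le hf) x

lemma norm_le (h : NemOK w Ψ R M) {f : Hol w V} (hf : f ∈ ball (0 : Hol w V) (R / 2)) :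
    ‖Nem w Ψ f‖ ≤ 3 * M := by
  have hM := h.nonneg
  have := norm_toHol_le hM (by positivity : 0 ≤ 2 * M) (fun x => h.bdd x _ (h.mem' hf x))
    (h.sub_le hf)
  unfold Nem
  linarith

/-- **Composition operators are holomorphic.** -/
theorem differentiableOn [CompleteSpace W] (h : NemOK w Ψ R M) :
    DifferentiableOn ℂ (Nem w Ψ) (ball 0 (R / 2)) := by
  have hM := h.nonneg
  refine differentiableOn_toHol (f := fun (f : Hol w V) x => Ψ x (f x)) isOpen_ball hM
    (by positivity : 0 ≤ 2 * M) (fun f hf x => h.bdd x _ (h.mem' hf x)) (fun f hf => h.sub_le hf)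
    fun x => ?_
  exact (h.diff x).comp (evalK ℂ x).differentiable.differentiableOn fun f hf => h.mem' hf x

lemma fderiv_apply [CompleteSpace W] (h : NemOK w Ψ R M) {f : Hol w V}
    (hf : f ∈ ball (0 : Hol w V) (R / 2)) (g : Hol w V) (x : Y) :
    fderiv ℂ (Nem w Ψ) f g x = fderiv ℂ (Ψ x) (f x) (g x) := by
  rw [fderiv_eval (h.differentiableOn.differentiableAt (isOpen_ball.mem_nhds hf))]
  have h1 : (fun q : Hol w V => Nem w Ψ q x) =ᶠ[𝓝 f] fun q => Ψ x (q x) := by
    filter_upwards [isOpen_ball.mem_nhds hf] with q hq using h.apply hq x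
  rw [h1.fderiv_eq]
  have h2 : HasFDerivAt (Ψ x) (fderiv ℂ (Ψ x) (f x)) (evalK ℂ x f) :=
    ((h.diff x).differentiableAt (isOpen_ball.mem_nhds (h.mem' hf x))).hasFDerivAt
  have h3 := h2.comp f (evalK ℂ x (w := w) (V := V)).hasFDerivAt
  exact congrArg (fun L => L g) h3.fderiv

/-- The derivatives at `0` form a Hölder family. -/
def coef (h : NemOK w Ψ R M) : Hol w (V →L[ℂ] W) :=
  ⟨fun x => fderiv ℂ (Ψ x) 0, ⟨M / R, fun x =>
    P281.MF.norm_fderiv_le_of_ball h.pos (h.diff x) (h.bdd x)⟩, ⟨M / R, fun x y => by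
    have hx := (h.diff x).differentiableAt (ball_mem_nhds 0 h.pos)
    have hy := (h.diff y).differentiableAt (ball_mem_nhds 0 h.pos)
    rw [← fderiv_fun_sub hx hy]
    refine (P281.MF.norm_fderiv_le_of_ball h.pos ((h.diff x).sub (h.diff y))
      (h.hol x y)).trans (le_of_eq ?_)
    ring⟩⟩

lemma coef_apply (h : NemOK w Ψ R M) (x : Y) : h.coef x = fderiv ℂ (Ψ x) 0 := rfl

lemma fderiv_zero [CompleteSpace W] (h : NemOK w Ψ R M) :
    fderiv ℂ (Nem w Ψ) 0 = appK h.coef := by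
  ext g x
  rw [h.fderiv_apply (mem_ball_self (half_pos h.pos))]
  rfl

lemma lip [CompleteSpace W] (h : NemOK w Ψ R M) {f g : Hol w V}
    (hf : f ∈ ball (0 : Hol w V) (R / 4)) (hg : g ∈ ball (0 : Hol w V) (R / 4)) :
    ‖Nem w Ψ f - Nem w Ψ g‖ ≤ 12 * M / R * ‖f - g‖ := by
  have hR := h.pos
  have h1 : R / 4 = R / 2 - R / 4 := by ring
  have := lip_inner (r := R / 4) (by positivity) h.differentiableOn (fun y hy => h.norm_le hy)
    (h1 ▸ hf) (h1 ▸ hg)
  refine this.trans (le_of_eq ?_)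
  field_simp
  ring

end NemOK

end holo

end Vale.Agent.P218CO
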