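import Vale.Agent.P218CO.JH
import Vale.Agent.P218CO.Nem

/-! # The system as a map between Banach spaces: definitions -/

open Set Filter Metric Topology Complex MeasureTheory
open scoped ContDiff

noncomputable section

set_option linter.unusedSectionVars false
set_option linter.unusedVariables false

namespace Vale.Agent.P218CO

open Vale.Agent.P218VA Vale.Agent.P218MP Vale.Agent.P272.K.LIN

variable {σ β Λ τ ν M : Type} [TopologicalSpace M] [ChartedSpace E2 M] [Fintype σ] [Fintype β]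
  [Fintype Λ] [Fintype τ] [Fintype ν]

/-- the cutoff which is `1` on `[s + 2, s + 7]` and supported in `[s + 1, s + 8]` -/
def bmp (s w : ℝ) : ℝ := st (s + 1) w - st (s + 7) w

/-- the first order jets of the functions on the collars, as a function on the surface -/
def Ends.oFun (𝓔 : Ends σ M) (s : ℝ) (μ : σ → ℝ × ℝ → ℂ) (x : M) : σ → T3 ℂ :=
  fun j => 𝓔.onEnd j (fun p => ((bmp s p.1 : ℝ) : ℂ) • (pj (μ j) p).1) x

/-- the same as a Hölder function -/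
def Ends.oMap (𝓔 : Ends σ M) (𝒞 : Cov E2 M) (s : ℝ) (μ : σ → ℝ × ℝ → ℂ) : Hw 𝒞 (σ → T3 ℂ) :=
  toHol _ (𝓔.oFun s μ)

/-- the fibre variables: jets of `v`, jets on the collars, parameter -/
abbrev FV (𝒞 : Cov E2 M) (σ β : Type) : Type := Cx (JV 𝒞) × (σ → T3 ℂ) × (β → ℂ)

/-- the target space -/
abbrev YY (𝒞 : Cov E2 M) (ν τ : Type) : Type := Hw 𝒞 ℂ × (ν → ℂ) × (τ → ℂ)

variable [T2Space M] [RSm E2 M] (𝒞 : Cov E2 M) (c : CoreOp σ β M)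

/-- the partition of unity -/
def pu (i : Fin 𝒞.N) (x : M) : ℝ := 𝒞.η i x * 𝒞.η i x / ∑ k, 𝒞.η k x * 𝒞.η k x

/-- the operator in the core, on cut off jets -/
def CoreOp.PsiN (x : M) (ξ : FV 𝒞 σ β) : ℂ :=
  ∑ i, (pu 𝒞 i x : ℂ) * c.Nj (𝒞.e i) (𝒞.e i x) (RC 𝒞 (𝒞.e i) (𝒞.e i x) ξ.1, ξ.2.2)

/-- the operator on the collar `j`, on cut off jets -/
def CoreOp.PsiC (s : ℝ) (j : σ) (x : M) (ξ : FV 𝒞 σ β) : ℂ :=
  (c.op j).COL s (lp (c.𝓔.φ j x)) (RP 𝒞 (c.𝓔.φ j) (c.𝓔.φ j x) ξ.1) (ξ.2.1 j)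

/-- the Laplacian near the puncture `j`, on cut off jets -/
def CoreOp.PsiL (j : σ) (x : M) (ξ : FV 𝒞 σ β) : ℂ :=
  (RC 𝒞 (c.𝓔.φ j) (c.𝓔.φ j x) ξ.1).2.1 + (RC 𝒞 (c.𝓔.φ j) (c.𝓔.φ j x) ξ.1).2.2.2

/-- the function which defines the composition operator -/
def CoreOp.Psi (s : ℝ) (x : M) (ξ : FV 𝒞 σ β) : ℂ :=
  (c.𝓔.core (s + 2) x : ℝ) * c.PsiN 𝒞 x ξ +
    ∑ j, (((c.𝓔.cut j (s + 2) x - c.𝓔.cut j (s + 6) x : ℝ) : ℂ) * c.PsiC 𝒞 s j x ξ +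
      (c.𝓔.cut j (s + 6) x : ℝ) * c.PsiL 𝒞 j x ξ)

variable {𝒞}

/-- the Hölder function of all fibre variables -/
def fib : VC 𝒞 × Hw 𝒞 (σ → T3 ℂ) × (β → ℂ) →L[ℂ] Hw 𝒞 (FV 𝒞 σ β) :=
  (mapK (ContinuousLinearMap.inl ℂ _ _)).comp (JH.comp (ContinuousLinearMap.fst ℂ _ _)) +
    (mapK ((ContinuousLinearMap.inr ℂ _ _).comp (ContinuousLinearMap.inl ℂ _ _))).comp
      ((ContinuousLinearMap.fst ℂ _ _).comp (ContinuousLinearMap.snd ℂ _ _)) +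
    (constK _ ℂ).comp (((ContinuousLinearMap.inr ℂ _ _).comp (ContinuousLinearMap.inr ℂ _ _)).comp
      ((ContinuousLinearMap.snd ℂ _ _).comp (ContinuousLinearMap.snd ℂ _ _)))

lemma fib_apply (q : VC 𝒞 × Hw 𝒞 (σ → T3 ℂ) × (β → ℂ)) (x : M) :
    fib q x = (JH q.1 x, q.2.1 x, q.2.2) := by
  have h : fib q x = ((JH q.1 x, 0) : FV 𝒞 σ β) + (0, (q.2.1 x, 0)) + (0, (0, q.2.2)) := rfl
  rw [h]
  simp

end Vale.Agent.P218CO
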