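import Vale.Agent.P218CO.Ends
import Vale.Agent.P218CO.Loc

/-! # The operators on an end and the collar system -/

open Set Filter Metric Topology
open scoped ContDiff

noncomputable section

set_option linter.unusedSectionVars false
set_option linter.unusedVariables false

namespace Vale.Agent.P218CO

open Vale.Agent.P218VA Vale.Agent.P218MP

/-- the pairing of coefficients and Hessians -/
def pair (a h : T3 ℂ) : ℂ := a.1 * h.1 + a.2.1 * h.2.1 + a.2.2 * h.2.2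

/-- A quasilinear operator `a (p, j¹u) (H p + D²u) + b (p, j¹u)` in polar coordinates. -/
structure EndOp where
  /-- the coefficients of `(u_ww, u_wθ, u_θθ)` -/
  a : ℝ × ℝ → T3 ℂ → T3 ℂ
  /-- the lower order part -/
  b : ℝ × ℝ → T3 ℂ → ℂ
  /-- the Hessian of the base solution -/
  H : ℝ × ℝ → T3 ℂ

/-- the cutoff for the function on the end, with two derivatives -/
def c1 (s w : ℝ) : T3 ℂ := d012 (st (s + 3)) w

/-- the cutoff for the function on the core, with two derivatives -/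
def c2 (s w : ℝ) : T3 ℂ := d012 (fun w => 1 - st (s + 5) w) w

/-- the switch for the lower order terms -/
def rh (s w : ℝ) : ℂ := (st (s + 4) w : ℝ)

/-- the first order jet of the glued function -/
def u1j (s w : ℝ) (jv jμ : T3 ℂ) : T3 ℂ := jm1 (c2 s w) jv + jm1 (c1 s w) jμ

namespace EndOp

variable (o : EndOp)

/-- the operator -/
def E (p : ℝ × ℝ) (j : J2 ℂ) : ℂ := pair (o.a p j.1) (o.H p + j.2) + o.b p j.1

/-- the equation for the function `μ` on the end -/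
def END (s : ℝ) (p : ℝ × ℝ) (jv : T3 ℂ) (jμ : J2 ℂ) : ℂ :=
  pair (o.a p (u1j s p.1 jv jμ.1)) (o.H p + jμ.2 + jcm (c2 s p.1) jv) + o.b p jμ.1 +
    rh s p.1 * (o.b p (u1j s p.1 jv jμ.1) - o.b p jμ.1)

/-- the equation for the function `v` on the collar -/
def COL (s : ℝ) (p : ℝ × ℝ) (jv : J2 ℂ) (jμ : T3 ℂ) : ℂ :=
  pair (o.a p (u1j s p.1 jv.1 jμ)) ((1 - (c1 s p.1).1) • o.H p + jv.2 + jcm (c1 s p.1) jμ) +
    (1 - rh s p.1) * o.b p (u1j s p.1 jv.1 jμ) - ((c1 s p.1).1 - rh s p.1) * o.b p jμ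

/-- the linearised operator -/
def L (p : ℝ × ℝ) : J2 ℂ →L[ℂ] ℂ := fderiv ℂ (o.E p) 0

/-- The hypotheses on the operator above the level `s`. -/
structure Good (s : ℝ) : Prop where
  pa : Per o.a
  pb : Per o.b
  pH : Per o.H
  mixa : ∀ p : ℝ × ℝ, s < p.1 → Mix (fun q : (ℝ × ℝ) × T3 ℂ => o.a q.1 q.2) (p, 0)
  mixb : ∀ p : ℝ × ℝ, s < p.1 → Mix (fun q : (ℝ × ℝ) × T3 ℂ => o.b q.1 q.2) (p, 0)
  cda : ∀ p : ℝ × ℝ, s < p.1 → ContDiffAt ℝ 2 (fun q : (ℝ × ℝ) × T3 ℂ => o.a q.1 q.2) (p, 0)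
  cdb : ∀ p : ℝ × ℝ, s < p.1 → ContDiffAt ℝ 2 (fun q : (ℝ × ℝ) × T3 ℂ => o.b q.1 q.2) (p, 0)
  cdH : ∀ p : ℝ × ℝ, s < p.1 → ContDiffAt ℝ 1 o.H p
  base : ∀ p : ℝ × ℝ, s < p.1 → o.E p 0 = 0
  ra : ∀ p j, star j = j → star (o.a p j) = o.a p j
  rb : ∀ p j, star j = j → star (o.b p j) = o.b p j
  rH : ∀ p, star (o.H p) = o.H p
  ell : ∀ p : ℝ × ℝ, s < p.1 → 0 < (o.a p 0).1.re ∧
    (o.a p 0).2.1.re ^ 2 < 4 * (o.a p 0).1.re * (o.a p 0).2.2.re
  sup1 : ∀ p : ℝ × ℝ, s < p.1 → (fderiv ℂ (o.b p) 0 (0, 1, 0)).re ≤ 0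
  sup0 : ∀ p : ℝ × ℝ, s < p.1 → (fderiv ℂ (o.b p) 0 (1, 0, 0)).re ≤ (o.a p 0).1.re / 300

/-- The condition which makes `w ^ 3` a supersolution of the linearised operator. -/
def Ext (s : ℝ) : Prop := ∀ p : ℝ × ℝ, s < p.1 →
  (o.L p (0, (1, 0, 0))).re * 6 + (o.L p ((0, 1, 0), 0)).re * (3 * p.1) +
    (o.L p ((1, 0, 0), 0)).re * p.1 ^ 2 < 0

/-- the operator for the opposite orientation -/
def flip : EndOp := ⟨fun p j => o.a p (-j), fun p j => -o.b p (-j), fun p => -o.H p⟩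

variable {o}

lemma Good.mono {s s' : ℝ} (h : o.Good s) (hs : s ≤ s') : o.Good s' :=
  ⟨h.pa, h.pb, h.pH, fun p hp => h.mixa p (hs.trans_lt hp), fun p hp => h.mixb p (hs.trans_lt hp),
    fun p hp => h.cda p (hs.trans_lt hp), fun p hp => h.cdb p (hs.trans_lt hp),
    fun p hp => h.cdH p (hs.trans_lt hp), fun p hp => h.base p (hs.trans_lt hp), h.ra, h.rb, h.rH,
    fun p hp => h.ell p (hs.trans_lt hp), fun p hp => h.sup1 p (hs.trans_lt hp),
    fun p hp => h.sup0 p (hs.trans_lt hp)⟩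

end EndOp

/-- `μ` solves the equation on the end on the levels `I`, for the first order jet `jv`. -/
structure EndSol (o : EndOp) (s : ℝ) (I : Set ℝ) (jv : ℝ × ℝ → T3 ℂ) (μ : ℝ × ℝ → ℂ) : Prop where
  per : Per μ
  cd : ∀ p : ℝ × ℝ, p.1 ∈ I → ContDiffAt ℝ 2 μ p
  eq : ∀ p : ℝ × ℝ, p.1 ∈ I → o.END s p (jv p) (pj μ p) = 0

/-- `μ` solves the linearised equation on the end above the level `s`. -/
structure LinEnd (o : EndOp) (s : ℝ) (jv : ℝ × ℝ → T3 ℂ) (μ : ℝ × ℝ → ℂ) : Prop where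
  per : Per μ
  cont : ContinuousOn μ (Ici s ×ˢ univ)
  cd : ∀ p : ℝ × ℝ, s < p.1 → ContDiffAt ℝ 2 μ p
  eq : ∀ p : ℝ × ℝ, s < p.1 → HasDerivAt (fun t : ℂ => o.END s p (t • jv p) (t • pj μ p)) 0 0

/-! ### the cutoff jets -/

lemma d012_congr {χ χ' : ℝ → ℝ} {w : ℝ} (h : χ =ᶠ[𝓝 w] χ') : d012 χ w = d012 χ' w := by
  unfold d012
  rw [h.self_of_nhds, h.deriv_eq, h.deriv.deriv_eq]

lemma d012_const (c w : ℝ) : d012 (fun _ => c) w = ((c : ℂ), 0, 0) := by simp [d012]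

lemma continuous_d012 {χ : ℝ → ℝ} (hχ : ContDiff ℝ 2 χ) : Continuous (d012 χ) := by
  have h1 : ContDiff ℝ 1 (deriv χ) := hχ.deriv'
  have h2 := h1.continuous_deriv le_rfl
  have h3 := h1.continuous
  have h4 := hχ.continuous
  unfold d012
  fun_prop

lemma d012_of_le {χ : ℝ → ℝ} (hχ : ContDiff ℝ 2 χ) {a c w : ℝ} (h : ∀ t, t ≤ a → χ t = c)
    (hw : w ≤ a) : d012 χ w = ((c : ℂ), 0, 0) := by
  have h1 : EqOn (d012 χ) (fun _ => ((c : ℂ), 0, 0)) (Iio a) := fun t ht => by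
    rw [← d012_const c t]
    exact d012_congr ((eventually_lt_nhds ht).mono fun u hu => h u hu.le)
  exact h1.closure (continuous_d012 hχ) continuous_const (by rwa [closure_Iio])

lemma d012_of_ge {χ : ℝ → ℝ} (hχ : ContDiff ℝ 2 χ) {a c w : ℝ} (h : ∀ t, a ≤ t → χ t = c)
    (hw : a ≤ w) : d012 χ w = ((c : ℂ), 0, 0) := by
  have h1 : EqOn (d012 χ) (fun _ => ((c : ℂ), 0, 0)) (Ioi a) := fun t ht => by
    rw [← d012_const c t]
    exact d012_congr ((eventually_gt_nhds ht).mono fun u hu => h u hu.le)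
  exact h1.closure (continuous_d012 hχ) continuous_const (by rwa [closure_Ioi])

lemma contDiff_st2 (a : ℝ) : ContDiff ℝ 2 (st a) := contDiff_st' a two_le_inf

lemma contDiff_st2' (a : ℝ) : ContDiff ℝ 2 fun w => 1 - st a w :=
  contDiff_const.sub (contDiff_st2 a)

variable {s w : ℝ}

lemma c1_lo (h : w ≤ s + 3) : c1 s w = (0, 0, 0) := by
  simpa [c1] using d012_of_le (contDiff_st2 (s + 3)) (c := 0) (fun t ht => st_zero ht) h

lemma c1_hi (h : s + 4 ≤ w) : c1 s w = (1, 0, 0) := by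
  simpa [c1] using d012_of_ge (contDiff_st2 (s + 3)) (c := 1) (a := s + 4)
    (fun t ht => st_one (by linarith)) h

lemma c2_lo (h : w ≤ s + 5) : c2 s w = (1, 0, 0) := by
  simpa [c2] using d012_of_le (contDiff_st2' (s + 5)) (c := 1)
    (fun t ht => by rw [st_zero ht, sub_zero]) h

lemma c2_hi (h : s + 6 ≤ w) : c2 s w = (0, 0, 0) := by
  simpa [c2] using d012_of_ge (contDiff_st2' (s + 5)) (c := 0) (a := s + 6)
    (fun t ht => by rw [st_one (by linarith), sub_self]) h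

lemma rh_lo (h : w ≤ s + 4) : rh s w = 0 := by simp [rh, st_zero h]

lemma rh_hi (h : s + 5 ≤ w) : rh s w = 1 := by simp [rh, st_one (show s + 4 + 1 ≤ w by linarith)]

@[simp] lemma jm1_one (j : T3 ℂ) : jm1 (1, 0, 0) j = j := by simp [jm1]
@[simp] lemma jm1_zero (j : T3 ℂ) : jm1 (0, 0, 0) j = 0 := by simp [jm1, Prod.ext_iff]
@[simp] lemma jcm_one (j : T3 ℂ) : jcm (1, 0, 0) j = 0 := by simp [jcm, Prod.ext_iff]
@[simp] lemma jcm_zero (j : T3 ℂ) : jcm (0, 0, 0) j = 0 := by simp [jcm, Prod.ext_iff]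
@[simp] lemma jm1_zero' (c : T3 ℂ) : jm1 c 0 = 0 := by simp [jm1, Prod.ext_iff]
@[simp] lemma jcm_zero' (c : T3 ℂ) : jcm c 0 = 0 := by simp [jcm, Prod.ext_iff]
@[simp] lemma u1j_zero : u1j s w 0 0 = 0 := by simp [u1j]

lemma pair_add (a h k : T3 ℂ) : pair a (h + k) = pair a h + pair a k := by
  simp only [pair, Prod.fst_add, Prod.snd_add]; ring

lemma pair_smul (a h : T3 ℂ) (c : ℂ) : pair a (c • h) = c * pair a h := by
  simp only [pair, Prod.smul_fst, Prod.smul_snd, smul_eq_mul]; ring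

@[simp] lemma pair_zero (a : T3 ℂ) : pair a 0 = 0 := by simp [pair]

/-- the jet of the glued function -/
def glueJ (s w : ℝ) (jv jμ : J2 ℂ) : J2 ℂ := jmul (c2 s w) jv + jmul (c1 s w) jμ

lemma glueJ_fst (jv jμ : J2 ℂ) : (glueJ s w jv jμ).1 = u1j s w jv.1 jμ.1 := by
  simp [glueJ, jmul_eq, u1j]

lemma glueJ_smul (t : ℂ) (jv jμ : J2 ℂ) : glueJ s w (t • jv) (t • jμ) = t • glueJ s w jv jμ := by
  simp only [glueJ, jmul, Prod.ext_iff, Prod.smul_fst, Prod.smul_snd, Prod.fst_add, Prod.snd_add,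
    smul_eq_mul]
  refine ⟨⟨?_, ?_, ?_⟩, ?_, ?_, ?_⟩ <;> ring

/-- **The collar system is equivalent to the equation for the glued function.** -/
lemma EndOp.glue_eq (o : EndOp) (s : ℝ) (p : ℝ × ℝ) (jv jμ : J2 ℂ) :
    o.E p (glueJ s p.1 jv jμ) =
      (c2 s p.1).1 * o.COL s p jv jμ.1 + (c1 s p.1).1 * o.END s p jv.1 jμ := by
  unfold EndOp.E EndOp.COL EndOp.END
  rw [glueJ_fst]
  simp only [glueJ, jmul_eq, Prod.snd_add, pair_add, pair_smul]
  rcases le_total p.1 (s + 4) with h | h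
  · rw [c2_lo (by linarith), rh_lo h]
    simp only [jcm_one, pair_zero]
    ring
  · rw [c1_hi h]
    simp only [jcm_one, pair_zero]
    rcases le_total p.1 (s + 5) with h' | h'
    · rw [c2_lo h']
      simp only [jcm_one, pair_zero]
      ring
    · rw [rh_hi h']
      ring

lemma EndOp.COL_lo (o : EndOp) {p : ℝ × ℝ} (h : p.1 ≤ s + 3) (jv : J2 ℂ) (jμ : T3 ℂ) :
    o.COL s p jv jμ = o.E p jv := by
  unfold EndOp.E EndOp.COL u1j
  rw [c1_lo h, c2_lo (by linarith), rh_lo (by linarith)]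
  simp

lemma EndOp.END_hi (o : EndOp) {p : ℝ × ℝ} (h : s + 6 ≤ p.1) (jv : T3 ℂ) (jμ : J2 ℂ) :
    o.END s p jv jμ = o.E p jμ := by
  unfold EndOp.E EndOp.END u1j
  rw [c1_hi (by linarith), c2_hi h, rh_hi (by linarith)]
  simp

lemma EndOp.END_zero (o : EndOp) {p : ℝ × ℝ} (h : s + 4 ≤ p.1) (jμ : J2 ℂ) :
    o.END s p 0 jμ = o.E p jμ := by
  unfold EndOp.E EndOp.END u1j
  rw [c1_hi h]
  simp

lemma EndOp.COL_zero {o : EndOp} {p : ℝ × ℝ} (h : o.E p 0 = 0) : o.COL s p 0 0 = 0 := by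
  unfold EndOp.E at h
  unfold EndOp.COL
  simp only [Prod.fst_zero, Prod.snd_zero, add_zero, u1j_zero, jcm_zero', pair_smul] at h ⊢
  linear_combination (1 - (c1 s p.1).1) * h

lemma EndOp.END_base {o : EndOp} {p : ℝ × ℝ} (h : o.E p 0 = 0) : o.END s p 0 0 = 0 := by
  unfold EndOp.E at h
  unfold EndOp.END
  simp only [Prod.fst_zero, Prod.snd_zero, add_zero, u1j_zero, jcm_zero', sub_self, mul_zero]
    at h ⊢
  exact h

/-- the equation on the end does not see `v` above the level `s + 6` -/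
lemma EndSol.congr {o : EndOp} {I : Set ℝ} {jv jv' : ℝ × ℝ → T3 ℂ} {μ : ℝ × ℝ → ℂ}
    (h : EndSol o s I jv μ) (h' : ∀ p : ℝ × ℝ, p.1 ∈ I → p.1 < s + 6 → jv' p = jv p) :
    EndSol o s I jv' μ := by
  refine ⟨h.per, h.cd, fun p hp => ?_⟩
  rcases lt_or_ge p.1 (s + 6) with h1 | h1
  · rw [h' p hp h1]; exact h.eq p hp
  · rw [o.END_hi h1, ← o.END_hi h1 (jv p)]; exact h.eq p hp

/-- the jet of the glued function -/
lemma pj_glue {f g : ℝ × ℝ → ℂ} {p : ℝ × ℝ} (hf : ContDiffAt ℝ 2 f p) (hg : ContDiffAt ℝ 2 g p) :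
    pj (fun q => ((1 - st (s + 5) q.1 : ℝ) : ℂ) * f q + (st (s + 3) q.1 : ℝ) * g q) p =
      glueJ s p.1 (pj f p) (pj g p) := by
  have h1 : ∀ {χ : ℝ → ℝ}, ContDiff ℝ 2 χ → ∀ {f : ℝ × ℝ → ℂ}, ContDiffAt ℝ 2 f p →
      ContDiffAt ℝ 2 (fun q : ℝ × ℝ => (χ q.1 : ℂ) * f q) p := fun hχ _ hf =>
    (Complex.ofRealCLM.contDiff.comp (hχ.comp contDiff_fst)).contDiffAt.mul hf
  unfold pj
  rw [cj_add (h1 (contDiff_st2' _) hf) (h1 (contDiff_st2 _) hg), cj_mul_fst (contDiff_st2' _) hf,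
    cj_mul_fst (contDiff_st2 _) hg]
  rfl

/-! ### the opposite orientation -/

lemma u1j_neg (jv jμ : T3 ℂ) : u1j s w (-jv) (-jμ) = -u1j s w jv jμ := by
  simp only [u1j, jm1, Prod.ext_iff, Prod.fst_neg, Prod.snd_neg, Prod.fst_add, Prod.snd_add]
  refine ⟨?_, ?_, ?_⟩ <;> ring

lemma EndOp.flip_E (o : EndOp) (p : ℝ × ℝ) (j : J2 ℂ) : o.flip.E p j = -o.E p (-j) := by
  simp only [EndOp.E, EndOp.flip, pair, Prod.fst_neg, Prod.snd_neg, Prod.fst_add, Prod.snd_add]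
  ring

lemma EndOp.flip_END (o : EndOp) (p : ℝ × ℝ) (jv : T3 ℂ) (jμ : J2 ℂ) :
    o.flip.END s p jv jμ = -o.END s p (-jv) (-jμ) := by
  simp only [EndOp.END, EndOp.flip, Prod.fst_neg, u1j_neg, pair, jcm, Prod.snd_neg, Prod.fst_add,
    Prod.snd_add]
  ring

end Vale.Agent.P218CO
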