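import Vale.Agent.P218CO.Map

/-! # The function which defines the composition operator is locally holomorphic -/

open Set Filter Metric Topology Complex
open scoped ContDiff

noncomputable section

set_option linter.unusedSectionVars false
set_option linter.unusedVariables false

namespace Vale.Agent.P218CO

open Vale.Agent.P218VA Vale.Agent.P218MP Vale.Agent.P272.K.LIN
open Vale.Agent.P218GA (pol)

lemma contDiff_d012 {χ : ℝ → ℝ} (hχ : ContDiff ℝ ∞ χ) : ContDiff ℝ 1 (d012 χ) := by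
  have h1 : ContDiff ℝ ∞ (deriv χ) := (contDiff_infty_iff_deriv.1 hχ).2
  have h2 : ContDiff ℝ ∞ (deriv (deriv χ)) := (contDiff_infty_iff_deriv.1 h1).2
  have h : ∀ {f : ℝ → ℝ}, ContDiff ℝ ∞ f → ContDiff ℝ 1 fun w => ((f w : ℝ) : ℂ) := fun hf =>
    ofRealCLM.contDiff.comp (hf.of_le one_le_inf)
  exact (h hχ).prodMk ((h h1).prodMk (h h2))

lemma contDiff_c1 (s : ℝ) : ContDiff ℝ 1 (c1 s) := contDiff_d012 (contDiff_st _)

lemma contDiff_c2 (s : ℝ) : ContDiff ℝ 1 (c2 s) :=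
  contDiff_d012 (contDiff_const.sub (contDiff_st _))

lemma contDiff_rh (s : ℝ) : ContDiff ℝ 1 (rh s) :=
  ofRealCLM.contDiff.comp (contDiff_st' (s + 4) one_le_inf)

section mix
variable {E V : Type*} [NormedAddCommGroup E] [NormedSpace ℝ E] [NormedAddCommGroup V]
  [NormedSpace ℂ V] {q : E × V}

lemma Mix.pair {f g : E × V → T3 ℂ} (hf : Mix f q) (hg : Mix g q) :
    Mix (fun z => pair (f z) (g z)) q :=
  (hf.prodMk hg).comp (Θ := fun z : T3 ℂ × T3 ℂ => P218CO.pair z.1 z.2)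
    (by unfold P218CO.pair; fun_prop)

lemma Mix.jm1 {f g : E × V → T3 ℂ} (hf : Mix f q) (hg : Mix g q) :
    Mix (fun z => jm1 (f z) (g z)) q :=
  (hf.prodMk hg).comp (Θ := fun z : T3 ℂ × T3 ℂ => P218CO.jm1 z.1 z.2)
    (by unfold P218CO.jm1; fun_prop)

lemma Mix.jcm {f g : E × V → T3 ℂ} (hf : Mix f q) (hg : Mix g q) :
    Mix (fun z => jcm (f z) (g z)) q :=
  (hf.prodMk hg).comp (Θ := fun z : T3 ℂ × T3 ℂ => P218CO.jcm z.1 z.2)
    (by unfold P218CO.jcm; fun_prop)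

lemma Mix.clm' {W W' : Type*} [NormedAddCommGroup W] [NormedSpace ℂ W] [NormedAddCommGroup W']
    [NormedSpace ℂ W'] {f : E × V → W} (hf : Mix f q) (L : W →L[ℂ] W') :
    Mix (fun z => L (f z)) q := hf.comp L.contDiff.contDiffAt

lemma Mix.p1 {A B : Type*} [NormedAddCommGroup A] [NormedSpace ℂ A] [NormedAddCommGroup B]
    [NormedSpace ℂ B] {f : E × V → A × B} (hf : Mix f q) : Mix (fun z => (f z).1) q :=
  hf.comp (Θ := Prod.fst) contDiffAt_fst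

lemma Mix.p2 {A B : Type*} [NormedAddCommGroup A] [NormedSpace ℂ A] [NormedAddCommGroup B]
    [NormedSpace ℂ B] {f : E × V → A × B} (hf : Mix f q) : Mix (fun z => (f z).2) q :=
  hf.comp (Θ := Prod.snd) contDiffAt_snd

lemma Mix.pr {ι A : Type*} [Fintype ι] [NormedAddCommGroup A] [NormedSpace ℂ A]
    {f : E × V → ι → A} (hf : Mix f q) (i : ι) : Mix (fun z => f z i) q :=
  hf.comp (Θ := fun a => a i) (contDiff_apply ℂ A i).contDiffAt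

lemma Mix.on1 {B W : Type*} [NormedAddCommGroup B] [NormedSpace ℂ B] [NormedAddCommGroup W]
    [NormedSpace ℂ W] {g : E × V → W} {y : E} (hg : Mix g (y, 0)) :
    Mix (fun z : E × (V × B) => g (z.1, z.2.1)) (y, 0) :=
  Mix.comp_snd (c := fun z : E × (V × B) => z.2.1) (p' := (y, 0)) Mix.snd.p1 hg

lemma Mix.on2 {A B W : Type*} [NormedAddCommGroup A] [NormedSpace ℂ A] [NormedAddCommGroup B]
    [NormedSpace ℂ B] [NormedAddCommGroup W] [NormedSpace ℂ W] {g : E × (A × B) → W} {y : E}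
    {a : E × V → A} {b : E × V → B} (hg : Mix g (y, 0)) (ha : Mix a (y, 0)) (hb : Mix b (y, 0))
    (a0 : a (y, 0) = 0) (b0 : b (y, 0) = 0) : Mix (fun z : E × V => g (z.1, (a z, b z))) (y, 0) :=
  Mix.comp_snd (c := fun z : E × V => (a z, b z)) (p' := (y, 0)) (ha.prodMk hb)
    (by rw [a0, b0]; exact hg)

lemma mix_lp {W : Type*} [NormedAddCommGroup W] [NormedSpace ℂ W] {g : (ℝ × ℝ) × V → W}
    (hg : ∀ ζ, Per fun p => g (p, ζ)) {p : ℝ × ℝ} {ζ : V} (h : Mix g (p, ζ)) :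
    Mix (fun z : E2 × V => g (lp z.1, z.2)) (pol p, ζ) := by
  obtain ⟨σ, h1, h2, h3, -⟩ := exists_local_inv p
  have h4 := Mix.comp_fst (φ := σ) (y := pol p) (ξ := ζ) (g := g) (h1.of_le one_le_inf)
    (by rwa [h2])
  refine h4.congr ?_
  have h5 : Tendsto (fun z : E2 × V => z.1) (𝓝 (pol p, ζ)) (𝓝 (pol p)) := continuous_fst.tendsto _
  filter_upwards [h5.eventually h3] with z hz
  have := (hg z.2).lp_pol (σ z.1)
  rw [hz] at this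
  exact this

end mix

lemma EndOp.Good.mix_COL {o : EndOp} {s : ℝ} (h : o.Good s) {p : ℝ × ℝ} (hp : s < p.1) :
    Mix (fun q : (ℝ × ℝ) × (J2 ℂ × T3 ℂ) => o.COL s q.1 q.2.1 q.2.2) (p, 0) := by
  have f1 : ∀ {W : Type} [NormedAddCommGroup W] [NormedSpace ℂ W] {χ : ℝ → W}, ContDiff ℝ 1 χ →
      Mix (fun q : (ℝ × ℝ) × (J2 ℂ × T3 ℂ) => χ q.1.1) (p, 0) := fun hχ =>
    Mix.fst (c := fun y : ℝ × ℝ => _) (hχ.comp contDiff_fst).contDiffAt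
  have a1 := f1 (contDiff_c1 s)
  have a2 := f1 (contDiff_c2 s)
  have a3 := f1 (contDiff_rh s)
  have a4 : Mix (fun q : (ℝ × ℝ) × (J2 ℂ × T3 ℂ) => (c1 s q.1.1).1) (p, 0) :=
    a1.p1
  have b1 : Mix (fun q : (ℝ × ℝ) × (J2 ℂ × T3 ℂ) => q.2.1.1) (p, 0) := Mix.snd.p1.p1
  have b2 : Mix (fun q : (ℝ × ℝ) × (J2 ℂ × T3 ℂ) => q.2.1.2) (p, 0) := Mix.snd.p1.p2
  have b3 : Mix (fun q : (ℝ × ℝ) × (J2 ℂ × T3 ℂ) => q.2.2) (p, 0) := Mix.snd.p2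
  have u : Mix (fun q : (ℝ × ℝ) × (J2 ℂ × T3 ℂ) => u1j s q.1.1 q.2.1.1 q.2.2) (p, 0) :=
    (a2.jm1 b1).add (a1.jm1 b3)
  have ua := u.comp_snd (g := fun q : (ℝ × ℝ) × T3 ℂ => o.a q.1 q.2)
    (by simpa using h.mixa p hp)
  have ub := u.comp_snd (g := fun q : (ℝ × ℝ) × T3 ℂ => o.b q.1 q.2)
    (by simpa using h.mixb p hp)
  have vb := b3.comp_snd (g := fun q : (ℝ × ℝ) × T3 ℂ => o.b q.1 q.2) (h.mixb p hp)
  have hH : Mix (fun q : (ℝ × ℝ) × (J2 ℂ × T3 ℂ) => o.H q.1) (p, 0) := Mix.fst (h.cdH p hp)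
  exact ((ua.pair (((((Mix.const 1).sub a4).smul hH).add b2).add (a1.jcm b3))).add
    (((Mix.const 1).sub a3).mul ub)).sub ((a4.sub a3).mul vb)

lemma EndOp.Good.per_COL {o : EndOp} {s : ℝ} (h : o.Good s) (jv : J2 ℂ) (jμ : T3 ℂ) :
    Per fun p => o.COL s p jv jμ := fun w θ => by
  simp only [EndOp.COL, h.pa w θ, h.pb w θ, h.pH w θ]

variable {σ β M : Type} [TopologicalSpace M] [ChartedSpace E2 M] [Fintype σ] [Fintype β]
  [T2Space M] [RSm E2 M]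

lemma locHolAt_chart {V W : Type*} [NormedAddCommGroup V] [NormedSpace ℂ V] [NormedAddCommGroup W]
    [NormedSpace ℂ W] {e : OpenPartialHomeomorph M E2} (he : e ∈ atlas E2 M) {x : M}
    (hx : x ∈ e.source) {g : E2 × V → W} (h : Mix g (e x, 0)) :
    LocHolAt E2 (fun y ξ => g (e y, ξ)) x := by
  refine locHolAt_of_chart he hx (h.congr ?_)
  have h5 : Tendsto (fun z : E2 × V => z.1) (𝓝 (e x, 0)) (𝓝 (e x)) := continuous_fst.tendsto _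
  filter_upwards [h5.eventually (e.open_target.mem_nhds (e.map_source hx))] with z hz
  rw [e.right_inv hz]

lemma locHolAt_real {V : Type*} [NormedAddCommGroup V] [NormedSpace ℂ V] {χ : M → ℝ}
    (hχ : CkFn E2 ∞ χ) (x : M) : LocHolAt E2 (fun y (_ : V) => ((χ y : ℝ) : ℂ)) x :=
  locHolAt_ck (c := fun y => ((χ y : ℝ) : ℂ))
    ((hχ.of_le one_le_inf).comp (g := fun t : ℝ => (t : ℂ)) ofRealCLM.contDiff) x

lemma locHolAt_cut {V : Type*} [NormedAddCommGroup V] [NormedSpace ℂ V] {χ : M → ℝ}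
    (hχ : CkFn E2 ∞ χ) {Ψ : M → V → ℂ} {x : M}
    (h : (∀ᶠ y in 𝓝 x, χ y = 0) ∨ LocHolAt E2 Ψ x) :
    LocHolAt E2 (fun y ξ => ((χ y : ℝ) : ℂ) * Ψ y ξ) x := by
  rcases h with h | h
  · exact locHolAt_zero (h.mono fun y hy ξ => by rw [hy, ofReal_zero, zero_mul])
  · exact (locHolAt_real hχ x).mul h

variable (𝒞 : Cov E2 M)

lemma pu_ck (i : Fin 𝒞.N) : CkFn E2 ∞ (pu 𝒞 i) :=
  ((𝒞.η_ck i).mul (𝒞.η_ck i)).div (CkFn.sum fun k _ => (𝒞.η_ck k).mul (𝒞.η_ck k))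
    fun x => (sum_sq_pos 𝒞 x).ne'

lemma sum_pu (x : M) : ∑ i, pu 𝒞 i x = 1 := by
  unfold pu
  rw [← Finset.sum_div, div_self (sum_sq_pos 𝒞 x).ne']

lemma pu_ev {i : Fin 𝒞.N} {x : M} (hx : x ∉ (𝒞.e i).source) : ∀ᶠ y in 𝓝 x, pu 𝒞 i y = 0 := by
  have h1 : ∀ᶠ z in 𝓝 x, 𝒞.η i z = 0 :=
    ext0_eventually_zero (K := closedBall (𝒞.c i) (3 * 𝒞.r i)) (isCompact_closedBall _ _)
      (𝒞.sub i) (fun y hy => by
        apply (𝒞.bump i).zero_of_le_dist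
        simp only [mem_closedBall, not_le] at hy
        exact hy.le) hx
  filter_upwards [h1] with y hy
  rw [pu, hy, zero_mul, zero_div]

variable {𝓔 : Ends σ M} {j : σ} {x : M} {a : ℝ}

lemma Ends.cut_ev (ha : 𝓔.w0 < a) (hx : x ∉ (𝓔.φ j).source) : ∀ᶠ y in 𝓝 x, 𝓔.cut j a y = 0 :=
  ext0_eventually_zero (isCompact_closedBall _ _) (Ends.closedBall_sub j ha)
    (fun y hy => Ends.stp_eq_zero (not_le.1 fun h => hy (mem_closedBall_zero_iff.2 h)).le) hx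

lemma Ends.ev_pun (j : σ) (a : ℝ) : ∀ᶠ y in 𝓝 ((𝓔.φ j).symm 0), y ∈ (𝓔.φ j).source ∧
    ∀ b, b ≤ a → Ends.stp b (𝓔.φ j y) = 1 := by
  have h0 : (𝓔.φ j).symm 0 ∈ (𝓔.φ j).source := (𝓔.φ j).map_target (Ends.zero_mem j)
  have h1 := (𝓔.φ j).continuousAt h0
  rw [ContinuousAt, (𝓔.φ j).right_inv (Ends.zero_mem j)] at h1
  filter_upwards [(𝓔.φ j).open_source.mem_nhds h0,
    h1.eventually (closedBall_mem_nhds (0 : E2) (Real.exp_pos (-(a + 1))))] with y hy hy'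
  exact ⟨hy, fun b hb => Ends.stp_eq_one ((mem_closedBall_zero_iff.1 hy').trans
    (Real.exp_le_exp.2 (by linarith)))⟩

variable {c : CoreOp σ β M} {s : ℝ}

lemma CoreOp.Good.locHol_N (hc : c.Good s) (hx : x ∈ c.𝓔.reg) : LocHolAt E2 (c.PsiN 𝒞) x := by
  refine LocHolAt.sum (Ψ := fun i y (ξ : FV 𝒞 σ β) => (pu 𝒞 i y : ℂ) *
    c.Nj (𝒞.e i) (𝒞.e i y) (RC 𝒞 (𝒞.e i) (𝒞.e i y) ξ.1, ξ.2.2)) fun i _ => ?_
  refine locHolAt_cut (pu_ck 𝒞 i) ?_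
  by_cases hi : x ∈ (𝒞.e i).source
  swap
  · exact Or.inl (pu_ev 𝒞 hi)
  refine Or.inr (locHolAt_chart (𝒞.mem i) hi (g := fun q : E2 × FV 𝒞 σ β =>
    c.Nj (𝒞.e i) q.1 (RC 𝒞 (𝒞.e i) q.1 q.2.1, q.2.2.2)) ?_)
  exact (hc.mix _ (𝒞.mem i) x hi hx).on2
    (mix_RC (𝒞 := 𝒞) (𝒞.mem i) ((𝒞.e i).map_source hi) 0).on1 Mix.snd.p2.p2 (map_zero _) rfl

lemma CoreOp.Good.locHol_C (hc : c.Good s) {p : ℝ × ℝ} (hp : s < p.1) (j : σ) :
    LocHolAt E2 (c.PsiC 𝒞 s j) (c.𝓔.Y j p) := by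
  have hw := hc.lev.trans hp
  refine locHolAt_chart (c.𝓔.mem j) (Ends.Y_mem j hw) (g := fun q : E2 × FV 𝒞 σ β =>
    (c.op j).COL s (lp q.1) (RP 𝒞 (c.𝓔.φ j) q.1 q.2.1) (q.2.2.1 j)) ?_
  rw [Ends.φ_Y j hw]
  have h3 := mix_lp (g := fun q : (ℝ × ℝ) × (J2 ℂ × T3 ℂ) => (c.op j).COL s q.1 q.2.1 q.2.2)
    (fun ζ => (hc.ops j).per_COL ζ.1 ζ.2) ((hc.ops j).mix_COL hp)
  exact h3.on2 (mix_RP (𝒞 := 𝒞) (c.𝓔.mem j) (Ends.pol_mem j hw) 0).on1 (Mix.snd.p2.p1.pr j)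
    (map_zero _) rfl

lemma CoreOp.locHol_L (c : CoreOp σ β M) (hx : x ∈ (c.𝓔.φ j).source) :
    LocHolAt E2 (c.PsiL 𝒞 j) x := by
  refine locHolAt_chart (c.𝓔.mem j) hx (g := fun q : E2 × FV 𝒞 σ β =>
    (RC 𝒞 (c.𝓔.φ j) q.1 q.2.1).2.1 + (RC 𝒞 (c.𝓔.φ j) q.1 q.2.1).2.2.2) ?_
  have h1 := (mix_RC (𝒞 := 𝒞) (c.𝓔.mem j) ((c.𝓔.φ j).map_source hx) 0).on1
    (B := (σ → T3 ℂ) × (β → ℂ))
  exact h1.p2.p1.add h1.p2.p2.p2

/-- **The function is locally holomorphic everywhere.** -/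
theorem CoreOp.Good.locHol (hc : c.Good s) (x : M) : LocHolAt E2 (c.Psi 𝒞 s) x := by
  have h2 : c.𝓔.w0 < s + 2 := by linarith [hc.lev]
  have h6 : c.𝓔.w0 < s + 6 := by linarith [hc.lev]
  refine LocHolAt.add (locHolAt_cut (Ends.core_ck h2) ?_) (LocHolAt.sum
    (Ψ := fun j y ξ => ((c.𝓔.cut j (s + 2) y - c.𝓔.cut j (s + 6) y : ℝ) : ℂ) * c.PsiC 𝒞 s j y ξ +
      (c.𝓔.cut j (s + 6) y : ℝ) * c.PsiL 𝒞 j y ξ) fun j _ => LocHolAt.add
        (locHolAt_cut ((Ends.cut_ck j h2).sub (Ends.cut_ck j h6)) ?_)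
        (locHolAt_cut (Ends.cut_ck j h6) ?_))
  · by_cases hx : x ∈ c.𝓔.reg
    · exact Or.inr (hc.locHol_N 𝒞 hx)
    · simp only [Ends.reg, mem_ofPred, not_forall, not_not] at hx
      obtain ⟨j, rfl⟩ := hx
      refine Or.inl ((Ends.ev_pun j (s + 2)).mono fun y hy => ?_)
      rw [Ends.core_of_mem hy.1, hy.2 _ le_rfl, sub_self]
  · by_cases hx : x ∈ (c.𝓔.φ j).source
    swap
    · refine Or.inl ?_
      filter_upwards [Ends.cut_ev h2 hx, Ends.cut_ev h6 hx] with y a1 a2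
      rw [a1, a2, sub_self]
    by_cases h0 : c.𝓔.φ j x = 0
    · have : x = (c.𝓔.φ j).symm 0 := by rw [← h0, (c.𝓔.φ j).left_inv hx]
      rw [this]
      refine Or.inl ((Ends.ev_pun j (s + 6)).mono fun y hy => ?_)
      rw [Ends.cut_of_mem hy.1, Ends.cut_of_mem hy.1, hy.2 _ le_rfl, hy.2 _ (by linarith), sub_self]
    obtain ⟨p, hp, -, rfl⟩ := Ends.exists_Y hx h0
    rcases lt_or_ge s p.1 with h | h
    · exact Or.inr (hc.locHol_C 𝒞 h j)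
    · refine Or.inl ?_
      filter_upwards [(Ends.isOpen_below h2).mem_nhds ((Ends.Y_below hp).2 (by linarith))] with y hy
      rw [Ends.cut_below hy, Ends.cut_below (Ends.below_mono (by linarith) hy), sub_self]
  · by_cases hx : x ∈ (c.𝓔.φ j).source
    · exact Or.inr (c.locHol_L 𝒞 hx)
    · exact Or.inl (Ends.cut_ev h6 hx)

theorem CoreOp.Good.exists_nem (hc : c.Good s) :
    ∃ R A, NemOK (𝒞.w (1 / 2)) (c.Psi 𝒞 s) R A :=
  exists_nemOK 𝒞 (by norm_num) (by norm_num) (hc.locHol 𝒞)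

end Vale.Agent.P218CO
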